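import Vale.Agent.Lib.P054.GenMoser

/-!
Sets on few parallel lines in any dimension: pinned bound.
-/

open Finset Module

open scoped Classical

namespace Vale.Agent.Lib.P054

section General

variable {E : Type*} [NormedAddCommGroup E] [InnerProductSpace ℝ E]

/-- Projection along `v`. -/
noncomputable def prjG (v p : E) : E := p - (inner ℝ v p) • v

/-- The heights of the points of `P` above `b`. -/
noncomputable def fibG (v : E) (P : Finset E) (b : E) : Finset ℝ :=
  (P.filter (fun p => prjG v p = b)).image (fun p => inner ℝ v p)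

theorem prjG_add (v p : E) : prjG v p + (inner ℝ v p) • v = p := by
  unfold prjG
  abel

theorem inner_prjG (v : E) (hv : ‖v‖ = 1) (p : E) : inner ℝ v (prjG v p) = (0 : ℝ) := by
  unfold prjG
  rw [inner_sub_right, real_inner_smul_right, real_inner_self_eq_norm_sq, hv]
  ring

theorem mem_of_mem_fibG {v : E} {P : Finset E} {b : E} {x : ℝ} (h : x ∈ fibG v P b) :
    b + x • v ∈ P := by
  obtain ⟨p, hp, rfl⟩ := Finset.mem_image.mp h
  have hp' := Finset.mem_filter.mp hp
  rw [← hp'.2, prjG_add]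
  exact hp'.1

theorem card_fibG (v : E) (P : Finset E) (b : E) :
    (fibG v P b).card = (P.filter (fun p => prjG v p = b)).card := by
  apply Finset.card_image_of_injOn
  intro p hp q hq h
  have hp' := (Finset.mem_filter.mp hp).2
  have hq' := (Finset.mem_filter.mp hq).2
  simp only at h
  rw [← prjG_add v p, ← prjG_add v q, hp', hq', h]

theorem card_eq_sum_fibG (v : E) (P : Finset E) :
    P.card = ∑ b ∈ P.image (prjG v), (fibG v P b).card := by
  rw [Finset.card_eq_sum_card_image (prjG v) P]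
  apply Finset.sum_congr rfl
  intro b _
  rw [card_fibG]

/-- The base points of the lines carrying at least `m` points of `P`. -/
noncomputable def richG (v : E) (P : Finset E) (m : ℕ) : Finset E :=
  (P.image (prjG v)).filter (fun b => m ≤ (fibG v P b).card)

theorem richG_orth (v : E) (hv : ‖v‖ = 1) (P : Finset E) (m : ℕ) {a b : E}
    (ha : a ∈ richG v P m) (hb : b ∈ richG v P m) : inner ℝ v (a - b) = (0 : ℝ) := by
  obtain ⟨p, _, rfl⟩ := Finset.mem_image.mp (Finset.mem_filter.mp ha).1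
  obtain ⟨q, _, rfl⟩ := Finset.mem_image.mp (Finset.mem_filter.mp hb).1
  rw [inner_sub_right, inner_prjG v hv, inner_prjG v hv]
  ring

/-- The pinned lemma for the `m`-rich lines. -/
theorem pinned_richG (v : E) (hv : ‖v‖ = 1) (P : Finset E) (m : ℕ) (hm : 2 ≤ m) (h : ℕ)
    (hh : ∀ p ∈ P, (pinSet P p).card ≤ h) (c : E) (hc : c ∈ richG v P m) :
    (pinSet (richG v P m) c).card * m ^ 2 ≤ 256 * h ^ 2 := by
  have hrich : ∀ b ∈ richG v P m, m ≤ (fibG v P b).card :=
    fun b hb => (Finset.mem_filter.mp hb).2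
  have h1 := pinned_full v hv (richG v P m) (fibG v P) P c m hm hrich (hrich c hc)
    (fun q _ x hx => mem_of_mem_fibG hx) (fun x hx => mem_of_mem_fibG hx) h
    (fun x hx => hh _ (mem_of_mem_fibG hx))
  have e : (richG v P m).image (fun q => horiz v (c, q)) = pinSet (richG v P m) c := by
    unfold pinSet
    apply Finset.image_congr
    intro b hb
    have h0 : inner ℝ (c - b) v = (0 : ℝ) := by
      rw [real_inner_comm]
      exact richG_orth v hv P m hc (Finset.mem_coe.mp hb)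
    simp only [horiz, h0]
    ring
  rwa [e] at h1

end General

/-- The constant of the rich line count. -/
def richConst (D : ℕ) : ℕ := 343 * 4 ^ D * 256 ^ (2 * D + 3)

theorem richConst_pos (D : ℕ) : 1 ≤ richConst D := by
  unfold richConst
  have h1 : 1 ≤ 4 ^ D := Nat.one_le_pow _ _ (by norm_num)
  have h2 : 1 ≤ 256 ^ (2 * D + 3) := Nat.one_le_pow _ _ (by norm_num)
  calc 1 = 1 * 1 * 1 := by norm_num
    _ ≤ 343 * 4 ^ D * 256 ^ (2 * D + 3) :=
        Nat.mul_le_mul (Nat.mul_le_mul (by norm_num) h1) h2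

section Dim

variable {E : Type*} [NormedAddCommGroup E] [InnerProductSpace ℝ E] [FiniteDimensional ℝ E]

/-- Number of `m`-rich lines. -/
theorem rich_count_gen (D : ℕ) (v : E) (hv : ‖v‖ = 1)
    (hdim : finrank ℝ (ℝ ∙ v)ᗮ ≤ D + 2) (P : Finset E) (m : ℕ) (hm : 2 ≤ m) (h : ℕ)
    (hh : ∀ p ∈ P, (pinSet P p).card ≤ h) :
    (richG v P m).card * m ^ (2 * D + 3) ≤ richConst D * h ^ (2 * D + 3) := by
  set B := richG v P m with hB
  set e := 2 * D + 3 with he
  have hmpos : 0 < m ^ 2 := by positivity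
  set H := 256 * h ^ 2 / m ^ 2 with hH
  have hHle : H * m ^ 2 ≤ 256 * h ^ 2 := Nat.div_mul_le_self _ _
  have hpin : ∀ a ∈ B, (pinSet B a).card ≤ H := by
    intro a ha
    exact (Nat.le_div_iff_mul_le hmpos).mpr (pinned_richG v hv P m hm h hh a ha)
  have hmo := moser_all D (ℝ ∙ v)ᗮ hdim B
    (fun a ha b hb => Submodule.mem_orthogonal_singleton_iff_inner_right.mpr
      (richG_orth v hv P m ha hb)) H hpin
  rw [← he] at hmo
  have h2 : (B.card * m ^ e) ^ 2 ≤ (richConst D * h ^ e) ^ 2 := by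
    calc (B.card * m ^ e) ^ 2 = B.card ^ 2 * (m ^ 2) ^ e := by
          rw [mul_pow, ← pow_mul, ← pow_mul, mul_comm e 2]
      _ ≤ (343 * 4 ^ D * H ^ e) * (m ^ 2) ^ e := Nat.mul_le_mul_right _ hmo
      _ = 343 * 4 ^ D * (H * m ^ 2) ^ e := by rw [mul_pow]; ring
      _ ≤ 343 * 4 ^ D * (256 * h ^ 2) ^ e := Nat.mul_le_mul_left _ (Nat.pow_le_pow_left hHle e)
      _ = richConst D * (h ^ e) ^ 2 := by
          unfold richConst
          rw [mul_pow, ← he, ← pow_mul, ← pow_mul, mul_comm e 2]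
          ring
      _ ≤ richConst D * richConst D * (h ^ e) ^ 2 := by
          apply Nat.mul_le_mul_right
          exact Nat.le_mul_of_pos_left _ (richConst_pos D)
      _ = _ := by ring
  exact (Nat.pow_le_pow_iff_left (by norm_num)).mp h2

end Dim

theorem sum_inv_pow_le (f M N : ℕ) (hf : 1 ≤ f) (hM : 1 ≤ M) :
    ∑ m ∈ Finset.Ioc M N, (1 : ℝ) / (m : ℝ) ^ (f + 1) ≤ 1 / (M : ℝ) ^ f := by
  have hMpos : (0 : ℝ) < M := by exact_mod_cast hM
  rcases Nat.lt_or_ge N M with h | h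
  · rw [Finset.Ioc_eq_empty (by omega)]
    simp
  · have key : ∀ N : ℕ, M ≤ N →
        ∑ m ∈ Finset.Ioc M N, (1 : ℝ) / (m : ℝ) ^ (f + 1) ≤ 1 / (M : ℝ) ^ f - 1 / (N : ℝ) ^ f := by
      intro N hN
      induction N, hN using Nat.le_induction with
      | base => simp
      | succ N hN ih =>
        rw [Finset.sum_Ioc_succ_top hN]
        have hx : (1 : ℝ) ≤ N := by exact_mod_cast le_trans hM hN
        have hstep : (1 : ℝ) / ((N + 1 : ℕ) : ℝ) ^ (f + 1) ≤
            1 / (N : ℝ) ^ f - 1 / ((N + 1 : ℕ) : ℝ) ^ f := by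
          push_cast
          set x : ℝ := (N : ℝ) with hxdef
          have hx0 : 0 < x := by linarith
          obtain ⟨g, rfl⟩ : ∃ g, f = g + 1 := ⟨f - 1, by omega⟩
          have hpow : x ^ (g + 1) + x ^ g ≤ (x + 1) ^ (g + 1) := by
            have h1 : x ^ g ≤ (x + 1) ^ g := pow_le_pow_left₀ hx0.le (by linarith) g
            calc x ^ (g + 1) + x ^ g = x ^ g * (x + 1) := by ring
              _ ≤ (x + 1) ^ g * (x + 1) := mul_le_mul_of_nonneg_right h1 (by linarith)
              _ = _ := by ring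
          have e : 1 / x ^ (g + 1) - 1 / (x + 1) ^ (g + 1) =
              ((x + 1) ^ (g + 1) - x ^ (g + 1)) / (x ^ (g + 1) * (x + 1) ^ (g + 1)) := by
            field_simp
          rw [e, div_le_div_iff₀ (by positivity) (by positivity)]
          have h2 : x ^ g ≤ (x + 1) ^ (g + 1) - x ^ (g + 1) := by linarith
          have h3 : 0 < (x + 1) ^ (g + 1) := by positivity
          have h4 : x ^ (g + 1) ≤ ((x + 1) ^ (g + 1) - x ^ (g + 1)) * (x + 1) := by
            calc x ^ (g + 1) = x ^ g * x := by ring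
              _ ≤ x ^ g * (x + 1) := mul_le_mul_of_nonneg_left (by linarith) (by positivity)
              _ ≤ _ := mul_le_mul_of_nonneg_right h2 (by linarith)
          calc 1 * (x ^ (g + 1) * (x + 1) ^ (g + 1))
              = x ^ (g + 1) * (x + 1) ^ (g + 1) := by ring
            _ ≤ (((x + 1) ^ (g + 1) - x ^ (g + 1)) * (x + 1)) * (x + 1) ^ (g + 1) :=
                mul_le_mul_of_nonneg_right h4 h3.le
            _ = _ := by ring
        linarith
    have := key N h
    have h0 : (0 : ℝ) ≤ 1 / (N : ℝ) ^ f := by positivity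
    linarith

section Dim2

variable {E : Type*} [NormedAddCommGroup E] [InnerProductSpace ℝ E] [FiniteDimensional ℝ E]

/-- Splitting the lines at richness `M`. -/
theorem sum_bound_gen (D : ℕ) (v : E) (hv : ‖v‖ = 1)
    (hdim : finrank ℝ (ℝ ∙ v)ᗮ ≤ D + 2) (P : Finset E) (M : ℕ) (hM : 1 ≤ M) (h : ℕ)
    (hh : ∀ p ∈ P, (pinSet P p).card ≤ h) :
    (P.card : ℝ) ≤ ((P.image (prjG v)).card : ℝ) * M +
      (richConst D : ℝ) * (h : ℝ) ^ (2 * D + 3) / (M : ℝ) ^ (2 * D + 2) := by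
  set U := P.image (prjG v) with hU
  set N := P.card with hN
  have hfibN : ∀ b, (fibG v P b).card ≤ N := by
    intro b
    rw [card_fibG]
    exact Finset.card_filter_le _ _
  have hpt : ∀ b, (fibG v P b).card ≤ M +
      ((Finset.Ioc M N).filter (fun m => m ≤ (fibG v P b).card)).card := by
    intro b
    have : Finset.Ioc M (fibG v P b).card ⊆
        (Finset.Ioc M N).filter (fun m => m ≤ (fibG v P b).card) := by
      intro m hm
      have hm' := Finset.mem_Ioc.mp hm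
      exact Finset.mem_filter.mpr ⟨Finset.mem_Ioc.mpr ⟨hm'.1, le_trans hm'.2 (hfibN b)⟩, hm'.2⟩
    have h2 := Finset.card_le_card this
    rw [Nat.card_Ioc] at h2
    omega
  have hsum : N ≤ U.card * M + ∑ m ∈ Finset.Ioc M N, (richG v P m).card := by
    calc N = ∑ b ∈ U, (fibG v P b).card := card_eq_sum_fibG v P
      _ ≤ ∑ b ∈ U, (M + ((Finset.Ioc M N).filter (fun m => m ≤ (fibG v P b).card)).card) :=
          Finset.sum_le_sum (fun b _ => hpt b)
      _ = U.card * M + ∑ b ∈ U, ((Finset.Ioc M N).filter (fun m => m ≤ (fibG v P b).card)).card := by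
          rw [Finset.sum_add_distrib]
          simp
      _ = U.card * M + ∑ m ∈ Finset.Ioc M N, (richG v P m).card := by
          congr 1
          simp only [Finset.card_filter]
          rw [Finset.sum_comm]
          apply Finset.sum_congr rfl
          intro m _
          unfold richG
          rw [Finset.card_filter]
  have hMr : (0 : ℝ) < M := by exact_mod_cast hM
  have hrich : ∀ m ∈ Finset.Ioc M N, ((richG v P m).card : ℝ) ≤
      (richConst D : ℝ) * (h : ℝ) ^ (2 * D + 3) * ((1 : ℝ) / (m : ℝ) ^ (2 * D + 2 + 1)) := by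
    intro m hm
    have hm' := (Finset.mem_Ioc.mp hm).1
    have h2 : 2 ≤ m := by omega
    have hc := rich_count_gen D v hv hdim P m h2 h hh
    have hc' : ((richG v P m).card : ℝ) * (m : ℝ) ^ (2 * D + 3) ≤
        (richConst D : ℝ) * (h : ℝ) ^ (2 * D + 3) := by
      exact_mod_cast hc
    have hmpos : (0 : ℝ) < (m : ℝ) ^ (2 * D + 2 + 1) := by
      have : (0 : ℝ) < m := by exact_mod_cast (by omega : 0 < m)
      positivity
    rw [mul_one_div, le_div_iff₀ hmpos]
    exact hc'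
  have hfinal : ((∑ m ∈ Finset.Ioc M N, (richG v P m).card : ℕ) : ℝ) ≤
      (richConst D : ℝ) * (h : ℝ) ^ (2 * D + 3) / (M : ℝ) ^ (2 * D + 2) := by
    push_cast
    calc ∑ m ∈ Finset.Ioc M N, ((richG v P m).card : ℝ)
        ≤ ∑ m ∈ Finset.Ioc M N, (richConst D : ℝ) * (h : ℝ) ^ (2 * D + 3) *
            ((1 : ℝ) / (m : ℝ) ^ (2 * D + 2 + 1)) :=
          Finset.sum_le_sum hrich
      _ = (richConst D : ℝ) * (h : ℝ) ^ (2 * D + 3) *
            ∑ m ∈ Finset.Ioc M N, ((1 : ℝ) / (m : ℝ) ^ (2 * D + 2 + 1)) := by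
          rw [Finset.mul_sum]
      _ ≤ (richConst D : ℝ) * (h : ℝ) ^ (2 * D + 3) * (1 / (M : ℝ) ^ (2 * D + 2)) :=
          mul_le_mul_of_nonneg_left (sum_inv_pow_le (2 * D + 2) M N (by omega) hM) (by positivity)
      _ = _ := by ring
  have hcast : (N : ℝ) ≤ ((U.card * M : ℕ) : ℝ) +
      ((∑ m ∈ Finset.Ioc M N, (richG v P m).card : ℕ) : ℝ) := by
    exact_mod_cast hsum
  push_cast at hcast hfinal
  linarith

end Dim2

theorem add_pow_le_two (a b : ℝ) (ha : 0 ≤ a) (hb : 0 ≤ b) (e : ℕ) :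
    (a + b) ^ e ≤ 2 ^ e * (a ^ e + b ^ e) := by
  have ha' : 0 ≤ a ^ e := by positivity
  have hb' : 0 ≤ b ^ e := by positivity
  rcases le_total a b with h | h
  · calc (a + b) ^ e ≤ (2 * b) ^ e := pow_le_pow_left₀ (by positivity) (by linarith) e
      _ = 2 ^ e * b ^ e := by rw [mul_pow]
      _ ≤ _ := mul_le_mul_of_nonneg_left (by linarith) (by positivity)
  · calc (a + b) ^ e ≤ (2 * a) ^ e := pow_le_pow_left₀ (by positivity) (by linarith) e
      _ = 2 ^ e * a ^ e := by rw [mul_pow]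
      _ ≤ _ := mul_le_mul_of_nonneg_left (by linarith) (by positivity)

/-- Arithmetic of the final step, with `e = f + 1`. -/
theorem lines_arith_gen (f : ℕ) (K : ℝ) (hK : 0 ≤ K) (n u t M : ℕ) (hM : 1 ≤ M)
    (hb : (n : ℝ) ≤ (u : ℝ) * (M : ℝ) + K * (t : ℝ) ^ (f + 1) / (M : ℝ) ^ f)
    (hMspec : t ^ (f + 1) ≤ M ^ (f + 1) * u) (hmin : 1 < M → (M - 1) ^ (f + 1) * u < t ^ (f + 1))
    (hn : 2 * u ≤ n) :
    (n : ℝ) ^ (f + 1) ≤ 2 ^ (f + 1) * (2 ^ (f + 1) + K ^ (f + 1)) *
      ((u : ℝ) ^ f * (t : ℝ) ^ (f + 1)) := by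
  set e := f + 1 with he
  have hMr : (0 : ℝ) < M := by exact_mod_cast hM
  have hMspecR : (t : ℝ) ^ e ≤ (M : ℝ) ^ e * (u : ℝ) := by exact_mod_cast hMspec
  have hnr : (0 : ℝ) ≤ n := by positivity
  have hXpos : 0 ≤ (u : ℝ) ^ f * (t : ℝ) ^ e := by positivity
  -- the second term
  have hBb : (K * (t : ℝ) ^ e / (M : ℝ) ^ f) ^ e ≤ K ^ e * ((u : ℝ) ^ f * (t : ℝ) ^ e) := by
    rw [div_pow, div_le_iff₀ (by positivity)]
    have h2 : ((t : ℝ) ^ e) ^ f ≤ ((M : ℝ) ^ e * (u : ℝ)) ^ f :=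
      pow_le_pow_left₀ (by positivity) hMspecR f
    calc (K * (t : ℝ) ^ e) ^ e = K ^ e * (t : ℝ) ^ e * ((t : ℝ) ^ e) ^ f := by
          rw [mul_pow, he, pow_succ ((t : ℝ) ^ (f + 1)) f]
          ring
      _ ≤ K ^ e * (t : ℝ) ^ e * ((M : ℝ) ^ e * (u : ℝ)) ^ f :=
          mul_le_mul_of_nonneg_left h2 (by positivity)
      _ = _ := by
          rw [mul_pow, ← pow_mul, ← pow_mul, mul_comm f e]
          ring
  have hB0 : 0 ≤ K * (t : ℝ) ^ e / (M : ℝ) ^ f := by positivity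
  generalize K * (t : ℝ) ^ e / (M : ℝ) ^ f = Bb at hb hBb hB0
  have hK2 : 0 ≤ (2 : ℝ) ^ e := by positivity
  rcases Nat.lt_or_ge 1 M with hM2 | hM1
  · have hmin' := hmin hM2
    have h2M : M ≤ 2 * (M - 1) := by omega
    have hM4 : M ^ e * u ≤ 2 ^ e * t ^ e := by
      calc M ^ e * u ≤ (2 * (M - 1)) ^ e * u :=
            Nat.mul_le_mul_right _ (Nat.pow_le_pow_left h2M e)
        _ = 2 ^ e * ((M - 1) ^ e * u) := by rw [mul_pow]; ring
        _ ≤ 2 ^ e * t ^ e := Nat.mul_le_mul_left _ (le_of_lt hmin')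
    have hM4r : (M : ℝ) ^ e * (u : ℝ) ≤ 2 ^ e * (t : ℝ) ^ e := by exact_mod_cast hM4
    have hA4 : ((u : ℝ) * M) ^ e ≤ 2 ^ e * ((u : ℝ) ^ f * (t : ℝ) ^ e) := by
      calc ((u : ℝ) * M) ^ e = (u : ℝ) ^ f * ((M : ℝ) ^ e * (u : ℝ)) := by
            rw [mul_pow, he, pow_succ (u : ℝ) f]
            ring
        _ ≤ (u : ℝ) ^ f * (2 ^ e * (t : ℝ) ^ e) :=
            mul_le_mul_of_nonneg_left hM4r (by positivity)
        _ = _ := by ring
    have h4 : (n : ℝ) ^ e ≤ ((u : ℝ) * M + Bb) ^ e := pow_le_pow_left₀ hnr hb e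
    have h5 := add_pow_le_two ((u : ℝ) * M) Bb (by positivity) hB0 e
    calc (n : ℝ) ^ e ≤ 2 ^ e * (((u : ℝ) * M) ^ e + Bb ^ e) := le_trans h4 h5
      _ ≤ 2 ^ e * (2 ^ e * ((u : ℝ) ^ f * (t : ℝ) ^ e) + K ^ e * ((u : ℝ) ^ f * (t : ℝ) ^ e)) :=
          mul_le_mul_of_nonneg_left (add_le_add hA4 hBb) hK2
      _ = _ := by ring
  · have hM1' : M = 1 := by omega
    have hn2 : 2 * (u : ℝ) ≤ n := by exact_mod_cast hn
    have hle : (n : ℝ) ≤ 2 * Bb := by
      rw [hM1'] at hb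
      push_cast at hb
      linarith
    have h4 : (n : ℝ) ^ e ≤ (2 * Bb) ^ e := pow_le_pow_left₀ hnr hle e
    rw [mul_pow] at h4
    have h6 : (2 : ℝ) ^ e * Bb ^ e ≤ 2 ^ e * (K ^ e * ((u : ℝ) ^ f * (t : ℝ) ^ e)) :=
      mul_le_mul_of_nonneg_left hBb hK2
    have h7 : 0 ≤ (2 : ℝ) ^ e * (2 ^ e * ((u : ℝ) ^ f * (t : ℝ) ^ e)) := by positivity
    calc (n : ℝ) ^ e ≤ _ := h4
      _ ≤ _ := h6
      _ ≤ _ := by nlinarith

section Dim3

variable {E : Type*} [NormedAddCommGroup E] [InnerProductSpace ℝ E] [FiniteDimensional ℝ E]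

/-- **Few parallel lines, pinned, all dimensions.** -/
theorem lines_bound_gen (D : ℕ) (v : E) (hv : ‖v‖ = 1)
    (hdim : finrank ℝ (ℝ ∙ v)ᗮ ≤ D + 2) (P : Finset E)
    (hn : 2 * (P.image (prjG v)).card ≤ P.card) (h : ℕ)
    (hh : ∀ p ∈ P, (pinSet P p).card ≤ h) :
    (P.card : ℝ) ^ (2 * D + 3) ≤
      2 ^ (2 * D + 3) * (2 ^ (2 * D + 3) + (richConst D : ℝ) ^ (2 * D + 3)) *
      (((P.image (prjG v)).card : ℝ) ^ (2 * D + 2) * (h : ℝ) ^ (2 * D + 3)) := by
  rcases Nat.eq_zero_or_pos (P.image (prjG v)).card with hu0 | hupos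
  · have hUe : P.image (prjG v) = ∅ := Finset.card_eq_zero.mp hu0
    have hP : P = ∅ := Finset.image_eq_empty.mp hUe
    simp [hP]
  have hb := fun M hM => sum_bound_gen D v hv hdim P M hM h hh
  obtain ⟨p0, hp0⟩ : P.Nonempty := by
    by_contra hne
    rw [Finset.not_nonempty_iff_eq_empty] at hne
    rw [hne] at hupos
    simp at hupos
  have htpos : 0 < h := by
    have h1 := hh p0 hp0
    have h2 : 0 < (pinSet P p0).card := Finset.card_pos.mpr ⟨_, mem_pinSet (p := p0) hp0⟩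
    omega
  generalize hu : (P.image (prjG v)).card = u at hb hn hupos ⊢
  generalize hnn : P.card = n at hb hn ⊢
  have hex : ∃ M : ℕ, h ^ (2 * D + 2 + 1) ≤ M ^ (2 * D + 2 + 1) * u :=
    ⟨h, Nat.le_mul_of_pos_right _ hupos⟩
  have hMspec : h ^ (2 * D + 2 + 1) ≤ (Nat.find hex) ^ (2 * D + 2 + 1) * u := Nat.find_spec hex
  have hMpos : 1 ≤ Nat.find hex := by
    by_contra hlt
    have h0 : Nat.find hex = 0 := by omega
    rw [h0] at hMspec
    simp at hMspec
    omega
  exact lines_arith_gen (2 * D + 2) (richConst D : ℝ) (by positivity) n u h (Nat.find hex) hMpos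
    (hb _ hMpos) hMspec (by
      intro hM2
      have hmin : ¬ h ^ (2 * D + 2 + 1) ≤ (Nat.find hex - 1) ^ (2 * D + 2 + 1) * u :=
        Nat.find_min hex (by omega)
      omega) hn

omit [FiniteDimensional ℝ E] in
/-- The pinned squared distances are controlled by the pinned distances. -/
theorem card_pinSet_le_G (P : Finset E) (p : E) :
    (pinSet P p).card ≤ ((P.erase p).image (fun q => ‖q - p‖)).card + 1 := by
  have hsub : pinSet P p ⊆ insert 0 (((P.erase p).image (fun q => ‖q - p‖)).image (fun r => r ^ 2)) := by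
    intro y hy
    obtain ⟨q, hq, rfl⟩ := Finset.mem_image.mp hy
    by_cases hqp : q = p
    · simp [hqp]
    · apply Finset.mem_insert_of_mem
      refine Finset.mem_image.mpr ⟨‖q - p‖, Finset.mem_image.mpr
        ⟨q, Finset.mem_erase.mpr ⟨hqp, hq⟩, rfl⟩, ?_⟩
      rw [norm_sub_rev]
  calc (pinSet P p).card ≤ _ := Finset.card_le_card hsub
    _ ≤ (((P.erase p).image (fun q => ‖q - p‖)).image (fun r => r ^ 2)).card + 1 :=
        Finset.card_insert_le _ _
    _ ≤ _ := Nat.add_le_add_right Finset.card_image_le 1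

/-- Some point of `P` pins many distances. -/
theorem lines_exists_gen (D : ℕ) (v : E) (hv : ‖v‖ = 1)
    (hdim : finrank ℝ (ℝ ∙ v)ᗮ ≤ D + 2) (P : Finset E) (hne : P.Nonempty)
    (hn : 2 * (P.image (prjG v)).card ≤ P.card) :
    ∃ p ∈ P, (P.card : ℝ) ^ (2 * D + 3) ≤
      2 ^ (2 * D + 3) * (2 ^ (2 * D + 3) + (richConst D : ℝ) ^ (2 * D + 3)) *
      (((P.image (prjG v)).card : ℝ) ^ (2 * D + 2) *
        ((((P.erase p).image (fun q => ‖q - p‖)).card : ℝ) + 1) ^ (2 * D + 3)) := by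
  obtain ⟨p, hp, hmax⟩ := Finset.exists_max_image P
    (fun p => ((P.erase p).image (fun q => ‖q - p‖)).card + 1) hne
  refine ⟨p, hp, ?_⟩
  have h := lines_bound_gen D v hv hdim P hn _ (fun q hq => le_trans (card_pinSet_le_G P q) (hmax q hq))
  push_cast at h
  exact h

end Dim3

/-- The statement in `ℝ^d`. -/
theorem lines_Rd (d : ℕ) (hd : 3 ≤ d) :
    ∃ C : ℝ, 0 < C ∧ ∀ (v : EuclideanSpace ℝ (Fin d)), ‖v‖ = 1 →
    ∀ P : Finset (EuclideanSpace ℝ (Fin d)), P.Nonempty →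
      2 * (P.image (fun p => p - (inner ℝ v p) • v)).card ≤ P.card →
      ∃ x ∈ P, (P.card : ℝ) ^ (2 * d - 3) ≤ C *
        (((P.image (fun p => p - (inner ℝ v p) • v)).card : ℝ) ^ (2 * d - 4) *
        ((((P.erase x).image (fun y => ‖y - x‖)).card : ℝ) + 1) ^ (2 * d - 3)) := by
  obtain ⟨D, rfl⟩ : ∃ D, d = D + 3 := ⟨d - 3, by omega⟩
  refine ⟨2 ^ (2 * D + 3) * (2 ^ (2 * D + 3) + (richConst D : ℝ) ^ (2 * D + 3)), by positivity, ?_⟩
  intro v hv P hne hn
  have hv0 : v ≠ 0 := by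
    intro h
    rw [h, norm_zero] at hv
    exact zero_ne_one hv
  have hdim : finrank ℝ (ℝ ∙ v)ᗮ ≤ D + 2 := by
    have h1 := Submodule.finrank_add_finrank_orthogonal (ℝ ∙ v)
    rw [finrank_span_singleton hv0, finrank_euclideanSpace_fin] at h1
    omega
  have e1 : 2 * (D + 3) - 3 = 2 * D + 3 := by omega
  have e2 : 2 * (D + 3) - 4 = 2 * D + 2 := by omega
  rw [e1, e2]
  have e3 : (@Finset.image _ _ (fun a b => Classical.propDecidable (a = b)) (prjG v) P) =
      P.image (fun p => p - (inner ℝ v p) • v) := by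
    ext y
    simp only [Finset.mem_image, prjG]
  have hx := lines_exists_gen D v hv hdim P hne (by rw [e3]; exact hn)
  rw [e3] at hx
  obtain ⟨x, hxP, h⟩ := hx
  refine ⟨x, hxP, ?_⟩
  have e4 : (@Finset.erase _ (fun a b => Classical.propDecidable (a = b)) P x) = P.erase x := by
    ext y
    simp only [Finset.mem_erase]
  rw [e4] at h
  exact h

end Vale.Agent.Lib.P054
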