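import Vale.Agent.Lib.P054.R3

/-!
Sets on few parallel lines in `ℝ³`.
-/

open Finset

open scoped Classical

namespace Vale.Agent.Lib.P054

/-- Two centres in the plane: every point is one of at most two points with prescribed distances
to the two centres. -/
theorem two_center (Q : Finset E2) (c1 c2 : E2) (hne : c1 ≠ c2) :
    Q.card ≤ 2 * ((Q.image (fun b => ‖c1 - b‖ ^ 2)).card *
      (Q.image (fun b => ‖c2 - b‖ ^ 2)).card) := by
  set H1 := Q.image (fun b => ‖c1 - b‖ ^ 2) with hH1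
  set H2 := Q.image (fun b => ‖c2 - b‖ ^ 2) with hH2
  let f : E2 → ℝ × ℝ := fun b => (‖c1 - b‖ ^ 2, ‖c2 - b‖ ^ 2)
  have hmaps : ∀ q ∈ Q, f q ∈ H1 ×ˢ H2 := by
    intro q hq
    exact Finset.mem_product.mpr
      ⟨Finset.mem_image.mpr ⟨q, hq, rfl⟩, Finset.mem_image.mpr ⟨q, hq, rfl⟩⟩
  have hfib : ∀ y ∈ H1 ×ˢ H2, (Q.filter (fun q => f q = y)).card ≤ 2 := by
    intro y _
    by_contra hcon
    push Not at hcon
    obtain ⟨p1, h1, p2, h2, p3, h3, h12, h13, h23⟩ := Finset.two_lt_card.mp hcon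
    set a : ℝ := c2 0 - c1 0 with ha
    set b : ℝ := c2 1 - c1 1 with hb
    have hab : 0 < a ^ 2 + b ^ 2 := by
      by_contra hnot
      have ha0 : a = 0 := by nlinarith [sq_nonneg a, sq_nonneg b]
      have hb0 : b = 0 := by nlinarith [sq_nonneg a, sq_nonneg b]
      apply hne
      apply ext_E2
      · simp only [ha] at ha0; linarith
      · simp only [hb] at hb0; linarith
    -- coordinates relative to `c1`
    have key : ∀ p ∈ Q.filter (fun q => f q = y),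
        (p 0 - c1 0) ^ 2 + (p 1 - c1 1) ^ 2 = y.1 ∧
        2 * (a * (p 0 - c1 0) + b * (p 1 - c1 1)) = y.1 - y.2 + (a ^ 2 + b ^ 2) := by
      intro p hp
      have hpy := (Finset.mem_filter.mp hp).2
      have e1 : ‖c1 - p‖ ^ 2 = y.1 := by rw [← hpy]
      have e2 : ‖c2 - p‖ ^ 2 = y.2 := by rw [← hpy]
      rw [norm_sq_E2] at e1 e2
      simp only [PiLp.sub_apply] at e1 e2
      constructor
      · rw [← e1]; ring
      · rw [← e1, ← e2, ha, hb]; ring
    let g : E2 → ℝ := fun p => -b * (p 0 - c1 0) + a * (p 1 - c1 1)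
    have hsq : ∀ p ∈ Q.filter (fun q => f q = y),
        (g p) ^ 2 = (a ^ 2 + b ^ 2) * y.1 - ((y.1 - y.2 + (a ^ 2 + b ^ 2)) / 2) ^ 2 := by
      intro p hp
      obtain ⟨k1, k2⟩ := key p hp
      have e : (y.1 - y.2 + (a ^ 2 + b ^ 2)) / 2 = a * (p 0 - c1 0) + b * (p 1 - c1 1) := by
        rw [← k2]; ring
      rw [e, ← k1]
      simp only [g]
      ring
    have hinj : ∀ p ∈ Q.filter (fun q => f q = y), ∀ p' ∈ Q.filter (fun q => f q = y),
        g p = g p' → p = p' := by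
      intro p hp p' hp' hg
      obtain ⟨_, k2⟩ := key p hp
      obtain ⟨_, k2'⟩ := key p' hp'
      have hw : a * (p 0 - c1 0) + b * (p 1 - c1 1) = a * (p' 0 - c1 0) + b * (p' 1 - c1 1) := by
        linarith
      simp only [g] at hg
      have hne' : a ^ 2 + b ^ 2 ≠ 0 := ne_of_gt hab
      apply ext_E2
      · have : (a ^ 2 + b ^ 2) * (p 0 - p' 0) = 0 := by
          have e1 : (a ^ 2 + b ^ 2) * (p 0 - p' 0) =
              a * ((a * (p 0 - c1 0) + b * (p 1 - c1 1)) - (a * (p' 0 - c1 0) + b * (p' 1 - c1 1)))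
              - b * ((-b * (p 0 - c1 0) + a * (p 1 - c1 1)) - (-b * (p' 0 - c1 0) + a * (p' 1 - c1 1))) := by
            ring
          rw [e1, hw, hg]; ring
        have := (mul_eq_zero.mp this).resolve_left hne'
        linarith
      · have : (a ^ 2 + b ^ 2) * (p 1 - p' 1) = 0 := by
          have e1 : (a ^ 2 + b ^ 2) * (p 1 - p' 1) =
              b * ((a * (p 0 - c1 0) + b * (p 1 - c1 1)) - (a * (p' 0 - c1 0) + b * (p' 1 - c1 1)))
              + a * ((-b * (p 0 - c1 0) + a * (p 1 - c1 1)) - (-b * (p' 0 - c1 0) + a * (p' 1 - c1 1))) := by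
            ring
          rw [e1, hw, hg]; ring
        have := (mul_eq_zero.mp this).resolve_left hne'
        linarith
    have g12 : g p1 ≠ g p2 := fun h => h12 (hinj _ h1 _ h2 h)
    have g13 : g p1 ≠ g p3 := fun h => h13 (hinj _ h1 _ h3 h)
    have g23 : g p2 ≠ g p3 := fun h => h23 (hinj _ h2 _ h3 h)
    have s12 : (g p1) ^ 2 = (g p2) ^ 2 := by rw [hsq _ h1, hsq _ h2]
    have s13 : (g p1) ^ 2 = (g p3) ^ 2 := by rw [hsq _ h1, hsq _ h3]
    have n2 : g p1 = - g p2 := (sq_eq_sq_iff_eq_or_eq_neg.mp s12).resolve_left g12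
    have n3 : g p1 = - g p3 := (sq_eq_sq_iff_eq_or_eq_neg.mp s13).resolve_left g13
    apply g23
    linarith
  have h := Finset.card_le_mul_card_image_of_maps_to hmaps 2 hfib
  rwa [Finset.card_product] at h

/-- The base points of the vertical lines carrying at least `m` points of `P`. -/
noncomputable def richBase (P : Finset E3) (m : ℕ) : Finset E2 :=
  (P.image proj).filter (fun b => m ≤ (fib P b).card)

/-- Number of `m`-rich vertical lines. -/
theorem rich_count (P : Finset E3) (m : ℕ) (hm : 2 ≤ m) :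
    (richBase P m).card * m ^ 4 ≤ 2 ^ 19 * ((distSet P).card + 1) ^ 4 := by
  set B := richBase P m with hB
  set τ := (distSet P).card + 1 with hτ
  have hrich : ∀ b ∈ B, m ≤ (fib P b).card := fun b hb => (Finset.mem_filter.mp hb).2
  rcases Nat.lt_or_ge 1 B.card with h2 | h1
  · obtain ⟨c1, hc1, c2, hc2, hne⟩ := Finset.one_lt_card.mp h2
    have p1 := pinned_E3 P B c1 m hm hrich (hrich c1 hc1)
    have p2 := pinned_E3 P B c2 m hm hrich (hrich c2 hc2)
    have tc := two_center B c1 c2 hne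
    calc B.card * m ^ 4
        ≤ 2 * ((B.image (fun b => ‖c1 - b‖ ^ 2)).card *
            (B.image (fun b => ‖c2 - b‖ ^ 2)).card) * m ^ 4 := Nat.mul_le_mul_right _ tc
      _ = 2 * (((B.image (fun b => ‖c1 - b‖ ^ 2)).card * m ^ 2) *
            ((B.image (fun b => ‖c2 - b‖ ^ 2)).card * m ^ 2)) := by ring
      _ ≤ 2 * ((512 * τ ^ 2) * (512 * τ ^ 2)) :=
          Nat.mul_le_mul_left _ (Nat.mul_le_mul p1 p2)
      _ = 2 ^ 19 * τ ^ 4 := by ring
  · rcases Nat.eq_zero_or_pos B.card with h0 | hpos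
    · rw [h0]; simp
    · have hone : B.card = 1 := by omega
      obtain ⟨c, hc⟩ := Finset.card_pos.mp hpos
      have p1 := pinned_E3 P B c m hm hrich (hrich c hc)
      have himg : 1 ≤ (B.image (fun b => ‖c - b‖ ^ 2)).card :=
        Finset.card_pos.mpr ⟨_, Finset.mem_image.mpr ⟨c, hc, rfl⟩⟩
      have h3 : m ^ 2 ≤ 512 * τ ^ 2 := by
        calc m ^ 2 = 1 * m ^ 2 := by ring
          _ ≤ _ := le_trans (Nat.mul_le_mul_right _ himg) p1
      rw [hone]
      calc 1 * m ^ 4 = m ^ 2 * m ^ 2 := by ring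
        _ ≤ (512 * τ ^ 2) * (512 * τ ^ 2) := Nat.mul_le_mul h3 h3
        _ ≤ _ := by nlinarith [pow_pos (show 0 < τ from by omega) 4]

theorem sum_inv_four_le (M N : ℕ) (hM : 1 ≤ M) :
    ∑ m ∈ Finset.Ioc M N, (1 : ℝ) / (m : ℝ) ^ 4 ≤ 1 / (M : ℝ) ^ 3 := by
  have hMpos : (0 : ℝ) < M := by exact_mod_cast hM
  rcases Nat.lt_or_ge N M with h | h
  · rw [Finset.Ioc_eq_empty (by omega)]
    simp
  · have key : ∀ N : ℕ, M ≤ N →
        ∑ m ∈ Finset.Ioc M N, (1 : ℝ) / (m : ℝ) ^ 4 ≤ 1 / (M : ℝ) ^ 3 - 1 / (N : ℝ) ^ 3 := by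
      intro N hN
      induction N, hN using Nat.le_induction with
      | base => simp
      | succ N hN ih =>
        rw [Finset.sum_Ioc_succ_top hN]
        have hx : (1 : ℝ) ≤ N := by exact_mod_cast le_trans hM hN
        have hstep : (1 : ℝ) / ((N + 1 : ℕ) : ℝ) ^ 4 ≤
            1 / (N : ℝ) ^ 3 - 1 / ((N + 1 : ℕ) : ℝ) ^ 3 := by
          push_cast
          set x : ℝ := (N : ℝ) with hxdef
          have hx0 : 0 < x := by linarith
          have e : 1 / x ^ 3 - 1 / (x + 1) ^ 3 = ((x + 1) ^ 3 - x ^ 3) / (x ^ 3 * (x + 1) ^ 3) := by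
            field_simp
          rw [e, div_le_div_iff₀ (by positivity) (by positivity)]
          have h1 : 0 ≤ x ^ 3 := by positivity
          have h2 : 0 ≤ x ^ 2 := by positivity
          nlinarith [mul_nonneg h1 hx0.le, mul_nonneg h2 hx0.le, pow_pos hx0 4, pow_pos hx0 5,
            pow_pos hx0 6, pow_pos hx0 3, pow_pos hx0 2, sq_nonneg (x ^ 3)]
        linarith
    have := key N h
    have h0 : (0 : ℝ) ≤ 1 / (N : ℝ) ^ 3 := by positivity
    linarith

/-- Splitting the lines at richness `M`. -/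
theorem sum_bound (P : Finset E3) (M : ℕ) (hM : 1 ≤ M) :
    (P.card : ℝ) ≤ ((P.image proj).card : ℝ) * M +
      2 ^ 19 * (((distSet P).card : ℝ) + 1) ^ 4 / (M : ℝ) ^ 3 := by
  set U := P.image proj with hU
  set N := P.card with hN
  have hfibN : ∀ b, (fib P b).card ≤ N := by
    intro b
    rw [card_fib]
    exact Finset.card_filter_le _ _
  have hpt : ∀ b, (fib P b).card ≤ M +
      ((Finset.Ioc M N).filter (fun m => m ≤ (fib P b).card)).card := by
    intro b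
    have : Finset.Ioc M (fib P b).card ⊆ (Finset.Ioc M N).filter (fun m => m ≤ (fib P b).card) := by
      intro m hm
      have hm' := Finset.mem_Ioc.mp hm
      exact Finset.mem_filter.mpr ⟨Finset.mem_Ioc.mpr ⟨hm'.1, le_trans hm'.2 (hfibN b)⟩, hm'.2⟩
    have h2 := Finset.card_le_card this
    rw [Nat.card_Ioc] at h2
    omega
  have hsum : N ≤ U.card * M + ∑ m ∈ Finset.Ioc M N, (richBase P m).card := by
    calc N = ∑ b ∈ U, (fib P b).card := card_eq_sum_fib P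
      _ ≤ ∑ b ∈ U, (M + ((Finset.Ioc M N).filter (fun m => m ≤ (fib P b).card)).card) :=
          Finset.sum_le_sum (fun b _ => hpt b)
      _ = U.card * M + ∑ b ∈ U, ((Finset.Ioc M N).filter (fun m => m ≤ (fib P b).card)).card := by
          rw [Finset.sum_add_distrib]
          simp
      _ = U.card * M + ∑ m ∈ Finset.Ioc M N, (richBase P m).card := by
          congr 1
          simp only [Finset.card_filter]
          rw [Finset.sum_comm]
          apply Finset.sum_congr rfl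
          intro m _
          unfold richBase
          rw [Finset.card_filter]
  set τ : ℝ := ((distSet P).card : ℝ) + 1 with hτ
  have hτ0 : 0 ≤ τ := by positivity
  have hMr : (0 : ℝ) < M := by exact_mod_cast hM
  have hrich : ∀ m ∈ Finset.Ioc M N, ((richBase P m).card : ℝ) ≤
      2 ^ 19 * τ ^ 4 * ((1 : ℝ) / (m : ℝ) ^ 4) := by
    intro m hm
    have hm' := (Finset.mem_Ioc.mp hm).1
    have h2 : 2 ≤ m := by omega
    have hc := rich_count P m h2
    have hc' : ((richBase P m).card : ℝ) * (m : ℝ) ^ 4 ≤ 2 ^ 19 * τ ^ 4 := by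
      rw [hτ]
      exact_mod_cast hc
    have hmpos : (0 : ℝ) < (m : ℝ) ^ 4 := by
      have : (0 : ℝ) < m := by exact_mod_cast (by omega : 0 < m)
      positivity
    rw [mul_one_div, le_div_iff₀ hmpos]
    exact hc'
  have hfinal : ((∑ m ∈ Finset.Ioc M N, (richBase P m).card : ℕ) : ℝ) ≤
      2 ^ 19 * τ ^ 4 / (M : ℝ) ^ 3 := by
    push_cast
    calc ∑ m ∈ Finset.Ioc M N, ((richBase P m).card : ℝ)
        ≤ ∑ m ∈ Finset.Ioc M N, 2 ^ 19 * τ ^ 4 * ((1 : ℝ) / (m : ℝ) ^ 4) :=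
          Finset.sum_le_sum hrich
      _ = 2 ^ 19 * τ ^ 4 * ∑ m ∈ Finset.Ioc M N, ((1 : ℝ) / (m : ℝ) ^ 4) := by
          rw [Finset.mul_sum]
      _ ≤ 2 ^ 19 * τ ^ 4 * (1 / (M : ℝ) ^ 3) :=
          mul_le_mul_of_nonneg_left (sum_inv_four_le M N hM) (by positivity)
      _ = _ := by ring
  have hcast : (N : ℝ) ≤ ((U.card * M : ℕ) : ℝ) +
      ((∑ m ∈ Finset.Ioc M N, (richBase P m).card : ℕ) : ℝ) := by
    exact_mod_cast hsum
  push_cast at hcast hfinal
  linarith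

theorem fourth_add_le (a b : ℝ) : (a + b) ^ 4 ≤ 8 * (a ^ 4 + b ^ 4) := by
  nlinarith [sq_nonneg (a - b), sq_nonneg (a ^ 2 - b ^ 2), sq_nonneg (a ^ 2 + b ^ 2),
    sq_nonneg (a + b), sq_nonneg ((a + b) ^ 2 - 2 * (a ^ 2 + b ^ 2)),
    mul_nonneg (sq_nonneg (a - b)) (sq_nonneg (a + b)),
    mul_nonneg (sq_nonneg (a - b)) (sq_nonneg (a - b))]

theorem pow_four_bound (c t M u : ℝ) (_hc : 0 ≤ c) (_ht : 0 ≤ t) (hM : 0 < M) (_hu : 0 ≤ u)
    (h : t ^ 4 ≤ M ^ 4 * u) : (c * t ^ 4 / M ^ 3) ^ 4 ≤ c ^ 4 * (u ^ 3 * t ^ 4) := by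
  rw [div_pow, div_le_iff₀ (by positivity)]
  have h2 : (t ^ 4) ^ 3 ≤ (M ^ 4 * u) ^ 3 := pow_le_pow_left₀ (by positivity) h 3
  calc (c * t ^ 4) ^ 4 = c ^ 4 * t ^ 4 * (t ^ 4) ^ 3 := by ring
    _ ≤ c ^ 4 * t ^ 4 * (M ^ 4 * u) ^ 3 := mul_le_mul_of_nonneg_left h2 (by positivity)
    _ = _ := by ring

theorem lines_arith (n u t M : ℕ) (hM : 1 ≤ M)
    (hb : (n : ℝ) ≤ (u : ℝ) * (M : ℝ) + 2 ^ 19 * (t : ℝ) ^ 4 / (M : ℝ) ^ 3)
    (hMspec : t ^ 4 ≤ M ^ 4 * u) (hmin : 1 < M → (M - 1) ^ 4 * u < t ^ 4) (hn : 2 * u ≤ n) :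
    (n : ℝ) ^ 4 ≤ 2 ^ 80 * ((u : ℝ) ^ 3 * (t : ℝ) ^ 4) := by
  have hMr : (0 : ℝ) < M := by exact_mod_cast hM
  have hMspecR : (t : ℝ) ^ 4 ≤ (M : ℝ) ^ 4 * (u : ℝ) := by exact_mod_cast hMspec
  have hprod0 : 0 ≤ (u : ℝ) ^ 3 * (t : ℝ) ^ 4 := by positivity
  have hnr : (0 : ℝ) ≤ n := by positivity
  generalize hX : (u : ℝ) ^ 3 * (t : ℝ) ^ 4 = X at hprod0 ⊢
  have hBb4 : ((2 : ℝ) ^ 19 * (t : ℝ) ^ 4 / (M : ℝ) ^ 3) ^ 4 ≤ ((2 : ℝ) ^ 19) ^ 4 * X := by
    rw [← hX]
    exact pow_four_bound (2 ^ 19) (t : ℝ) (M : ℝ) (u : ℝ) (by norm_num) (by positivity) hMr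
      (by positivity) hMspecR
  generalize hB : (2 : ℝ) ^ 19 * (t : ℝ) ^ 4 / (M : ℝ) ^ 3 = Bb at hb hBb4
  have e76 : ((2 : ℝ) ^ 19) ^ 4 = 75557863725914323419136 := by norm_num
  have e80 : (2 : ℝ) ^ 80 = 1208925819614629174706176 := by norm_num
  rw [e76] at hBb4
  rw [e80]
  rcases Nat.lt_or_ge 1 M with hM2 | hM1
  · have hmin' := hmin hM2
    have h2M : M ≤ 2 * (M - 1) := by omega
    have hM4 : M ^ 4 * u ≤ 16 * t ^ 4 := by
      calc M ^ 4 * u ≤ (2 * (M - 1)) ^ 4 * u :=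
            Nat.mul_le_mul_right _ (Nat.pow_le_pow_left h2M 4)
        _ = 16 * ((M - 1) ^ 4 * u) := by ring
        _ ≤ 16 * t ^ 4 := Nat.mul_le_mul_left _ (le_of_lt hmin')
    have hM4r : (M : ℝ) ^ 4 * (u : ℝ) ≤ 16 * (t : ℝ) ^ 4 := by exact_mod_cast hM4
    have hA4 : ((u : ℝ) * M) ^ 4 ≤ 16 * X := by
      rw [← hX]
      calc ((u : ℝ) * M) ^ 4 = (u : ℝ) ^ 3 * ((M : ℝ) ^ 4 * (u : ℝ)) := by ring
        _ ≤ (u : ℝ) ^ 3 * (16 * (t : ℝ) ^ 4) :=
            mul_le_mul_of_nonneg_left hM4r (by positivity)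
        _ = _ := by ring
    have h4 : (n : ℝ) ^ 4 ≤ ((u : ℝ) * M + Bb) ^ 4 := pow_le_pow_left₀ hnr hb 4
    have h5 := fourth_add_le ((u : ℝ) * M) Bb
    linarith
  · have hM1' : M = 1 := by omega
    have hn2 : 2 * (u : ℝ) ≤ n := by exact_mod_cast hn
    have hle : (n : ℝ) ≤ 2 * Bb := by
      rw [hM1'] at hb
      push_cast at hb
      linarith
    have h4 : (n : ℝ) ^ 4 ≤ (2 * Bb) ^ 4 := pow_le_pow_left₀ hnr hle 4
    have e : (2 * Bb) ^ 4 = 16 * Bb ^ 4 := by ring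
    rw [e] at h4
    linarith

/-- **Few parallel lines.** If `P` meets `u` vertical lines and `n ≥ 2 u`, then
`n ^ 4 ≤ 2 ^ 80 * u ^ 3 * (|Δ(P)| + 1) ^ 4`. -/
theorem lines_bound (P : Finset E3) (hn : 2 * (P.image proj).card ≤ P.card) :
    (P.card : ℝ) ^ 4 ≤ 2 ^ 80 * (((P.image proj).card : ℝ) ^ 3 *
      (((distSet P).card : ℝ) + 1) ^ 4) := by
  rcases Nat.eq_zero_or_pos (P.image proj).card with hu0 | hupos
  · have hUe : P.image proj = ∅ := Finset.card_eq_zero.mp hu0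
    have hP : P = ∅ := Finset.image_eq_empty.mp hUe
    simp [hP]
  have htr : ((distSet P).card : ℝ) + 1 = (((distSet P).card + 1 : ℕ) : ℝ) := by push_cast; ring
  rw [htr]
  have hb := sum_bound P
  rw [htr] at hb
  generalize ht : (distSet P).card + 1 = t at hb ⊢
  generalize hu : (P.image proj).card = u at hb hn hupos ⊢
  generalize hnn : P.card = n at hb hn ⊢
  have htpos : 0 < t := by omega
  have hex : ∃ M : ℕ, t ^ 4 ≤ M ^ 4 * u := ⟨t, Nat.le_mul_of_pos_right _ hupos⟩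
  have hMspec : t ^ 4 ≤ (Nat.find hex) ^ 4 * u := Nat.find_spec hex
  have hMpos : 1 ≤ Nat.find hex := by
    by_contra hlt
    have h0 : Nat.find hex = 0 := by omega
    rw [h0] at hMspec
    simp at hMspec
    omega
  refine lines_arith n u t (Nat.find hex) hMpos (hb _ hMpos) hMspec ?_ hn
  intro hM2
  have hmin : ¬ t ^ 4 ≤ (Nat.find hex - 1) ^ 4 * u := Nat.find_min hex (by omega)
  omega

/-- The number of vertical lines meeting `P`, in coordinates. -/
theorem card_image_proj (P : Finset E3) :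
    (P.image (fun p => (p 0, p 1))).card = (P.image proj).card := by
  have e : P.image (fun p => (p 0, p 1)) = (P.image proj).image (fun b : E2 => (b 0, b 1)) := by
    rw [Finset.image_image]
    apply Finset.image_congr
    intro p _
    simp
  rw [e]
  apply Finset.card_image_of_injective
  intro a b h
  have h' := Prod.mk.inj h
  exact ext_E2 h'.1 h'.2

end Vale.Agent.Lib.P054
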