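import Vale.Agent.Lib.P054.Lines

/-!
Sets that are dense in a product `B × A` with `B ⊂ ℝ²`, `A ⊂ ℝ`: the Guth-Katz bound in the plane
passes to `ℝ³`.
-/

open Finset

open scoped Classical

namespace Vale.Agent.Lib.P054

/-- The bound for planar sets proved by Guth and Katz, with constant `K`. -/
def GuthKatzBound (K : ℝ) : Prop :=
  ∀ B : Finset E2, 2 ≤ B.card → (B.card : ℝ) ≤ K * Real.log (B.card : ℝ) * ((distSet B).card : ℝ)

/-- The third coordinate. -/
noncomputable def height (p : E3) : ℝ := p 2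

theorem log_two_gt_half : (1 / 2 : ℝ) < Real.log 2 := by
  have := Real.log_two_gt_d9
  linarith

theorem height_fiber_le (P : Finset E3) (z : ℝ) (K : ℝ) (hK : 1 ≤ K)
    (GK : GuthKatzBound K) (hn : 2 ≤ P.card) :
    ((P.filter (fun p => height p = z)).card : ℝ) ≤
      2 * K * Real.log (P.card : ℝ) * (((distSet P).card : ℝ) + 1) := by
  set L := P.filter (fun p => height p = z) with hL
  have hn2 : (2 : ℝ) ≤ (P.card : ℝ) := by exact_mod_cast hn
  have hlogn : (1 / 2 : ℝ) < Real.log (P.card : ℝ) :=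
    lt_of_lt_of_le log_two_gt_half (Real.log_le_log (by norm_num) hn2)
  have hK0 : (0 : ℝ) < K := by linarith
  have ht0 : (0 : ℝ) ≤ ((distSet P).card : ℝ) := by positivity
  have hW1 : (1 : ℝ) ≤ 2 * K * Real.log (P.card : ℝ) := by nlinarith
  rcases Nat.lt_or_ge L.card 2 with hlt | hge
  · have : (L.card : ℝ) ≤ 1 := by exact_mod_cast (by omega : L.card ≤ 1)
    nlinarith
  · set L' := L.image proj with hL'
    have hinj : Set.InjOn proj (L : Set E3) := by
      intro p hp q hq h
      have hp' := (Finset.mem_filter.mp (Finset.mem_coe.mp hp)).2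
      have hq' := (Finset.mem_filter.mp (Finset.mem_coe.mp hq)).2
      simp only [height] at hp' hq'
      rw [← lift_proj_add p, ← lift_proj_add q, h, hp', hq']
    have hcard : L'.card = L.card := Finset.card_image_of_injOn hinj
    have hsub : distSet L' ⊆ distSet P := by
      intro r hr
      obtain ⟨z', hz', rfl⟩ := Finset.mem_image.mp hr
      have hz2 := Finset.mem_offDiag.mp hz'
      obtain ⟨p, hp, hp1⟩ := Finset.mem_image.mp hz2.1
      obtain ⟨q, hq, hq1⟩ := Finset.mem_image.mp hz2.2.1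
      have hne : p ≠ q := by
        intro h
        apply hz2.2.2
        rw [← hp1, ← hq1, h]
      have hp' := Finset.mem_filter.mp hp
      have hq' := Finset.mem_filter.mp hq
      have hnorm : ‖z'.1 - z'.2‖ = ‖p - q‖ := by
        rw [← hp1, ← hq1]
        have hp2 : p 2 = z := hp'.2
        have hq2 : q 2 = z := hq'.2
        have h : ‖proj p - proj q‖ ^ 2 = ‖p - q‖ ^ 2 := by
          rw [norm_sq_E2, norm_sq_E3]
          simp [hp2, hq2]
        exact (pow_left_inj₀ (norm_nonneg _) (norm_nonneg _) (by norm_num)).mp h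
      rw [hnorm]
      unfold distSet
      exact Finset.mem_image.mpr ⟨(p, q), Finset.mem_offDiag.mpr ⟨hp'.1, hq'.1, hne⟩, rfl⟩
    have hgk := GK L' (by rw [hcard]; exact hge)
    rw [hcard] at hgk
    have hLle : (L.card : ℝ) ≤ (P.card : ℝ) := by
      exact_mod_cast Finset.card_filter_le _ _
    have hL2 : (2 : ℝ) ≤ (L.card : ℝ) := by exact_mod_cast hge
    have hlog : Real.log (L.card : ℝ) ≤ Real.log (P.card : ℝ) :=
      Real.log_le_log (by linarith) hLle
    have hlogL : 0 ≤ Real.log (L.card : ℝ) := Real.log_nonneg (by linarith)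
    have hD : ((distSet L').card : ℝ) ≤ ((distSet P).card : ℝ) := by
      exact_mod_cast Finset.card_le_card hsub
    calc (L.card : ℝ) ≤ K * Real.log (L.card : ℝ) * ((distSet L').card : ℝ) := hgk
      _ ≤ K * Real.log (P.card : ℝ) * ((distSet P).card : ℝ) := by
          apply mul_le_mul _ hD (by positivity) (by positivity)
          exact mul_le_mul_of_nonneg_left hlog hK0.le
      _ ≤ _ := by
          have h0 : 0 ≤ K * Real.log (P.card : ℝ) := by positivity
          nlinarith [mul_nonneg h0 ht0]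

/-- Some height class is large, and so `n ≤ k * W * R`. -/
theorem box_layer_bound (P : Finset E3) (K : ℝ) (hK : 1 ≤ K) (GK : GuthKatzBound K)
    (hn : 2 ≤ P.card) :
    (P.card : ℝ) ≤ ((P.image height).card : ℝ) *
      (2 * K * Real.log (P.card : ℝ) * (((distSet P).card : ℝ) + 1)) := by
  have hne : (P.image height).Nonempty := by
    apply Finset.Nonempty.image
    exact Finset.card_pos.mp (by omega)
  obtain ⟨z0, _, hmax⟩ := Finset.exists_max_image (P.image height)
    (fun z : ℝ => (P.filter (fun p => height p = z)).card) hne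
  have h1 := Finset.card_le_mul_card_image (f := height) P
    (P.filter (fun p => height p = z0)).card hmax
  have h2 := height_fiber_le P z0 K hK GK hn
  have hcast : (P.card : ℝ) ≤ ((P.filter (fun p => height p = z0)).card : ℝ) *
      ((P.image height).card : ℝ) := by exact_mod_cast h1
  calc (P.card : ℝ) ≤ _ := hcast
    _ ≤ (2 * K * Real.log (P.card : ℝ) * (((distSet P).card : ℝ) + 1)) *
        ((P.image height).card : ℝ) := mul_le_mul_of_nonneg_right h2 (by positivity)
    _ = _ := by ring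

/-- Distances of a lifted planar set. -/
theorem distSet_lift_superset (Q : Finset E2) : distSet Q ⊆ distSet (Q.image lift) := by
  intro r hr
  obtain ⟨z, hz, rfl⟩ := Finset.mem_image.mp hr
  have hz2 := Finset.mem_offDiag.mp hz
  unfold distSet
  refine Finset.mem_image.mpr ⟨(lift z.1, lift z.2), Finset.mem_offDiag.mpr
    ⟨Finset.mem_image_of_mem _ hz2.1, Finset.mem_image_of_mem _ hz2.2.1,
      fun h => hz2.2.2 (lift_inj h)⟩, ?_⟩
  exact norm_lift_sub _ _

/-- The rich lines have many distinct projected distances, using the planar bound. -/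
theorem rich_base_le (Q : Finset E2) (P : Finset E3) (K : ℝ) (hK : 1 ≤ K) (GK : GuthKatzBound K)
    (hn : 2 ≤ P.card) (hQ : (Q.card : ℝ) ≤ (P.card : ℝ)) (hne : Q.Nonempty) :
    (Q.card : ℝ) ≤ 2 * K * Real.log (P.card : ℝ) * ((horizSet e3 (Q.image lift)).card : ℝ) := by
  have hn2 : (2 : ℝ) ≤ (P.card : ℝ) := by exact_mod_cast hn
  have hlogn : (1 / 2 : ℝ) < Real.log (P.card : ℝ) :=
    lt_of_lt_of_le log_two_gt_half (Real.log_le_log (by norm_num) hn2)
  have hK0 : (0 : ℝ) < K := by linarith
  have hW1 : (1 : ℝ) ≤ 2 * K * Real.log (P.card : ℝ) := by nlinarith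
  have hH : (distSet Q).card + 1 ≤ (horizSet e3 (Q.image lift)).card := by
    have h1 := card_distSet_add_one_le e3 (Q.image lift) (hne.image lift) (by
      intro b hb b' hb'
      obtain ⟨c, _, rfl⟩ := Finset.mem_image.mp hb
      obtain ⟨c', _, rfl⟩ := Finset.mem_image.mp hb'
      exact inner_lift_sub c c')
    have h2 := Finset.card_le_card (distSet_lift_superset Q)
    omega
  have hHr : ((distSet Q).card : ℝ) + 1 ≤ ((horizSet e3 (Q.image lift)).card : ℝ) := by
    exact_mod_cast hH
  rcases Nat.lt_or_ge Q.card 2 with hlt | hge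
  · have : (Q.card : ℝ) ≤ 1 := by exact_mod_cast (by omega : Q.card ≤ 1)
    have h0 : (0 : ℝ) ≤ ((distSet Q).card : ℝ) := by positivity
    nlinarith
  · have hgk := GK Q hge
    have hQ2 : (2 : ℝ) ≤ (Q.card : ℝ) := by exact_mod_cast hge
    have hlog : Real.log (Q.card : ℝ) ≤ Real.log (P.card : ℝ) :=
      Real.log_le_log (by linarith) hQ
    have h0 : (0 : ℝ) ≤ ((distSet Q).card : ℝ) := by positivity
    calc (Q.card : ℝ) ≤ K * Real.log (Q.card : ℝ) * ((distSet Q).card : ℝ) := hgk
      _ ≤ K * Real.log (P.card : ℝ) * ((distSet Q).card : ℝ) := by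
          apply mul_le_mul_of_nonneg_right _ h0
          exact mul_le_mul_of_nonneg_left hlog hK0.le
      _ ≤ _ := by
          have h1 : 0 ≤ K * Real.log (P.card : ℝ) := by positivity
          nlinarith [mul_nonneg h1 h0]

/-- Arithmetic of the final step. -/
theorem box_arith (n u k R W H m : ℝ) (hn : 0 < n) (hu : 0 < u) (hk : 0 < k) (hR : 1 ≤ R)
    (hW : 0 < W) (hlayer : n ≤ k * (W * R)) (hQ : n ≤ 2 * k * (W * H)) (hm : n ≤ 2 * u * m)
    (_hm0 : 0 ≤ m) (hH : H * m ^ 4 ≤ 512 * (k ^ 2 * R ^ 2)) (_hH0 : 0 ≤ H) :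
    n ^ 6 ≤ 16384 * W ^ 2 * u ^ 4 * k ^ 4 * R ^ 3 := by
  have h1 : n ^ 4 ≤ (2 * u * m) ^ 4 := pow_le_pow_left₀ hn.le hm 4
  have h2 : n ^ 4 * n ≤ (2 * u * m) ^ 4 * (2 * k * (W * H)) :=
    mul_le_mul h1 hQ hn.le (by positivity)
  have h3 : (2 * u * m) ^ 4 * (2 * k * (W * H)) = 32 * u ^ 4 * k * W * (H * m ^ 4) := by ring
  have h4 : n ^ 5 ≤ 32 * u ^ 4 * k * W * (512 * (k ^ 2 * R ^ 2)) := by
    calc n ^ 5 = n ^ 4 * n := by ring
      _ ≤ _ := h2
      _ = _ := h3
      _ ≤ _ := mul_le_mul_of_nonneg_left hH (by positivity)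
  have h5 : n ^ 5 * n ≤ (32 * u ^ 4 * k * W * (512 * (k ^ 2 * R ^ 2))) * (k * (W * R)) :=
    mul_le_mul h4 hlayer hn.le (by positivity)
  calc n ^ 6 = n ^ 5 * n := by ring
    _ ≤ _ := h5
    _ = _ := by ring

/-- **Dense subsets of products.**  Assume the planar bound of Guth and Katz with constant `K`.
If `P ⊂ ℝ³` has `n ≥ 2` points, `u` vertical lines and `k` heights, then
`n ^ 6 ≤ 65536 K² (log n)² u⁴ k⁴ (|Δ(P)| + 1)³`. -/
theorem box_bound (K : ℝ) (hK : 1 ≤ K) (GK : GuthKatzBound K) (P : Finset E3) (hn : 2 ≤ P.card) :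
    (P.card : ℝ) ^ 6 ≤ 65536 * K ^ 2 * Real.log (P.card : ℝ) ^ 2 *
      ((P.image proj).card : ℝ) ^ 4 * ((P.image height).card : ℝ) ^ 4 *
      (((distSet P).card : ℝ) + 1) ^ 3 := by
  have hlayer := box_layer_bound P K hK GK hn
  have hn2 : (2 : ℝ) ≤ (P.card : ℝ) := by exact_mod_cast hn
  have hlogn : (1 / 2 : ℝ) < Real.log (P.card : ℝ) :=
    lt_of_lt_of_le log_two_gt_half (Real.log_le_log (by norm_num) hn2)
  have hK0 : (0 : ℝ) < K := by linarith
  set U := P.image proj with hU
  set Z := P.image height with hZ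
  have hPne : P.Nonempty := Finset.card_pos.mp (by omega)
  have hupos : 0 < U.card := Finset.card_pos.mpr (hPne.image _)
  have hkpos : 0 < Z.card := Finset.card_pos.mpr (hPne.image _)
  set n : ℝ := (P.card : ℝ) with hnr
  set u : ℝ := (U.card : ℝ) with hur
  set k : ℝ := (Z.card : ℝ) with hkr
  set R : ℝ := ((distSet P).card : ℝ) + 1 with hR
  set W : ℝ := 2 * K * Real.log n with hW
  have hW1 : 1 ≤ W := by rw [hW]; nlinarith
  have hu1 : (1 : ℝ) ≤ u := by rw [hur]; exact_mod_cast hupos
  have hk1 : (1 : ℝ) ≤ k := by rw [hkr]; exact_mod_cast hkpos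
  have hR1 : (1 : ℝ) ≤ R := by
    have : (0 : ℝ) ≤ ((distSet P).card : ℝ) := by positivity
    rw [hR]; linarith
  have hn0 : (0 : ℝ) < n := by linarith
  have hWe : 65536 * K ^ 2 * Real.log n ^ 2 = 16384 * W ^ 2 := by rw [hW]; ring
  rw [hWe]
  rcases Nat.lt_or_ge (2 * U.card) P.card with hbig | hsmall
  · -- many points per line on average
    set m : ℕ := P.card / (2 * U.card) + 1 with hm
    have hdiv : 1 ≤ P.card / (2 * U.card) :=
      (Nat.one_le_div_iff (by omega)).mpr (le_of_lt hbig)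
    have hm2 : 2 ≤ m := by omega
    have hmr : n ≤ 2 * u * (m : ℝ) := by
      have hlt : P.card < (2 * U.card) * m := by
        rw [hm]
        exact Nat.lt_mul_div_succ _ (by omega)
      have : (P.card : ℝ) < ((2 * U.card * m : ℕ) : ℝ) := by exact_mod_cast hlt
      push_cast at this
      exact this.le
    -- the rich lines carry half of the points
    set Q := richBase P m with hQ
    have hpoor : ∀ b ∈ U \ Q, (fib P b).card ≤ m - 1 := by
      intro b hb
      have hb' := Finset.mem_sdiff.mp hb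
      have : ¬ m ≤ (fib P b).card := fun h =>
        hb'.2 (Finset.mem_filter.mpr ⟨hb'.1, h⟩)
      omega
    have hfibk : ∀ b, (fib P b).card ≤ Z.card := by
      intro b
      apply Finset.card_le_card
      intro x hx
      obtain ⟨p, hp, rfl⟩ := Finset.mem_image.mp hx
      exact Finset.mem_image.mpr ⟨p, (Finset.mem_filter.mp hp).1, rfl⟩
    have hQsub : Q ⊆ U := Finset.filter_subset _ _
    have hsplit : P.card ≤ U.card * (m - 1) + Q.card * Z.card := by
      calc P.card = ∑ b ∈ U, (fib P b).card := card_eq_sum_fib P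
        _ = ∑ b ∈ U \ Q, (fib P b).card + ∑ b ∈ Q, (fib P b).card :=
            (Finset.sum_sdiff hQsub).symm
        _ ≤ ∑ _b ∈ U \ Q, (m - 1) + ∑ _b ∈ Q, Z.card :=
            Nat.add_le_add (Finset.sum_le_sum hpoor)
              (Finset.sum_le_sum (fun b _ => hfibk b))
        _ = (U \ Q).card * (m - 1) + Q.card * Z.card := by simp
        _ ≤ U.card * (m - 1) + Q.card * Z.card :=
            Nat.add_le_add_right (Nat.mul_le_mul_right _ (Finset.card_le_card Finset.sdiff_subset)) _
    have hpoorsum : 2 * (U.card * (m - 1)) ≤ P.card := by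
      have : m - 1 = P.card / (2 * U.card) := by omega
      rw [this]
      have h := Nat.div_mul_le_self P.card (2 * U.card)
      calc 2 * (U.card * (P.card / (2 * U.card))) = P.card / (2 * U.card) * (2 * U.card) := by ring
        _ ≤ _ := h
    have hQk : P.card ≤ 2 * (Q.card * Z.card) := by omega
    have hQne : Q.Nonempty := by
      apply Finset.card_pos.mp
      by_contra h0
      have h00 : Q.card = 0 := by omega
      rw [h00] at hQk
      omega
    have hQn : (Q.card : ℝ) ≤ (P.card : ℝ) := by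
      have h1 := Finset.card_le_card hQsub
      have h2 : U.card ≤ P.card := Finset.card_image_le
      exact_mod_cast le_trans h1 h2
    have hQH := rich_base_le Q P K hK GK hn hQn hQne
    have hfiber := fiber_main e3 norm_e3 (Q.image lift) Z P m hm2 (by
      intro q hq
      obtain ⟨b, hb, rfl⟩ := Finset.mem_image.mp hq
      refine le_trans (Finset.mem_filter.mp hb).2 (Finset.card_le_card ?_)
      intro x hx
      simp only [Finset.mem_filter]
      refine ⟨?_, mem_of_mem_fib hx⟩
      obtain ⟨p, hp, rfl⟩ := Finset.mem_image.mp hx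
      exact Finset.mem_image.mpr ⟨p, (Finset.mem_filter.mp hp).1, rfl⟩)
    set H : ℝ := ((horizSet e3 (Q.image lift)).card : ℝ) with hHr
    have hH0 : 0 ≤ H := by positivity
    have hfiberR : H * (m : ℝ) ^ 4 ≤ 512 * (k ^ 2 * R ^ 2) := by
      have : ((horizSet e3 (Q.image lift)).card * m ^ 4 : ℕ) ≤
        512 * (Z.card ^ 2 * ((distSet P).card + 1) ^ 2) := hfiber
      have h' : (((horizSet e3 (Q.image lift)).card * m ^ 4 : ℕ) : ℝ) ≤
        ((512 * (Z.card ^ 2 * ((distSet P).card + 1) ^ 2) : ℕ) : ℝ) := by exact_mod_cast this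
      push_cast at h'
      exact h'
    have hQ1 : n ≤ 2 * k * (W * H) := by
      have h1 : n ≤ 2 * ((Q.card : ℝ) * k) := by
        rw [hnr, hkr]
        exact_mod_cast hQk
      have h2 : (Q.card : ℝ) ≤ W * H := hQH
      nlinarith
    exact box_arith n u k R W H (m : ℝ) hn0 (by linarith) (by linarith) hR1 (by linarith) hlayer
      hQ1 hmr (by positivity) hfiberR hH0
  · -- few points per line on average
    have hn2u : n ≤ 2 * u := by
      rw [hnr, hur]
      exact_mod_cast hsmall
    have h1 : n ^ 4 ≤ (2 * u) ^ 4 := pow_le_pow_left₀ hn0.le hn2u 4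
    have h2 : n ^ 2 ≤ (k * (W * R)) ^ 2 := pow_le_pow_left₀ hn0.le hlayer 2
    have hk2 : k ^ 2 ≤ k ^ 4 := pow_le_pow_right₀ hk1 (by norm_num)
    have hR2 : R ^ 2 ≤ R ^ 3 := pow_le_pow_right₀ hR1 (by norm_num)
    calc n ^ 6 = n ^ 4 * n ^ 2 := by ring
      _ ≤ (2 * u) ^ 4 * (k * (W * R)) ^ 2 := mul_le_mul h1 h2 (by positivity) (by positivity)
      _ = 16 * u ^ 4 * W ^ 2 * (k ^ 2 * R ^ 2) := by ring
      _ ≤ 16 * u ^ 4 * W ^ 2 * (k ^ 4 * R ^ 3) :=
          mul_le_mul_of_nonneg_left (mul_le_mul hk2 hR2 (by positivity) (by positivity))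
            (by positivity)
      _ ≤ 16384 * W ^ 2 * u ^ 4 * k ^ 4 * R ^ 3 := by
          have h0 : 0 ≤ W ^ 2 * u ^ 4 * k ^ 4 * R ^ 3 := by positivity
          nlinarith

end Vale.Agent.Lib.P054
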