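import Vale.Agent.Lib.P041.Core

open Finset

open scoped Classical

namespace Vale.Agent.Lib.P054

open Vale.Agent.Lib.P041

/-- The pinned distance bound with a prescribed richest column `a`: the pin lies in column `a`. -/
theorem core_at (Q : Finset (ℝ × ℝ)) (hQ : 2 ≤ Q.card) (a : ℝ) (haA : a ∈ Q.image Prod.fst)
    (hamax : ∀ g ∈ Q.image Prod.fst, (col Q g).card ≤ (col Q a).card) :
    ∃ b ∈ col Q a, (1 / 60 : ℝ) * min (Q.card : ℝ)
        (((Q.card : ℝ) / ((Q.image Prod.fst).card : ℝ)) ^ (7 / 6 : ℝ)) ≤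
      (((Q.erase (a, b)).image (sqd (a, b))).card : ℝ) := by
  set n := Q.card with hn
  set A := Q.image Prod.fst with hA
  set k := A.card with hk
  have hn0 : 0 < n := by omega
  have hQne : Q.Nonempty := Finset.card_pos.mp hn0
  have hAne : A.Nonempty := hQne.image _
  have hk0 : 0 < k := Finset.card_pos.mpr hAne
  set Z := col Q a with hZ
  set M := Z.card with hM
  have hnk : n ≤ k * M := by
    have h1 : ∑ g ∈ A, (col Q g).card ≤ ∑ _g ∈ A, M := Finset.sum_le_sum hamax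
    have h2 := sum_card_col Q
    simp only [Finset.sum_const, smul_eq_mul] at h1
    rw [← hA, ← hn] at h2
    rw [h2] at h1
    exact h1
  have hM0 : 0 < M := by
    rcases Nat.eq_zero_or_pos M with h | h
    · rw [h] at hnk
      omega
    · exact h
  have hZne : Z.Nonempty := Finset.card_pos.mp hM0
  set p := rt n with hp
  set q := rt k with hq
  set μ := rt M with hμ
  have hp0 : 0 < p := rt_pos hn0
  have hq0 : 0 < q := rt_pos hk0
  have hμ0 : 0 < μ := rt_pos hM0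
  have hnp : (n : ℝ) = p ^ 6 := (rt_pow n).symm
  have hkq : (k : ℝ) = q ^ 6 := (rt_pow k).symm
  have hMμ : (M : ℝ) = μ ^ 6 := (rt_pow M).symm
  -- the Holder bound
  have hhold : ∑ g ∈ A, (rt (col Q g).card) ^ 4 ≤ p ^ 4 * q ^ 2 :=
    holder_cols A (fun g => (col Q g).card) n hn0 hk0 (sum_card_col Q)
  have hhold0 : 0 ≤ ∑ g ∈ A, (rt (col Q g).card) ^ 4 :=
    Finset.sum_nonneg (fun g _ => pow_nonneg (rt_nonneg _) _)
  -- the sum over pins
  set S := ∑ b ∈ Z, pairsE Q (a, b) with hS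
  have hSreal : (S : ℝ) ≤ 4 * ((M : ℝ) * n) + 9 * μ ^ 3 * (p ^ 4 * q ^ 2) ^ 2 := by
    have h1 := sum_pairs_le Q a
    rw [← hA, ← hZ, ← hS, ← hM, ← hn] at h1
    have h2 : (S : ℝ) ≤ 4 * ((M : ℝ) * n) + ∑ gg ∈ A ×ˢ A,
        ((if (gg.2 - a) ^ 2 - (gg.1 - a) ^ 2 ≠ 0 then
          triple ((gg.2 - a) ^ 2 - (gg.1 - a) ^ 2) (col Q gg.1) (col Q gg.2) Z else 0 : ℕ) : ℝ) := by
      exact_mod_cast h1
    have h3 : ∑ gg ∈ A ×ˢ A,
        ((if (gg.2 - a) ^ 2 - (gg.1 - a) ^ 2 ≠ 0 then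
          triple ((gg.2 - a) ^ 2 - (gg.1 - a) ^ 2) (col Q gg.1) (col Q gg.2) Z else 0 : ℕ) : ℝ)
        ≤ ∑ gg ∈ A ×ˢ A, (9 * μ ^ 3 * (rt (col Q gg.1).card) ^ 4 * (rt (col Q gg.2).card) ^ 4) := by
      apply Finset.sum_le_sum
      intro gg _
      by_cases hd : (gg.2 - a) ^ 2 - (gg.1 - a) ^ 2 ≠ 0
      · rw [if_pos hd]
        exact triple_real hd _ _ _
      · rw [if_neg hd]
        simp only [Nat.cast_zero]
        have := rt_nonneg (col Q gg.1).card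
        have := rt_nonneg (col Q gg.2).card
        positivity
    have h4 : ∑ gg ∈ A ×ˢ A, (9 * μ ^ 3 * (rt (col Q gg.1).card) ^ 4 * (rt (col Q gg.2).card) ^ 4)
        = 9 * μ ^ 3 * ((∑ g ∈ A, (rt (col Q g).card) ^ 4) * (∑ g ∈ A, (rt (col Q g).card) ^ 4)) := by
      rw [Finset.sum_mul_sum, Finset.sum_product, Finset.mul_sum]
      apply Finset.sum_congr rfl
      intro g _
      rw [Finset.mul_sum]
      apply Finset.sum_congr rfl
      intro g' _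
      ring
    have h5 : (∑ g ∈ A, (rt (col Q g).card) ^ 4) * (∑ g ∈ A, (rt (col Q g).card) ^ 4)
        ≤ (p ^ 4 * q ^ 2) ^ 2 := by
      rw [sq]
      exact mul_le_mul hhold hhold hhold0 (by positivity)
    have h6 : 9 * μ ^ 3 * ((∑ g ∈ A, (rt (col Q g).card) ^ 4) * (∑ g ∈ A, (rt (col Q g).card) ^ 4))
        ≤ 9 * μ ^ 3 * (p ^ 4 * q ^ 2) ^ 2 := by
      apply mul_le_mul_of_nonneg_left h5 (by positivity)
    linarith
  -- a pin with small energy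
  have hMpos : (0 : ℝ) < (M : ℝ) := by exact_mod_cast hM0
  obtain ⟨b, hb, hEb⟩ : ∃ b ∈ Z, ((pairsE Q (a, b) : ℕ) : ℝ) ≤ (S : ℝ) / M := by
    apply Finset.exists_le_of_sum_le hZne
    rw [Finset.sum_const, nsmul_eq_mul, ← hM, hS]
    push_cast
    field_simp
    exact le_refl _
  have hpμq : p ≤ q * μ := by
    apply le_of_pow_le_pow_left₀ (n := 6) (by norm_num) (by positivity)
    have : (n : ℝ) ≤ (k : ℝ) * (M : ℝ) := by exact_mod_cast hnk
    rw [hnp, hkq, hMμ] at this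
    calc p ^ 6 ≤ q ^ 6 * μ ^ 6 := this
      _ = (q * μ) ^ 6 := by ring
  have hE : ((pairsE Q (a, b) : ℕ) : ℝ) ≤ 4 * p ^ 6 + 9 * (p ^ 5 * q ^ 7) := by
    have h1 : (S : ℝ) / M ≤ 4 * p ^ 6 + 9 * (p ^ 8 * q ^ 4) / μ ^ 3 := by
      rw [div_le_iff₀ hMpos]
      rw [hMμ] at hSreal ⊢
      rw [hnp] at hSreal
      calc (S : ℝ) ≤ 4 * (μ ^ 6 * p ^ 6) + 9 * μ ^ 3 * (p ^ 4 * q ^ 2) ^ 2 := hSreal
        _ = (4 * p ^ 6 + 9 * (p ^ 8 * q ^ 4) / μ ^ 3) * μ ^ 6 := by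
          field_simp
    have h2 : 9 * (p ^ 8 * q ^ 4) / μ ^ 3 ≤ 9 * (p ^ 5 * q ^ 7) := by
      rw [div_le_iff₀ (by positivity)]
      have h3 : p ^ 3 ≤ (q * μ) ^ 3 := pow_le_pow_left₀ hp0.le hpμq 3
      have h4 : 0 ≤ 9 * (p ^ 5 * q ^ 4) := by positivity
      calc 9 * (p ^ 8 * q ^ 4) = 9 * (p ^ 5 * q ^ 4) * p ^ 3 := by ring
        _ ≤ 9 * (p ^ 5 * q ^ 4) * (q * μ) ^ 3 := mul_le_mul_of_nonneg_left h3 h4
        _ = 9 * (p ^ 5 * q ^ 7) * μ ^ 3 := by ring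
    linarith
  -- the conclusion
  have hxQ : (a, b) ∈ Q := mem_col.mp hb
  refine ⟨b, hb, ?_⟩
  set t := ((Q.erase (a, b)).image (sqd (a, b))).card with ht
  have hcs := pin_cs Q (a, b)
  rw [← ht, Finset.card_erase_of_mem hxQ, ← hn] at hcs
  have hcs' : ((n : ℝ) - 1) ^ 2 ≤ (t : ℝ) * (pairsE Q (a, b) : ℝ) := by
    have h1 : (((n - 1 : ℕ) : ℝ)) ^ 2 ≤ (t : ℝ) * (pairsE Q (a, b) : ℝ) := by exact_mod_cast hcs
    rw [Nat.cast_sub (by omega)] at h1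
    simpa using h1
  have hn2 : (2 : ℝ) ≤ (n : ℝ) := by exact_mod_cast hQ
  have hlow : p ^ 12 / 4 ≤ ((n : ℝ) - 1) ^ 2 := by
    have e : p ^ 12 = (n : ℝ) ^ 2 := by rw [hnp]; ring
    rw [e]
    nlinarith
  have hrpow : (((n : ℝ) / (k : ℝ)) ^ (7 / 6 : ℝ)) = (p / q) ^ 7 := by
    have hnk0 : (0 : ℝ) ≤ (n : ℝ) / (k : ℝ) := by positivity
    rw [hp, hq]
    unfold rt
    rw [← Real.div_rpow (Nat.cast_nonneg n) (Nat.cast_nonneg k), ← Real.rpow_natCast,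
      ← Real.rpow_mul hnk0]
    norm_num
  by_contra hcon
  push Not at hcon
  rw [hrpow] at hcon
  have ht1 : (t : ℝ) < (1 / 60) * p ^ 6 := by
    refine lt_of_lt_of_le hcon ?_
    rw [← hnp]
    exact mul_le_mul_of_nonneg_left (min_le_left _ _) (by norm_num)
  have ht2 : (t : ℝ) < (1 / 60) * (p / q) ^ 7 := by
    refine lt_of_lt_of_le hcon ?_
    exact mul_le_mul_of_nonneg_left (min_le_right _ _) (by norm_num)
  have ht0 : (0 : ℝ) ≤ (t : ℝ) := Nat.cast_nonneg t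
  have hfin : (t : ℝ) * (pairsE Q (a, b) : ℝ) ≤ 13 / 60 * p ^ 12 := by
    calc (t : ℝ) * (pairsE Q (a, b) : ℝ) ≤ (t : ℝ) * (4 * p ^ 6 + 9 * (p ^ 5 * q ^ 7)) :=
          mul_le_mul_of_nonneg_left hE ht0
      _ = (t : ℝ) * (4 * p ^ 6) + (t : ℝ) * (9 * (p ^ 5 * q ^ 7)) := by ring
      _ ≤ ((1 / 60) * p ^ 6) * (4 * p ^ 6) + ((1 / 60) * (p / q) ^ 7) * (9 * (p ^ 5 * q ^ 7)) := by
          apply add_le_add
          · exact mul_le_mul_of_nonneg_right ht1.le (by positivity)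
          · exact mul_le_mul_of_nonneg_right ht2.le (by positivity)
      _ = 13 / 60 * p ^ 12 := by
          field_simp
          ring
  have hp12 : 0 < p ^ 12 := by positivity
  linarith

end Vale.Agent.Lib.P054
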