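import Vale.Agent.Lib.P054.Geo3

/-!
A convex chain has crossing number two with respect to hyperplanes, so a convex chain of `m` points
in `P` gives `(m - 1) |P| ≤ 4096 s h ^ 2`.
-/

open Finset

open scoped Classical

namespace Vale.Agent.Lib.P054

/-- Number of changes of the truth value of `P` along a list. -/
noncomputable def chgL (P : ℝ → Prop) : ℝ → List ℝ → ℕ
  | _, [] => 0
  | x, y :: l => (if (P x ↔ P y) then 0 else 1) + chgL P y l

theorem chgL_not (P : ℝ → Prop) : ∀ (l : List ℝ) (x : ℝ),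
    chgL (fun r => ¬ P r) x l = chgL P x l := by
  intro l
  induction l with
  | nil => intro x; rfl
  | cons y l ih =>
    intro x
    simp only [chgL, ih, not_iff_not]

/-- A predicate without the pattern true, false, true changes at most twice along a sorted list. -/
theorem chgL_le (P : ℝ → Prop) : ∀ (l : List ℝ) (x : ℝ), (x :: l).Pairwise (· < ·) →
    (∀ a ∈ x :: l, ∀ b ∈ x :: l, ∀ c ∈ x :: l, a < b → b < c → P a → ¬ P b → ¬ P c) →
    chgL P x l ≤ 2 ∧ (chgL P x l = 2 → ¬ P x) ∧ (¬ P x → 1 ≤ chgL P x l → ∃ t ∈ l, P t) := by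
  intro l
  induction l with
  | nil =>
    intro x _ _
    simp [chgL]
  | cons y l ih =>
    intro x hsort hav
    have hsort' : (y :: l).Pairwise (· < ·) := (List.pairwise_cons.mp hsort).2
    have hxy : ∀ t ∈ y :: l, x < t := (List.pairwise_cons.mp hsort).1
    have hyt : ∀ t ∈ l, y < t := (List.pairwise_cons.mp hsort').1
    obtain ⟨h1, h2, h3⟩ := ih y hsort' (fun a ha b hb c hc =>
      hav a (List.mem_cons_of_mem _ ha) b (List.mem_cons_of_mem _ hb) c (List.mem_cons_of_mem _ hc))
    simp only [chgL]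
    by_cases hx : P x <;> by_cases hy : P y
    · have e : (if (P x ↔ P y) then 0 else 1) = 0 := if_pos (iff_of_true hx hy)
      rw [e, zero_add]
      exact ⟨h1, fun h => absurd hy (h2 h), fun h => absurd hx h⟩
    · have e : (if (P x ↔ P y) then 0 else 1) = 1 := if_neg (fun h => hy (h.mp hx))
      have h0 : chgL P y l = 0 := by
        by_contra hne
        obtain ⟨t, ht, hPt⟩ := h3 hy (by omega)
        exact hav x List.mem_cons_self y (List.mem_cons_of_mem _ List.mem_cons_self) t
          (List.mem_cons_of_mem _ (List.mem_cons_of_mem _ ht)) (hxy y List.mem_cons_self)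
          (hyt t ht) hx hy hPt
      rw [e, h0]
      exact ⟨by omega, fun h => by omega, fun h => absurd hx h⟩
    · have e : (if (P x ↔ P y) then 0 else 1) = 1 := if_neg (fun h => hx (h.mpr hy))
      have hne : chgL P y l ≠ 2 := fun h => h2 h hy
      rw [e]
      exact ⟨by omega, fun _ => hx, fun _ _ => ⟨y, List.mem_cons_self, hy⟩⟩
    · have e : (if (P x ↔ P y) then 0 else 1) = 0 := if_pos (iff_of_false hx hy)
      rw [e, zero_add]
      refine ⟨h1, fun _ => hx, fun _ h => ?_⟩
      obtain ⟨t, ht, hPt⟩ := h3 hy h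
      exact ⟨t, List.mem_cons_of_mem _ ht, hPt⟩

variable {E : Type*} [NormedAddCommGroup E] [InnerProductSpace ℝ E]

/-- The path through consecutive members of a list. -/
def pathE (pt : ℝ → E) : ℝ → List ℝ → List (E × E)
  | _, [] => []
  | x, y :: l => (pt x, pt y) :: pathE pt y l

theorem cnt_pathE (pos : E × E → E → Prop) (i : E × E) (pt : ℝ → E) : ∀ (l : List ℝ) (x : ℝ),
    cntP pos i (pathE pt x l) = chgL (fun r => pos i (pt r)) x l := by
  intro l
  induction l with
  | nil => intro x; rfl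
  | cons y l ih =>
    intro x
    simp only [pathE, chgL, cntP_cons, ih, sepP]
    by_cases h : pos i (pt x) ↔ pos i (pt y)
    · simp [h]
    · simp [h, add_comm]

theorem length_pathE (pt : ℝ → E) : ∀ (l : List ℝ) (x : ℝ), (pathE pt x l).length = l.length := by
  intro l
  induction l with
  | nil => intro x; rfl
  | cons y l ih =>
    intro x
    simp [pathE, ih]

theorem mem_pathE (pt : ℝ → E) : ∀ (l : List ℝ) (x : ℝ), (x :: l).Pairwise (· < ·) →
    ∀ e ∈ pathE pt x l, ∃ r ∈ x :: l, ∃ r' ∈ x :: l, r < r' ∧ e = (pt r, pt r') := by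
  intro l
  induction l with
  | nil =>
    intro x _ e he
    simp [pathE] at he
  | cons y l ih =>
    intro x hsort e he
    rcases List.mem_cons.mp he with h | h
    · exact ⟨x, List.mem_cons_self, y, List.mem_cons_of_mem _ List.mem_cons_self,
        (List.pairwise_cons.mp hsort).1 y List.mem_cons_self, h⟩
    · obtain ⟨r, hr, r', hr', h1, h2⟩ := ih y (List.pairwise_cons.mp hsort).2 e h
      exact ⟨r, List.mem_cons_of_mem _ hr, r', List.mem_cons_of_mem _ hr', h1, h2⟩

/-- A hyperplane side changes at most twice along a convex chain. -/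
theorem chain_cnt (a0 u v : E) (φ : ℝ → ℝ) (l : List ℝ) (x : ℝ)
    (hsort : (x :: l).Pairwise (· < ·))
    (hconv : ∀ r ∈ x :: l, ∀ r' ∈ x :: l, ∀ r'' ∈ x :: l, r < r' → r' < r'' →
      (r'' - r) * φ r' ≤ (r'' - r') * φ r + (r' - r) * φ r'') (i : E × E) :
    cntP bisPos i (pathE (fun r => a0 + r • u + φ r • v) x l) ≤ 2 := by
  rw [cnt_pathE]
  set pt : ℝ → E := fun r => a0 + r • u + φ r • v with hpt
  set w := i.2 - i.1 with hw
  set α := 2 * inner ℝ u w with hα
  set β := 2 * inner ℝ v w with hβ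
  set γ := 2 * inner ℝ a0 w + ‖i.1‖ ^ 2 - ‖i.2‖ ^ 2 with hγ
  have hg : ∀ r, ‖pt r - i.1‖ ^ 2 - ‖pt r - i.2‖ ^ 2 = α * r + β * φ r + γ := by
    intro r
    have e1 : ‖pt r - i.1‖ ^ 2 - ‖pt r - i.2‖ ^ 2 =
        2 * inner ℝ (pt r) w + ‖i.1‖ ^ 2 - ‖i.2‖ ^ 2 := by
      rw [@norm_sub_sq_real, @norm_sub_sq_real, hw, inner_sub_right]
      ring
    have e2 : inner ℝ (pt r) w = inner ℝ a0 w + r * inner ℝ u w + φ r * inner ℝ v w := by
      rw [hpt]
      simp only [inner_add_left, inner_smul_left, RCLike.conj_to_real]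
    rw [e1, e2, hα, hβ, hγ]
    ring
  have hpos : ∀ r, bisPos i (pt r) ↔ 0 < α * r + β * φ r + γ := by
    intro r
    rw [← hg]
    simp only [bisPos, sub_pos]
  rcases le_or_gt 0 β with hb | hb
  · -- convex: the set where the function is not positive is order convex
    rw [← chgL_not]
    refine (chgL_le _ l x hsort ?_).1
    intro a ha b hb' c hc hab hbc h1 h2 h3
    rw [hpos] at h1 h2 h3
    have h4 := hconv a ha b hb' c hc hab hbc
    have h5 : (c - a) * (α * b + β * φ b + γ) ≤
        (c - b) * (α * a + β * φ a + γ) + (b - a) * (α * c + β * φ c + γ) := by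
      nlinarith [mul_le_mul_of_nonneg_left h4 hb]
    have h6 : 0 < c - a := by linarith
    have h7 : 0 < c - b := by linarith
    have h8 : 0 < b - a := by linarith
    have h9 : 0 < (c - a) * (α * b + β * φ b + γ) := mul_pos h6 (not_not.mp h2)
    have h10 : (c - b) * (α * a + β * φ a + γ) ≤ 0 :=
      mul_nonpos_of_nonneg_of_nonpos h7.le (not_lt.mp h1)
    have h11 : (b - a) * (α * c + β * φ c + γ) ≤ 0 :=
      mul_nonpos_of_nonneg_of_nonpos h8.le (not_lt.mp h3)
    linarith
  · -- concave: the set where the function is positive is order convex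
    refine (chgL_le _ l x hsort ?_).1
    intro a ha b hb' c hc hab hbc h1 h2 h3
    rw [hpos] at h1 h2 h3
    have h4 := hconv a ha b hb' c hc hab hbc
    have h5 : (c - b) * (α * a + β * φ a + γ) + (b - a) * (α * c + β * φ c + γ) ≤
        (c - a) * (α * b + β * φ b + γ) := by
      nlinarith [mul_le_mul_of_nonpos_left h4 hb.le]
    have h6 : 0 < c - a := by linarith
    have h7 : 0 < c - b := by linarith
    have h8 : 0 < b - a := by linarith
    have h9 : (c - a) * (α * b + β * φ b + γ) ≤ 0 :=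
      mul_nonpos_of_nonneg_of_nonpos h6.le (not_lt.mp h2)
    have h10 : 0 < (c - b) * (α * a + β * φ a + γ) := mul_pos h7 h1
    have h11 : 0 < (b - a) * (α * c + β * φ c + γ) := mul_pos h8 h3
    linarith

/-- **Convex chains.** -/
theorem curve_main (P : Finset E) (a0 u v : E)
    (huv : ∀ s t : ℝ, s • u + t • v = 0 → s = 0 ∧ t = 0) (φ : ℝ → ℝ) (X : Finset ℝ)
    (hX : 2 ≤ X.card)
    (hconv : ∀ x ∈ X, ∀ y ∈ X, ∀ z ∈ X, x < y → y < z →
      (z - x) * φ y ≤ (z - y) * φ x + (y - x) * φ z)
    (hP : ∀ x ∈ X, a0 + x • u + φ x • v ∈ P) (s h : ℕ) (hs : 1 ≤ s)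
    (hcell : ∀ x ∈ X, ∀ y ∈ X, x ≠ y →
      2 * (P.filter (fun q => s < (P.filter (fun y' =>
        dist (a0 + x • u + φ x • v) y' = dist (a0 + x • u + φ x • v) q ∧
        dist (a0 + y • u + φ y • v) y' = dist (a0 + y • u + φ y • v) q)).card)).card ≤ P.card)
    (hpin : ∀ x ∈ X, (pinSet P (a0 + x • u + φ x • v)).card ≤ h) (hbig : 16 * s * h ≤ P.card) :
    (X.card - 1) * P.card ≤ 4096 * s * h ^ 2 := by
  set pt : ℝ → E := fun r => a0 + r • u + φ r • v with hpt
  have hptinj : ∀ r r', pt r = pt r' → r = r' := by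
    intro r r' hrr
    have h1 : (r - r') • u + (φ r - φ r') • v = 0 := by
      have h2 : a0 + r • u + φ r • v = a0 + r' • u + φ r' • v := hrr
      rw [sub_smul, sub_smul]
      have h3 : r • u + φ r • v = r' • u + φ r' • v := by
        have h4 : a0 + (r • u + φ r • v) = a0 + (r' • u + φ r' • v) := by
          rw [← add_assoc, ← add_assoc]
          exact h2
        exact add_left_cancel h4
      calc r • u - r' • u + (φ r • v - φ r' • v) = (r • u + φ r • v) - (r' • u + φ r' • v) := by abel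
        _ = 0 := by rw [h3, sub_self]
    have h5 := (huv _ _ h1).1
    linarith
  obtain ⟨x, l, hxl⟩ : ∃ x l, X.sort (· ≤ ·) = x :: l := by
    rcases hl : X.sort (· ≤ ·) with _ | ⟨x, l⟩
    · have : (X.sort (· ≤ ·)).length = X.card := Finset.length_sort _
      rw [hl] at this
      simp at this
      omega
    · exact ⟨x, l, rfl⟩
  have hsort : (x :: l).Pairwise (· < ·) := by
    rw [← hxl]
    exact Finset.sortedLT_sort X |>.pairwise
  have hmem : ∀ r, r ∈ x :: l ↔ r ∈ X := by
    intro r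
    rw [← hxl, Finset.mem_sort]
  have hlen : l.length = X.card - 1 := by
    have h1 : (X.sort (· ≤ ·)).length = X.card := Finset.length_sort _
    rw [hxl] at h1
    simp at h1
    omega
  set E' := pathE pt x l with hE'
  have hn : P.card ≠ 0 := by
    obtain ⟨r, hr⟩ : X.Nonempty := Finset.card_pos.mp (by omega)
    exact Finset.card_ne_zero_of_mem (hP r hr)
  have hedge : ∀ e ∈ E', P.card ^ 3 ≤ (2048 * s * h ^ 2) *
      ((P ×ˢ P).filter (fun i => sepP bisPos i e.1 e.2)).card := by
    intro e he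
    obtain ⟨r, hr, r', hr', hlt, rfl⟩ := mem_pathE pt l x hsort e he
    have hrX := (hmem r).mp hr
    have hrX' := (hmem r').mp hr'
    exact edge_bound2 P (pt r) (pt r') (hP r hrX) s h hs (hcell r hrX r' hrX' (ne_of_lt hlt))
      (hpin r hrX) (hpin r' hrX') hbig
  have hlist := list_bound E' _ (P.card ^ 3) (2048 * s * h ^ 2) hedge
  rw [list_sum_cnt, hE', length_pathE, hlen] at hlist
  have hcnt : ∑ i ∈ P ×ˢ P, cntP bisPos i (pathE pt x l) ≤ P.card ^ 2 * 2 := by
    have h1 : ∑ i ∈ P ×ˢ P, cntP bisPos i (pathE pt x l) ≤ ∑ _i ∈ P ×ˢ P, 2 :=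
      Finset.sum_le_sum fun i _ => chain_cnt a0 u v φ l x hsort (fun r hr r' hr' r'' hr'' h2 h3 =>
        hconv r ((hmem r).mp hr) r' ((hmem r').mp hr') r'' ((hmem r'').mp hr'') h2 h3) i
    rw [Finset.sum_const, Finset.card_product, smul_eq_mul] at h1
    calc _ ≤ _ := h1
      _ = _ := by ring
  have hpos : 0 < P.card ^ 2 := by positivity
  apply Nat.le_of_mul_le_mul_left _ hpos
  calc P.card ^ 2 * ((X.card - 1) * P.card) = (X.card - 1) * P.card ^ 3 := by ring
    _ ≤ 2048 * s * h ^ 2 * ∑ i ∈ P ×ˢ P, cntP bisPos i (pathE pt x l) := hlist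
    _ ≤ 2048 * s * h ^ 2 * (P.card ^ 2 * 2) := Nat.mul_le_mul_left _ hcnt
    _ = _ := by ring

end Vale.Agent.Lib.P054
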