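import Vale.Agent.Lib.P041.Incidence
import Vale.Agent.Lib.P041.Grid

/-!
Incidence bound for translated parabolas on Cartesian grids: the cell decomposition of the grid
plays the role of the crossing lemma, so the Szemeredi-Trotter exponent comes out elementary.
-/

open Finset

namespace Vale.Agent.Lib.P054

open Vale.Agent.Lib.P041

/-- Value at `x` of the translated parabola with parameters `c = (a, d)`. -/
def par (c : ℝ × ℝ) (x : ℝ) : ℝ := (x - c.1) ^ 2 + c.2

theorem par_sub (c : ℝ × ℝ) (x y : ℝ) : par c x - par c y = (x - y) * (x + y - 2 * c.1) := by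
  unfold par; ring

/-- One monotone branch of a parabola, restricted to the grid `X × T`. -/
noncomputable def piece (X T : Finset ℝ) (ci : (ℝ × ℝ) × Bool) : Finset (ℝ × ℝ) :=
  (X.filter (fun x => par ci.1 x ∈ T ∧ decide (ci.1.1 ≤ x) = ci.2)).image
    (fun x => (x, par ci.1 x))

theorem mem_piece {X T : Finset ℝ} {ci : (ℝ × ℝ) × Bool} {p : ℝ × ℝ} :
    p ∈ piece X T ci ↔
      p.1 ∈ X ∧ par ci.1 p.1 ∈ T ∧ decide (ci.1.1 ≤ p.1) = ci.2 ∧ p.2 = par ci.1 p.1 := by
  unfold piece
  simp only [Finset.mem_image, Finset.mem_filter]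
  constructor
  · rintro ⟨x, ⟨hx, hT, hb⟩, rfl⟩
    exact ⟨hx, hT, hb, rfl⟩
  · rintro ⟨hx, hT, hb, h2⟩
    refine ⟨p.1, ⟨hx, hT, hb⟩, ?_⟩
    rw [← h2]

theorem piece_subset (X T : Finset ℝ) (ci : (ℝ × ℝ) × Bool) : piece X T ci ⊆ X ×ˢ T := by
  intro p hp
  have h := mem_piece.mp hp
  rw [Finset.mem_product]
  exact ⟨h.1, by rw [h.2.2.2]; exact h.2.1⟩

theorem piece_fst_ne {X T : Finset ℝ} {ci : (ℝ × ℝ) × Bool} {p q : ℝ × ℝ}
    (hp : p ∈ piece X T ci) (hq : q ∈ piece X T ci) (hne : p ≠ q) : p.1 ≠ q.1 := by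
  intro h
  apply hne
  have h1 := (mem_piece.mp hp).2.2.2
  have h2 := (mem_piece.mp hq).2.2.2
  exact Prod.ext h (by rw [h1, h2, h])

theorem piece_mono_true {X T : Finset ℝ} {c : ℝ × ℝ} {p q : ℝ × ℝ}
    (hp : p ∈ piece X T (c, true)) (hq : q ∈ piece X T (c, true)) (hne : p ≠ q) :
    0 < (p.1 - q.1) * (p.2 - q.2) := by
  have hx := piece_fst_ne hp hq hne
  have h1 := mem_piece.mp hp
  have h2 := mem_piece.mp hq
  have a1 : c.1 ≤ p.1 := by simpa using h1.2.2.1
  have a2 : c.1 ≤ q.1 := by simpa using h2.2.2.1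
  have hsub : p.2 - q.2 = (p.1 - q.1) * (p.1 + q.1 - 2 * c.1) := by
    rw [h1.2.2.2, h2.2.2.2]; exact par_sub c _ _
  have hne' : p.1 - q.1 ≠ 0 := sub_ne_zero.mpr hx
  have hpos : 0 < p.1 + q.1 - 2 * c.1 := by
    rcases lt_or_eq_of_le a1 with h | h
    · linarith
    · rcases lt_or_eq_of_le a2 with h' | h'
      · linarith
      · exact absurd (h.symm.trans h') hx
  rw [hsub, ← mul_assoc]
  exact mul_pos (mul_self_pos.mpr hne') hpos

theorem piece_mono_false {X T : Finset ℝ} {c : ℝ × ℝ} {p q : ℝ × ℝ}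
    (hp : p ∈ piece X T (c, false)) (hq : q ∈ piece X T (c, false)) (hne : p ≠ q) :
    (p.1 - q.1) * (p.2 - q.2) < 0 := by
  have hx := piece_fst_ne hp hq hne
  have h1 := mem_piece.mp hp
  have h2 := mem_piece.mp hq
  have a1 : p.1 < c.1 := by simpa using h1.2.2.1
  have a2 : q.1 < c.1 := by simpa using h2.2.2.1
  have hsub : p.2 - q.2 = (p.1 - q.1) * (p.1 + q.1 - 2 * c.1) := by
    rw [h1.2.2.2, h2.2.2.2]; exact par_sub c _ _
  have hne' : p.1 - q.1 ≠ 0 := sub_ne_zero.mpr hx
  have hneg : p.1 + q.1 - 2 * c.1 < 0 := by linarith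
  rw [hsub, ← mul_assoc]
  exact mul_neg_of_pos_of_neg (mul_self_pos.mpr hne') hneg

/-- Two points with different abscissae determine the parabola. -/
theorem par_unique {c c' : ℝ × ℝ} {x y : ℝ} (hxy : x ≠ y) (h1 : par c x = par c' x)
    (h2 : par c y = par c' y) : c = c' := by
  have hs : par c x - par c y = par c' x - par c' y := by rw [h1, h2]
  rw [par_sub, par_sub] at hs
  have hne : x - y ≠ 0 := sub_ne_zero.mpr hxy
  have h3 := mul_left_cancel₀ hne hs
  have h4 : c.1 = c'.1 := by linarith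
  have h5 : c.2 = c'.2 := by
    unfold par at h1
    rw [h4] at h1
    linarith
  exact Prod.ext h4 h5

theorem piece_two_points (X T : Finset ℝ) (Cs : Finset ((ℝ × ℝ) × Bool)) {p q : ℝ × ℝ}
    (hne : p ≠ q) :
    (Cs.filter (fun ci => p ∈ piece X T ci ∧ q ∈ piece X T ci)).card ≤ 1 := by
  rw [Finset.card_le_one]
  rintro ⟨c, b⟩ h1 ⟨c', b'⟩ h2
  have h1' := (Finset.mem_filter.mp h1).2
  have h2' := (Finset.mem_filter.mp h2).2
  have hx := piece_fst_ne h1'.1 h1'.2 hne
  have a1 := mem_piece.mp h1'.1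
  have a2 := mem_piece.mp h1'.2
  have a3 := mem_piece.mp h2'.1
  have a4 := mem_piece.mp h2'.2
  simp only at a1 a2 a3 a4
  have hc : c = c' := par_unique hx (a1.2.2.2.symm.trans a3.2.2.2) (a2.2.2.2.symm.trans a4.2.2.2)
  subst hc
  have hb : b = b' := a1.2.2.1.symm.trans a3.2.2.1
  rw [hb]

theorem card_piece_add (X T : Finset ℝ) (c : ℝ × ℝ) :
    (piece X T (c, true)).card + (piece X T (c, false)).card =
      (X.filter (fun x => par c x ∈ T)).card := by
  have hinj : ∀ b : Bool, (piece X T (c, b)).card =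
      (X.filter (fun x => par c x ∈ T ∧ decide (c.1 ≤ x) = b)).card := by
    intro b
    unfold piece
    apply Finset.card_image_of_injective
    intro x y h
    exact (Prod.mk.inj h).1
  rw [hinj, hinj, ← Finset.card_union_of_disjoint]
  · congr 1
    ext x
    simp only [Finset.mem_union, Finset.mem_filter]
    cases h : decide (c.1 ≤ x) <;> simp
  · rw [Finset.disjoint_filter]
    intro x _ h1 h2
    rw [h1.2] at h2
    simpa using h2.2

theorem card_piece_le_T (X T : Finset ℝ) (ci : (ℝ × ℝ) × Bool) :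
    (piece X T ci).card ≤ T.card := by
  obtain ⟨c, b⟩ := ci
  apply Finset.card_le_card_of_injOn (fun p => p.2)
  · intro p hp
    exact (Finset.mem_product.mp (piece_subset X T _ hp)).2
  · intro p hp q hq h
    by_contra hne
    simp only at h
    have hp' := Finset.mem_coe.mp hp
    have hq' := Finset.mem_coe.mp hq
    cases b
    · have := piece_mono_false hp' hq' hne
      rw [h] at this
      simp at this
    · have := piece_mono_true hp' hq' hne
      rw [h] at this
      simp at this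

/-- Large richness: the cell decomposition. -/
theorem curve_bound_large (X T : Finset ℝ) (C : Finset (ℝ × ℝ)) (m : ℕ) (hm : 8 ≤ m)
    (hC : ∀ c ∈ C, m ≤ (X.filter (fun x => par c x ∈ T)).card) :
    C.card * m ^ 3 ≤ 512 * (X.card ^ 2 * T.card ^ 2) := by
  classical
  rcases C.eq_empty_or_nonempty with h0 | ⟨c0, hc0⟩
  · simp [h0]
  set N := C.card with hN
  have hNpos : 0 < N := Finset.card_pos.mpr ⟨c0, hc0⟩
  -- sizes
  have hmX : m ≤ X.card := le_trans (hC c0 hc0) (Finset.card_filter_le _ _)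
  have hmT : m ≤ 2 * T.card := by
    have h1 := hC c0 hc0
    rw [← card_piece_add] at h1
    have h2 := card_piece_le_T X T (c0, true)
    have h3 := card_piece_le_T X T (c0, false)
    omega
  set R := m / 8 with hR
  have hR1 : 1 ≤ R := by rw [hR]; exact (Nat.one_le_div_iff (by norm_num)).mpr hm
  have hR8 : 8 * R ≤ m := by rw [hR]; exact Nat.mul_div_le m 8
  have hR16 : m ≤ 16 * R := by
    have : m < 8 * (m / 8) + 8 := by
      have := Nat.div_add_mod m 8
      have h8 := Nat.mod_lt m (by norm_num : 8 > 0)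
      omega
    rw [hR]
    omega
  have hRX : R ≤ X.card := by omega
  have hRT : R ≤ T.card := by omega
  set wx := X.card / R + 1 with hwx
  set wy := T.card / R + 1 with hwy
  have hRpos : 0 < R := hR1
  have hX : X.card ≤ wx * R := by
    have := Nat.div_add_mod X.card R
    have h8 := Nat.mod_lt X.card hRpos
    rw [hwx, add_mul, one_mul, mul_comm (X.card / R) R]
    omega
  have hY : T.card ≤ wy * R := by
    have := Nat.div_add_mod T.card R
    have h8 := Nat.mod_lt T.card hRpos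
    rw [hwy, add_mul, one_mul, mul_comm (T.card / R) R]
    omega
  have hX2 : wx * R ≤ 2 * X.card := by
    have := Nat.div_mul_le_self X.card R
    rw [hwx, add_mul, one_mul]
    omega
  have hY2 : wy * R ≤ 2 * T.card := by
    have := Nat.div_mul_le_self T.card R
    rw [hwy, add_mul, one_mul]
    omega
  -- the incidence inequality
  set Cs : Finset ((ℝ × ℝ) × Bool) := C ×ˢ (Finset.univ : Finset Bool) with hCs
  have hmain := incidence_cs Cs (piece X T) (X ×ˢ T) (cellOf X T wx wy) (2 * R) 1 (wx * wy)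
    (fun ci _ => piece_subset X T ci)
    (by
      rintro ⟨c, b⟩ _
      cases b
      · apply cells_dec X T wx wy R hX hY _ (piece_subset X T _)
        intro p hp q hq hne
        exact piece_mono_false hp hq hne
      · apply cells_inc X T wx wy R hX hY _ (piece_subset X T _)
        intro p hp q hq hne
        exact piece_mono_true hp hq hne)
    (by
      intro p _ q _ hne
      exact piece_two_points X T Cs hne)
    (by
      intro p _
      exact cell_fiber X T wx wy (Nat.succ_pos _) (Nat.succ_pos _) p)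
  have hCscard : Cs.card = 2 * N := by
    rw [hCs, Finset.card_product]
    simp [hN, mul_comm]
  rw [hCscard, Finset.card_product] at hmain
  set I := ∑ c ∈ Cs, (piece X T c).card with hI
  have hIge : N * m ≤ I := by
    rw [hI, hCs, Finset.sum_product]
    calc N * m = ∑ _c ∈ C, m := by simp [hN]
      _ ≤ _ := by
        apply Finset.sum_le_sum
        intro c hc
        have h := hC c hc
        rw [← card_piece_add] at h
        simpa [Fintype.sum_bool] using h
  set g := X.card * T.card with hg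
  have hW : (wx * wy) * R ^ 2 ≤ 4 * g := by
    calc (wx * wy) * R ^ 2 = (wx * R) * (wy * R) := by ring
      _ ≤ (2 * X.card) * (2 * T.card) := Nat.mul_le_mul hX2 hY2
      _ = 4 * g := by rw [hg]; ring
  -- algebra
  have h1 : I ^ 2 ≤ 4 * N * R * (I + (wx * wy) * g) := by
    calc I ^ 2 ≤ 2 * N * (2 * R) * (I + 1 * ((wx * wy) * g)) := hmain
      _ = _ := by ring
  have h2 : 8 * N * R ≤ I := by
    calc 8 * N * R = N * (8 * R) := by ring
      _ ≤ N * m := Nat.mul_le_mul_left _ hR8
      _ ≤ I := hIge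
  have h3 : I ^ 2 ≤ 8 * N * R * ((wx * wy) * g) := by
    have e1 : 2 * (4 * N * R * I) ≤ I ^ 2 := by
      calc 2 * (4 * N * R * I) = (8 * N * R) * I := by ring
        _ ≤ I * I := Nat.mul_le_mul_right _ h2
        _ = I ^ 2 := by ring
    have e2 : 4 * N * R * (I + (wx * wy) * g) = 4 * N * R * I + 4 * N * R * ((wx * wy) * g) := by
      ring
    have e3 : 8 * N * R * ((wx * wy) * g) = 2 * (4 * N * R * ((wx * wy) * g)) := by ring
    rw [e2] at h1
    rw [e3]
    omega
  have h4 : I ^ 2 * R ≤ 32 * N * g ^ 2 := by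
    have e : (I ^ 2 * R) * R ≤ (32 * N * g ^ 2) * R := by
      calc (I ^ 2 * R) * R = I ^ 2 * R ^ 2 := by ring
        _ ≤ (8 * N * R * ((wx * wy) * g)) * R ^ 2 := Nat.mul_le_mul_right _ h3
        _ = 8 * N * R * g * ((wx * wy) * R ^ 2) := by ring
        _ ≤ 8 * N * R * g * (4 * g) := Nat.mul_le_mul_left _ hW
        _ = (32 * N * g ^ 2) * R := by ring
    exact Nat.le_of_mul_le_mul_right e hRpos
  have h5 : (N * m) ^ 2 * R ≤ 32 * N * g ^ 2 :=
    le_trans (Nat.mul_le_mul_right _ (Nat.pow_le_pow_left hIge 2)) h4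
  have h6 : N * m ^ 2 * R ≤ 32 * g ^ 2 := by
    have e : N * (N * m ^ 2 * R) ≤ N * (32 * g ^ 2) := by
      calc N * (N * m ^ 2 * R) = (N * m) ^ 2 * R := by ring
        _ ≤ 32 * N * g ^ 2 := h5
        _ = N * (32 * g ^ 2) := by ring
    exact Nat.le_of_mul_le_mul_left e hNpos
  calc N * m ^ 3 = N * m ^ 2 * m := by ring
    _ ≤ N * m ^ 2 * (16 * R) := Nat.mul_le_mul_left _ hR16
    _ = 16 * (N * m ^ 2 * R) := by ring
    _ ≤ 16 * (32 * g ^ 2) := Nat.mul_le_mul_left _ h6
    _ = 512 * (X.card ^ 2 * T.card ^ 2) := by rw [hg]; ring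

/-- Small richness: two points determine the curve. -/
theorem curve_card_le (X T : Finset ℝ) (C : Finset (ℝ × ℝ))
    (hC : ∀ c ∈ C, 2 ≤ (X.filter (fun x => par c x ∈ T)).card) :
    C.card ≤ (X.card * T.card) ^ 2 := by
  classical
  have hex : ∀ c ∈ C, ∃ p : (ℝ × ℝ) × (ℝ × ℝ), p.1 ∈ X ×ˢ T ∧ p.2 ∈ X ×ˢ T ∧ p.1.1 ≠ p.2.1 ∧
      p.1.2 = par c p.1.1 ∧ p.2.2 = par c p.2.1 := by
    intro c hc
    obtain ⟨x, hx, y, hy, hxy⟩ := Finset.one_lt_card.mp (lt_of_lt_of_le (by norm_num) (hC c hc))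
    have hx' := Finset.mem_filter.mp hx
    have hy' := Finset.mem_filter.mp hy
    refine ⟨((x, par c x), (y, par c y)), ?_, ?_, hxy, rfl, rfl⟩
    · exact Finset.mem_product.mpr ⟨hx'.1, hx'.2⟩
    · exact Finset.mem_product.mpr ⟨hy'.1, hy'.2⟩
  choose! f hf using hex
  have hcard : C.card ≤ ((X ×ˢ T) ×ˢ (X ×ˢ T)).card := by
    apply Finset.card_le_card_of_injOn f
    · intro c hc
      have h := hf c hc
      exact Finset.mem_coe.mpr (Finset.mem_product.mpr ⟨h.1, h.2.1⟩)
    · intro c hc c' hc' h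
      have a := hf c hc
      have b := hf c' hc'
      rw [h] at a
      exact par_unique a.2.2.1 (a.2.2.2.1.symm.trans b.2.2.2.1)
        (a.2.2.2.2.symm.trans b.2.2.2.2)
  calc C.card ≤ _ := hcard
    _ = (X.card * T.card) ^ 2 := by
      rw [Finset.card_product, Finset.card_product]; ring

/-- **The incidence bound.** If each parabola of `C` has at least `m ≥ 2` points on the grid
`X × T`, then `|C| m^3 ≤ 512 |X|^2 |T|^2`. -/
theorem curve_bound (X T : Finset ℝ) (C : Finset (ℝ × ℝ)) (m : ℕ) (hm : 2 ≤ m)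
    (hC : ∀ c ∈ C, m ≤ (X.filter (fun x => par c x ∈ T)).card) :
    C.card * m ^ 3 ≤ 512 * (X.card ^ 2 * T.card ^ 2) := by
  by_cases h8 : 8 ≤ m
  · exact curve_bound_large X T C m h8 hC
  · have hm8 : m ^ 3 ≤ 512 := by
      have : m ≤ 8 := by omega
      calc m ^ 3 ≤ 8 ^ 3 := Nat.pow_le_pow_left this 3
        _ = 512 := by norm_num
    have h1 := curve_card_le X T C (fun c hc => le_trans hm (hC c hc))
    calc C.card * m ^ 3 ≤ (X.card * T.card) ^ 2 * 512 := Nat.mul_le_mul h1 hm8
      _ = 512 * (X.card ^ 2 * T.card ^ 2) := by ring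

end Vale.Agent.Lib.P054
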