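import Vale.Agent.Lib.P054.Curves

/-!
Distinct distances of sets with many points on parallel lines.
-/

open Finset

open scoped Classical

namespace Vale.Agent.Lib.P054

variable {E : Type*} [NormedAddCommGroup E] [InnerProductSpace ℝ E]

/-- The set of distances determined by pairs of distinct points of `P`. -/
noncomputable def distSet (P : Finset E) : Finset ℝ :=
  P.offDiag.image (fun z => ‖z.1 - z.2‖)

/-- All squared distances, including `0`. -/
noncomputable def sqSet (P : Finset E) : Finset ℝ :=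
  (P ×ˢ P).image (fun z => ‖z.1 - z.2‖ ^ 2)

/-- The squared distance of `q, q'` after projecting along the unit vector `e`. -/
noncomputable def horiz (e : E) (z : E × E) : ℝ :=
  ‖z.1 - z.2‖ ^ 2 - (inner ℝ (z.1 - z.2) e) ^ 2

/-- The set of squared distances of the projection of `Q` along `e`. -/
noncomputable def horizSet (e : E) (Q : Finset E) : Finset ℝ :=
  (Q ×ˢ Q).image (horiz e)

theorem mem_sqSet {P : Finset E} {p q : E} (hp : p ∈ P) (hq : q ∈ P) :
    ‖p - q‖ ^ 2 ∈ sqSet P := by
  unfold sqSet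
  exact Finset.mem_image.mpr ⟨(p, q), Finset.mem_product.mpr ⟨hp, hq⟩, rfl⟩

theorem card_sqSet_le (P : Finset E) : (sqSet P).card ≤ (distSet P).card + 1 := by
  have hsub : sqSet P ⊆ insert 0 ((distSet P).image (fun r => r ^ 2)) := by
    intro y hy
    obtain ⟨⟨p, q⟩, hz, rfl⟩ := Finset.mem_image.mp hy
    have hz' := Finset.mem_product.mp hz
    simp only at hz'
    by_cases hpq : p = q
    · subst hpq
      simp
    · apply Finset.mem_insert_of_mem
      refine Finset.mem_image.mpr ⟨‖p - q‖, ?_, rfl⟩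
      unfold distSet
      exact Finset.mem_image.mpr ⟨(p, q), Finset.mem_offDiag.mpr ⟨hz'.1, hz'.2, hpq⟩, rfl⟩
  calc (sqSet P).card ≤ _ := Finset.card_le_card hsub
    _ ≤ ((distSet P).image (fun r => r ^ 2)).card + 1 := Finset.card_insert_le _ _
    _ ≤ (distSet P).card + 1 := Nat.add_le_add_right Finset.card_image_le 1

/-- The basic identity: two points on parallel lines lie on a translated parabola. -/
theorem dist_identity (e : E) (he : ‖e‖ = 1) (q q' : E) (x a : ℝ) :
    ‖(q + x • e) - (q' + a • e)‖ ^ 2 =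
      par (a - inner ℝ (q - q') e, horiz e (q, q')) x := by
  have h1 : (q + x • e) - (q' + a • e) = (q - q') + (x - a) • e := by
    rw [sub_smul]; abel
  rw [h1, norm_add_sq_real, real_inner_smul_right, norm_smul, he]
  unfold par horiz
  simp only [Real.norm_eq_abs, mul_one, sq_abs]
  ring

/-- **Fibre inequality.** If for every `q ∈ Q` at least `m ≥ 2` of the points `q + x e`,
`x ∈ X`, belong to `P`, then `|H| m^4 ≤ 512 |X|^2 |T|^2`, where `T` is the set of squared
distances of `P` and `H` the set of squared distances of the projection of `Q` along `e`. -/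
theorem fiber_bound (e : E) (he : ‖e‖ = 1) (Q : Finset E) (X : Finset ℝ) (P : Finset E) (m : ℕ)
    (hm : 2 ≤ m) (hQ : ∀ q ∈ Q, m ≤ (X.filter (fun x => q + x • e ∈ P)).card) :
    (horizSet e Q).card * m ^ 4 ≤ 512 * (X.card ^ 2 * (sqSet P).card ^ 2) := by
  set H := horizSet e Q with hH
  set T := sqSet P with hT
  have hrep : ∀ δ ∈ H, ∃ z : E × E, z.1 ∈ Q ∧ z.2 ∈ Q ∧ horiz e z = δ := by
    intro δ hδ
    obtain ⟨z, hz, rfl⟩ := Finset.mem_image.mp hδ
    have := Finset.mem_product.mp hz
    exact ⟨z, this.1, this.2, rfl⟩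
  choose! r hr using hrep
  let img : ℝ → Finset (ℝ × ℝ) := fun δ =>
    (X.filter (fun a => (r δ).2 + a • e ∈ P)).image
      (fun a => (a - inner ℝ ((r δ).1 - (r δ).2) e, δ))
  let C : Finset (ℝ × ℝ) := H.biUnion img
  have hdisj : ∀ δ ∈ H, ∀ δ' ∈ H, δ ≠ δ' → Disjoint (img δ) (img δ') := by
    intro δ _ δ' _ hne
    rw [Finset.disjoint_left]
    intro c h1 h2
    obtain ⟨a, _, rfl⟩ := Finset.mem_image.mp h1
    obtain ⟨a', _, h⟩ := Finset.mem_image.mp h2
    exact hne (Prod.mk.inj h).2.symm
  have hCcard : H.card * m ≤ C.card := by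
    rw [Finset.card_biUnion hdisj]
    calc H.card * m = ∑ _δ ∈ H, m := by simp
      _ ≤ _ := by
        apply Finset.sum_le_sum
        intro δ hδ
        have h1 := hQ _ (hr δ hδ).2.1
        have h2 : (img δ).card = (X.filter (fun a => (r δ).2 + a • e ∈ P)).card := by
          apply Finset.card_image_of_injective
          intro a b h
          have := (Prod.mk.inj h).1
          linarith
        rw [h2]
        exact h1
  have hC : ∀ c ∈ C, m ≤ (X.filter (fun x => par c x ∈ T)).card := by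
    intro c hc
    obtain ⟨δ, hδ, hc⟩ := Finset.mem_biUnion.mp hc
    obtain ⟨a, ha, rfl⟩ := Finset.mem_image.mp hc
    have ha' := (Finset.mem_filter.mp ha).2
    refine le_trans (hQ _ (hr δ hδ).1) (Finset.card_le_card ?_)
    intro x hx
    have hx' := Finset.mem_filter.mp hx
    refine Finset.mem_filter.mpr ⟨hx'.1, ?_⟩
    have key := dist_identity e he (r δ).1 (r δ).2 x a
    have hh : horiz e ((r δ).1, (r δ).2) = δ := (hr δ hδ).2.2
    rw [hh] at key
    rw [← key]
    exact mem_sqSet hx'.2 ha'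
  have hbound := curve_bound X T C m hm hC
  calc H.card * m ^ 4 = (H.card * m) * m ^ 3 := by ring
    _ ≤ C.card * m ^ 3 := Nat.mul_le_mul_right _ hCcard
    _ ≤ _ := hbound

/-- The fibre inequality in terms of the number of distinct distances. -/
theorem fiber_main (e : E) (he : ‖e‖ = 1) (Q : Finset E) (X : Finset ℝ) (P : Finset E) (m : ℕ)
    (hm : 2 ≤ m) (hQ : ∀ q ∈ Q, m ≤ (X.filter (fun x => q + x • e ∈ P)).card) :
    (horizSet e Q).card * m ^ 4 ≤ 512 * (X.card ^ 2 * ((distSet P).card + 1) ^ 2) := by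
  refine le_trans (fiber_bound e he Q X P m hm hQ) ?_
  exact Nat.mul_le_mul_left _ (Nat.mul_le_mul_left _ (Nat.pow_le_pow_left (card_sqSet_le P) 2))

/-- For a set in a hyperplane orthogonal to `e` the projected distances are the distances. -/
theorem card_distSet_add_one_le (e : E) (B : Finset E) (hne : B.Nonempty)
    (hB : ∀ b ∈ B, ∀ b' ∈ B, inner ℝ (b - b') e = (0 : ℝ)) :
    (distSet B).card + 1 ≤ (horizSet e B).card := by
  obtain ⟨b0, hb0⟩ := hne
  have hsub : insert 0 ((distSet B).image (fun r => r ^ 2)) ⊆ horizSet e B := by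
    intro y hy
    rcases Finset.mem_insert.mp hy with rfl | hy
    · refine Finset.mem_image.mpr ⟨(b0, b0), Finset.mem_product.mpr ⟨hb0, hb0⟩, ?_⟩
      simp [horiz]
    · obtain ⟨s, hs, rfl⟩ := Finset.mem_image.mp hy
      obtain ⟨z, hz, rfl⟩ := Finset.mem_image.mp hs
      have hz' := Finset.mem_offDiag.mp hz
      refine Finset.mem_image.mpr ⟨z, Finset.mem_product.mpr ⟨hz'.1, hz'.2.1⟩, ?_⟩
      unfold horiz
      rw [hB _ hz'.1 _ hz'.2.1]
      ring
  have hnot : (0 : ℝ) ∉ (distSet B).image (fun r => r ^ 2) := by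
    intro h
    obtain ⟨s, hs, hs0⟩ := Finset.mem_image.mp h
    obtain ⟨z, hz, rfl⟩ := Finset.mem_image.mp hs
    have hz' := Finset.mem_offDiag.mp hz
    have h0 : ‖z.1 - z.2‖ = 0 := by
      simpa using hs0
    exact hz'.2.2 (sub_eq_zero.mp (norm_eq_zero.mp h0))
  have hinj : Set.InjOn (fun r : ℝ => r ^ 2) (distSet B : Set ℝ) := by
    intro s hs s' hs' h
    obtain ⟨z, _, rfl⟩ := Finset.mem_image.mp (Finset.mem_coe.mp hs)
    obtain ⟨z', _, rfl⟩ := Finset.mem_image.mp (Finset.mem_coe.mp hs')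
    simp only at h
    exact (pow_left_inj₀ (norm_nonneg _) (norm_nonneg _) (by norm_num)).mp h
  calc (distSet B).card + 1 = ((distSet B).image (fun r => r ^ 2)).card + 1 := by
        rw [Finset.card_image_of_injOn hinj]
    _ = (insert 0 ((distSet B).image (fun r => r ^ 2))).card := by
        rw [Finset.card_insert_of_notMem hnot]
    _ ≤ _ := Finset.card_le_card hsub

/-- A translate of `B` inside `P` has no more distances than `P`. -/
theorem card_distSet_translate_le (e : E) (B : Finset E) (P : Finset E) (a : ℝ)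
    (hP : ∀ b ∈ B, b + a • e ∈ P) : (distSet B).card ≤ (distSet P).card := by
  apply Finset.card_le_card
  intro s hs
  obtain ⟨z, hz, rfl⟩ := Finset.mem_image.mp hs
  have hz' := Finset.mem_offDiag.mp hz
  refine Finset.mem_image.mpr ⟨(z.1 + a • e, z.2 + a • e), ?_, ?_⟩
  · refine Finset.mem_offDiag.mpr ⟨hP _ hz'.1, hP _ hz'.2.1, ?_⟩
    intro h
    exact hz'.2.2 (add_right_cancel h)
  · simp

/-- **Prism inequality.** `P` contains the prism `B + A e`, with `B` in a hyperplane orthogonal
to the unit vector `e`. Then `(Δ(B)+1) |A|^2 ≤ 512 (Δ(P)+1)^2` and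
`(Δ(B)+1)^2 |A|^2 ≤ 512 (Δ(P)+1)^3`. -/
theorem prism_bound (e : E) (he : ‖e‖ = 1) (B : Finset E) (A : Finset ℝ) (P : Finset E)
    (hne : B.Nonempty) (hA : 2 ≤ A.card)
    (hB : ∀ b ∈ B, ∀ b' ∈ B, inner ℝ (b - b') e = (0 : ℝ))
    (hP : ∀ b ∈ B, ∀ a ∈ A, b + a • e ∈ P) :
    ((distSet B).card + 1) * A.card ^ 2 ≤ 512 * ((distSet P).card + 1) ^ 2 ∧
    ((distSet B).card + 1) ^ 2 * A.card ^ 2 ≤ 512 * ((distSet P).card + 1) ^ 3 := by
  have h1 : (horizSet e B).card * A.card ^ 4 ≤
      512 * (A.card ^ 2 * ((distSet P).card + 1) ^ 2) := by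
    apply fiber_main e he B A P A.card hA
    intro q hq
    rw [Finset.filter_true_of_mem (fun a ha => hP q hq a ha)]
  have h2 := card_distSet_add_one_le e B hne hB
  have hApos : 0 < A.card ^ 2 := by positivity
  have h3 : ((distSet B).card + 1) * A.card ^ 2 ≤ 512 * ((distSet P).card + 1) ^ 2 := by
    have e1 : A.card ^ 2 * (((distSet B).card + 1) * A.card ^ 2) ≤
        A.card ^ 2 * (512 * ((distSet P).card + 1) ^ 2) := by
      calc A.card ^ 2 * (((distSet B).card + 1) * A.card ^ 2)
          = ((distSet B).card + 1) * A.card ^ 4 := by ring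
        _ ≤ (horizSet e B).card * A.card ^ 4 := Nat.mul_le_mul_right _ h2
        _ ≤ _ := h1
        _ = _ := by ring
    exact Nat.le_of_mul_le_mul_left e1 hApos
  refine ⟨h3, ?_⟩
  obtain ⟨a, ha⟩ : A.Nonempty := Finset.card_pos.mp (by omega)
  have h4 : (distSet B).card ≤ (distSet P).card :=
    card_distSet_translate_le e B P a (fun b hb => hP b hb a ha)
  calc ((distSet B).card + 1) ^ 2 * A.card ^ 2
      = ((distSet B).card + 1) * (((distSet B).card + 1) * A.card ^ 2) := by ring
    _ ≤ ((distSet P).card + 1) * (512 * ((distSet P).card + 1) ^ 2) :=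
        Nat.mul_le_mul (by omega) h3
    _ = 512 * ((distSet P).card + 1) ^ 3 := by ring

end Vale.Agent.Lib.P054
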