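import Vale.Agent.Lib.P054.Fibers

/-!
Pinned bound for points on parallel lines, and coordinates in `ℝ³`.
-/

open Finset

open scoped Classical

namespace Vale.Agent.Lib.P054

section General

variable {E : Type*} [NormedAddCommGroup E] [InnerProductSpace ℝ E]

/-- **Pinned lemma.** Let `q0` and every `q ∈ Q` carry at least `m ≥ 2` points of `P` on their
lines parallel to the unit vector `e`.  Then the number of distinct projected squared distances
from `q0` to `Q`, times `m ^ 2`, is at most `512 * (|Δ(P)| + 1) ^ 2`. -/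
theorem pinned_lines (e : E) (he : ‖e‖ = 1) (Q : Finset E) (A : E → Finset ℝ) (P : Finset E)
    (q0 : E) (m : ℕ) (hm : 2 ≤ m) (hQ : ∀ q ∈ Q, m ≤ (A q).card) (h0 : m ≤ (A q0).card)
    (hP : ∀ q ∈ Q, ∀ x ∈ A q, q + x • e ∈ P) (hP0 : ∀ x ∈ A q0, q0 + x • e ∈ P) :
    (Q.image (fun q => horiz e (q0, q))).card * m ^ 2 ≤ 512 * ((distSet P).card + 1) ^ 2 := by
  obtain ⟨X, hXsub, hXcard⟩ := Finset.exists_subset_card_eq h0
  set H := Q.image (fun q => horiz e (q0, q)) with hH
  set T := sqSet P with hT
  have hrep : ∀ δ ∈ H, ∃ q : E, q ∈ Q ∧ horiz e (q0, q) = δ := by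
    intro δ hδ
    obtain ⟨q, hq, rfl⟩ := Finset.mem_image.mp hδ
    exact ⟨q, hq, rfl⟩
  choose! r hr using hrep
  let img : ℝ → Finset (ℝ × ℝ) := fun δ =>
    (A (r δ)).image (fun a => (a - inner ℝ (q0 - r δ) e, δ))
  let C : Finset (ℝ × ℝ) := H.biUnion img
  have hdisj : ∀ δ ∈ H, ∀ δ' ∈ H, δ ≠ δ' → Disjoint (img δ) (img δ') := by
    intro δ _ δ' _ hne
    rw [Finset.disjoint_left]
    intro c h1 h2
    obtain ⟨a, _, rfl⟩ := Finset.mem_image.mp h1
    obtain ⟨a', _, h⟩ := Finset.mem_image.mp h2
    exact hne (Prod.mk.inj h).2.symm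
  have hCcard : H.card * m ≤ C.card := by
    rw [Finset.card_biUnion hdisj]
    calc H.card * m = ∑ _δ ∈ H, m := by simp
      _ ≤ _ := by
        apply Finset.sum_le_sum
        intro δ hδ
        have h1 := hQ _ (hr δ hδ).1
        have h2 : (img δ).card = (A (r δ)).card := by
          apply Finset.card_image_of_injective
          intro a b h
          have := (Prod.mk.inj h).1
          linarith
        rw [h2]
        exact h1
  have hC : ∀ c ∈ C, m ≤ (X.filter (fun x => par c x ∈ T)).card := by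
    intro c hc
    obtain ⟨δ, hδ, hc⟩ := Finset.mem_biUnion.mp hc
    obtain ⟨a, ha, rfl⟩ := Finset.mem_image.mp hc
    have hfil : X.filter (fun x => par (a - inner ℝ (q0 - r δ) e, δ) x ∈ T) = X := by
      apply Finset.filter_true_of_mem
      intro x hx
      have key := dist_identity e he q0 (r δ) x a
      rw [(hr δ hδ).2] at key
      rw [← key]
      exact mem_sqSet (hP0 x (hXsub hx)) (hP _ (hr δ hδ).1 a ha)
    rw [hfil, hXcard]
  have hbound := curve_bound X T C m hm hC
  rw [hXcard] at hbound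
  have hm0 : 0 < m ^ 2 := by positivity
  have h3 : H.card * m ^ 2 * m ^ 2 ≤ 512 * T.card ^ 2 * m ^ 2 := by
    calc H.card * m ^ 2 * m ^ 2 = (H.card * m) * m ^ 3 := by ring
      _ ≤ C.card * m ^ 3 := Nat.mul_le_mul_right _ hCcard
      _ ≤ 512 * (m ^ 2 * T.card ^ 2) := hbound
      _ = _ := by ring
  have h4 := Nat.le_of_mul_le_mul_right h3 hm0
  refine le_trans h4 ?_
  exact Nat.mul_le_mul_left _ (Nat.pow_le_pow_left (card_sqSet_le P) 2)

end General

/-- The Euclidean plane. -/
abbrev E2 := EuclideanSpace ℝ (Fin 2)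

/-- Euclidean three-space. -/
abbrev E3 := EuclideanSpace ℝ (Fin 3)

theorem norm_sq_E2 (u : E2) : ‖u‖ ^ 2 = (u 0) ^ 2 + (u 1) ^ 2 := by
  rw [EuclideanSpace.norm_eq, Real.sq_sqrt (Finset.sum_nonneg (fun i _ => sq_nonneg _))]
  simp [Fin.sum_univ_two]

theorem norm_sq_E3 (u : E3) : ‖u‖ ^ 2 = (u 0) ^ 2 + (u 1) ^ 2 + (u 2) ^ 2 := by
  rw [EuclideanSpace.norm_eq, Real.sq_sqrt (Finset.sum_nonneg (fun i _ => sq_nonneg _))]
  simp [Fin.sum_univ_three]

theorem inner_E3 (u w : E3) : inner ℝ u w = u 0 * w 0 + u 1 * w 1 + u 2 * w 2 := by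
  simp [PiLp.inner_apply, Fin.sum_univ_three]
  ring

/-- The projection to the first two coordinates. -/
noncomputable def proj (p : E3) : E2 := !₂[p 0, p 1]

/-- The inclusion of the plane as the plane `z = 0`. -/
noncomputable def lift (b : E2) : E3 := !₂[b 0, b 1, 0]

/-- The vertical unit vector. -/
noncomputable def e3 : E3 := !₂[0, 0, 1]

@[simp] theorem proj_zero (p : E3) : proj p 0 = p 0 := by simp [proj]
@[simp] theorem proj_one (p : E3) : proj p 1 = p 1 := by simp [proj]
@[simp] theorem lift_zero (b : E2) : lift b 0 = b 0 := by simp [lift]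
@[simp] theorem lift_one (b : E2) : lift b 1 = b 1 := by simp [lift]
@[simp] theorem lift_two (b : E2) : lift b 2 = 0 := by simp [lift]
@[simp] theorem e3_zero : e3 0 = 0 := by simp [e3]
@[simp] theorem e3_one : e3 1 = 0 := by simp [e3]
@[simp] theorem e3_two : e3 2 = 1 := by simp [e3]

theorem norm_e3 : ‖e3‖ = 1 := by
  have h : ‖e3‖ ^ 2 = 1 := by rw [norm_sq_E3]; simp
  have h0 : 0 ≤ ‖e3‖ := norm_nonneg _
  nlinarith

theorem ext_E2 {a b : E2} (h0 : a 0 = b 0) (h1 : a 1 = b 1) : a = b := by
  ext i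
  fin_cases i
  · exact h0
  · exact h1

theorem ext_E3 {a b : E3} (h0 : a 0 = b 0) (h1 : a 1 = b 1) (h2 : a 2 = b 2) : a = b := by
  ext i
  fin_cases i
  · exact h0
  · exact h1
  · exact h2

theorem lift_proj_add (p : E3) : lift (proj p) + (p 2) • e3 = p := by
  apply ext_E3 <;> simp

theorem proj_lift_add (b : E2) (x : ℝ) : proj (lift b + x • e3) = b := by
  apply ext_E2 <;> simp

theorem lift_add_two (b : E2) (x : ℝ) : (lift b + x • e3) 2 = x := by
  simp

theorem lift_inj : Function.Injective lift := by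
  intro a b h
  apply ext_E2
  · simpa using congrArg (fun p : E3 => p 0) h
  · simpa using congrArg (fun p : E3 => p 1) h

theorem norm_lift_sub (b b' : E2) : ‖lift b - lift b'‖ = ‖b - b'‖ := by
  have h : ‖lift b - lift b'‖ ^ 2 = ‖b - b'‖ ^ 2 := by
    rw [norm_sq_E3, norm_sq_E2]
    simp
  exact (pow_left_inj₀ (norm_nonneg _) (norm_nonneg _) (by norm_num)).mp h

theorem inner_lift_sub (b b' : E2) : inner ℝ (lift b - lift b') e3 = (0 : ℝ) := by
  rw [inner_E3]
  simp

theorem horiz_lift (b b' : E2) : horiz e3 (lift b, lift b') = ‖b - b'‖ ^ 2 := by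
  unfold horiz
  simp only
  rw [inner_lift_sub, norm_lift_sub]
  ring

/-- The heights of the points of `P` above `b`. -/
noncomputable def fib (P : Finset E3) (b : E2) : Finset ℝ :=
  (P.filter (fun p => proj p = b)).image (fun p => p 2)

theorem mem_of_mem_fib {P : Finset E3} {b : E2} {x : ℝ} (h : x ∈ fib P b) :
    lift b + x • e3 ∈ P := by
  obtain ⟨p, hp, rfl⟩ := Finset.mem_image.mp h
  have hp' := Finset.mem_filter.mp hp
  rw [← hp'.2, lift_proj_add]
  exact hp'.1

theorem card_fib (P : Finset E3) (b : E2) :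
    (fib P b).card = (P.filter (fun p => proj p = b)).card := by
  apply Finset.card_image_of_injOn
  intro p hp q hq h
  have hp' := (Finset.mem_filter.mp hp).2
  have hq' := (Finset.mem_filter.mp hq).2
  simp only at h
  rw [← lift_proj_add p, ← lift_proj_add q, hp', hq', h]

/-- `P` is the disjoint union of its vertical fibres. -/
theorem card_eq_sum_fib (P : Finset E3) :
    P.card = ∑ b ∈ P.image proj, (fib P b).card := by
  rw [Finset.card_eq_sum_card_image proj P]
  apply Finset.sum_congr rfl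
  intro b _
  rw [card_fib]

/-- The pinned lemma in `ℝ³` for vertical lines. -/
theorem pinned_E3 (P : Finset E3) (B : Finset E2) (c : E2) (m : ℕ) (hm : 2 ≤ m)
    (hB : ∀ b ∈ B, m ≤ (fib P b).card) (hc : m ≤ (fib P c).card) :
    (B.image (fun b => ‖c - b‖ ^ 2)).card * m ^ 2 ≤ 512 * ((distSet P).card + 1) ^ 2 := by
  have h := pinned_lines e3 norm_e3 (B.image lift) (fun q => fib P (proj q)) P (lift c) m hm
    (by
      intro q hq
      obtain ⟨b, hb, rfl⟩ := Finset.mem_image.mp hq
      have : proj (lift b) = b := by apply ext_E2 <;> simp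
      simp only [this]
      exact hB b hb)
    (by
      have : proj (lift c) = c := by apply ext_E2 <;> simp
      simp only [this]
      exact hc)
    (by
      intro q hq x hx
      obtain ⟨b, hb, rfl⟩ := Finset.mem_image.mp hq
      have : proj (lift b) = b := by apply ext_E2 <;> simp
      simp only [this] at hx
      exact mem_of_mem_fib hx)
    (by
      intro x hx
      have : proj (lift c) = c := by apply ext_E2 <;> simp
      simp only [this] at hx
      exact mem_of_mem_fib hx)
  have e : (B.image lift).image (fun q => horiz e3 (lift c, q)) =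
      B.image (fun b => ‖c - b‖ ^ 2) := by
    rw [Finset.image_image]
    apply Finset.image_congr
    intro b _
    simp only [Function.comp]
    exact horiz_lift c b
  rwa [e] at h

end Vale.Agent.Lib.P054
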