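import Vale.Agent.Lib.P054.Layer
import Vale.Agent.Lib.P054.R3

/-!
Szemeredi-Trotter for translated parabolas through full columns, by the two-layer crossing lemma:
if every parabola of `C` passes through a point of each of `k` columns, and each column holds at
most `h` points, then `(k - 1) |C| ≤ 128 h²` or `|C| < 4 h`.  The point sets of the columns are
arbitrary, so this gives pinned statements.
-/

open Finset

open scoped Classical

namespace Vale.Agent.Lib.P054

/-- Ordered pairs of parabolas of `C` that cross between the abscissae `a` and `b`. -/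
noncomputable def gapSet (C : Finset (ℝ × ℝ)) (a b : ℝ) : Finset ((ℝ × ℝ) × (ℝ × ℝ)) :=
  crossPairs (fun c => par c a) (fun c => par c b) C

theorem par_aff (c c' : ℝ × ℝ) (x y : ℝ) :
    (par c x - par c' x) - (par c y - par c' y) = 2 * (c'.1 - c.1) * (x - y) := by
  unfold par
  ring

theorem cross_right {c c' : ℝ × ℝ} {a b x : ℝ} (hab : a < b) (hbx : b < x)
    (h1 : par c a < par c' a) (h2 : par c' b < par c b) : par c' x < par c x := by
  have e1 := par_aff c c' b a
  have e2 := par_aff c c' x b
  have h3 : 0 < 2 * (c'.1 - c.1) * (b - a) := by linarith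
  have h4 : 0 < 2 * (c'.1 - c.1) := by
    by_contra hcon
    push Not at hcon
    have : 2 * (c'.1 - c.1) * (b - a) ≤ 0 :=
      mul_nonpos_of_nonpos_of_nonneg hcon (by linarith)
    linarith
  have h5 : 0 < 2 * (c'.1 - c.1) * (x - b) := mul_pos h4 (by linarith)
  linarith

theorem cross_left {c c' : ℝ × ℝ} {a b x : ℝ} (hab : a ≤ b) (hbx : b < x)
    (h1 : par c b < par c' b) (h2 : par c' x < par c x) : par c a < par c' a := by
  have e1 := par_aff c c' x b
  have e2 := par_aff c c' b a
  have h3 : 0 < 2 * (c'.1 - c.1) * (x - b) := by linarith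
  have h4 : 0 < 2 * (c'.1 - c.1) := by
    by_contra hcon
    push Not at hcon
    have : 2 * (c'.1 - c.1) * (x - b) ≤ 0 :=
      mul_nonpos_of_nonpos_of_nonneg hcon (by linarith)
    linarith
  have h5 : 0 ≤ 2 * (c'.1 - c.1) * (b - a) := mul_nonneg h4.le (by linarith)
  linarith

theorem mem_gapSet {C : Finset (ℝ × ℝ)} {a b : ℝ} {z : (ℝ × ℝ) × (ℝ × ℝ)} :
    z ∈ gapSet C a b ↔ (z.1 ∈ C ∧ z.2 ∈ C) ∧ par z.1 a < par z.2 a ∧ par z.2 b < par z.1 b := by
  unfold gapSet crossPairs
  simp only [Finset.mem_filter, Finset.mem_product]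

/-- Crossings in adjacent gaps are disjoint and add up. -/
theorem gap_split (C : Finset (ℝ × ℝ)) {a b x : ℝ} (hab : a ≤ b) (hbx : b < x) :
    (gapSet C a b).card + (gapSet C b x).card ≤ (gapSet C a x).card := by
  rw [← Finset.card_union_of_disjoint]
  · apply Finset.card_le_card
    intro z hz
    rcases Finset.mem_union.mp hz with h | h
    · obtain ⟨hC, h1, h2⟩ := mem_gapSet.mp h
      refine mem_gapSet.mpr ⟨hC, h1, ?_⟩
      have hlt : a < b := by
        rcases lt_or_eq_of_le hab with h3 | h3
        · exact h3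
        · rw [h3] at h1
          linarith
      exact cross_right hlt hbx h1 h2
    · obtain ⟨hC, h1, h2⟩ := mem_gapSet.mp h
      exact mem_gapSet.mpr ⟨hC, cross_left hab hbx h1 h2, h2⟩
  · rw [Finset.disjoint_left]
    intro z h1 h2
    obtain ⟨_, _, h3⟩ := mem_gapSet.mp h1
    obtain ⟨_, h4, _⟩ := mem_gapSet.mp h2
    linarith

theorem gap_sum (C : Finset (ℝ × ℝ)) (A B : ℕ) (X : Finset ℝ) :
    (∀ x ∈ X, ∀ y ∈ X, x < y → A ≤ B * (gapSet C x y).card) →
    ∀ a ∈ X, ∀ b ∈ X, (∀ x ∈ X, a ≤ x ∧ x ≤ b) →
      (X.card - 1) * A ≤ B * (gapSet C a b).card := by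
  induction X using Finset.induction_on_max with
  | empty =>
    intro _ a ha
    simp at ha
  | insert x X hx ih =>
    intro hL a ha b hb hbd
    have hxmem : x ∈ insert x X := Finset.mem_insert_self _ _
    have hxnot : x ∉ X := fun h => lt_irrefl _ (hx x h)
    have hbx : b = x := by
      rcases Finset.mem_insert.mp hb with h | h
      · exact h
      · have := hx b h
        have h2 := (hbd x hxmem).2
        linarith
    rw [Finset.card_insert_of_notMem hxnot]
    rcases X.eq_empty_or_nonempty with h0 | hne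
    · simp [h0]
    · set b' := X.max' hne with hb'
      have hb'X : b' ∈ X := Finset.max'_mem _ _
      have hb'x : b' < x := hx b' hb'X
      have haX : a ∈ X := by
        rcases Finset.mem_insert.mp ha with h | h
        · have h2 := (hbd b' (Finset.mem_insert_of_mem hb'X)).1
          rw [h] at h2
          linarith
        · exact h
      have hIH := ih (fun p hp q hq => hL p (Finset.mem_insert_of_mem hp) q
        (Finset.mem_insert_of_mem hq)) a haX b' hb'X (fun y hy =>
          ⟨(hbd y (Finset.mem_insert_of_mem hy)).1, Finset.le_max' _ _ hy⟩)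
      have hnew := hL b' (Finset.mem_insert_of_mem hb'X) x hxmem hb'x
      have hsplit := gap_split C (Finset.le_max' X a haX) hb'x
      rw [hbx]
      have hXpos : 1 ≤ X.card := Finset.card_pos.mpr hne
      calc (X.card + 1 - 1) * A = (X.card - 1) * A + A := by
            have : X.card + 1 - 1 = (X.card - 1) + 1 := by omega
            rw [this]
            ring
        _ ≤ B * (gapSet C a b').card + B * (gapSet C b' x).card := Nat.add_le_add hIH hnew
        _ = B * ((gapSet C a b').card + (gapSet C b' x).card) := by ring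
        _ ≤ _ := Nat.mul_le_mul_left _ hsplit

/-- **Szemeredi-Trotter through full columns.** -/
theorem full_column (X : Finset ℝ) (C : Finset (ℝ × ℝ)) (h : ℕ)
    (hT : ∀ x ∈ X, (C.image (fun c => par c x)).card ≤ h) (h0 : 0 < h) (hN : 4 * h ≤ C.card) :
    (X.card - 1) * C.card ≤ 128 * h ^ 2 := by
  rcases X.eq_empty_or_nonempty with hX | hX
  · simp [hX]
  have hCpos : 0 < C.card := by omega
  have hCne : C.Nonempty := Finset.card_pos.mp hCpos
  have hgap : ∀ x ∈ X, ∀ y ∈ X, x < y → C.card ^ 3 ≤ 128 * h ^ 2 * (gapSet C x y).card := by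
    intro x hx y hy hxy
    have hv1 := hT x hx
    have hv2 := hT y hy
    have hvpos : 0 < (C.image (fun c => par c x)).card + (C.image (fun c => par c y)).card := by
      have : 0 < (C.image (fun c => par c x)).card := Finset.card_pos.mpr (hCne.image _)
      omega
    have hl := crossing_lower (fun c => par c x) (fun c => par c y) C
      (C.image (fun c => par c x)) (C.image (fun c => par c y))
      (fun c hc => Finset.mem_image_of_mem _ hc) (fun c hc => Finset.mem_image_of_mem _ hc)
      (fun c _ c' _ h1 h2 => par_unique (ne_of_lt hxy) h1 h2) hvpos (by omega)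
    refine le_trans hl ?_
    unfold gapSet
    apply Nat.mul_le_mul_right
    have hv3 : (C.image (fun c => par c x)).card + (C.image (fun c => par c y)).card ≤ 2 * h := by
      omega
    calc 32 * ((C.image (fun c => par c x)).card + (C.image (fun c => par c y)).card) ^ 2
        ≤ 32 * (2 * h) ^ 2 := Nat.mul_le_mul_left _ (Nat.pow_le_pow_left hv3 2)
      _ = 128 * h ^ 2 := by ring
  have hsum := gap_sum C (C.card ^ 3) (128 * h ^ 2) X hgap (X.min' hX) (Finset.min'_mem _ _)
    (X.max' hX) (Finset.max'_mem _ _) (fun x hx => ⟨Finset.min'_le _ _ hx, Finset.le_max' _ _ hx⟩)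
  have hgapN : (gapSet C (X.min' hX) (X.max' hX)).card ≤ C.card ^ 2 := by
    have : gapSet C (X.min' hX) (X.max' hX) ⊆ C ×ˢ C := by
      unfold gapSet crossPairs
      exact Finset.filter_subset _ _
    have h2 := Finset.card_le_card this
    rw [Finset.card_product] at h2
    rw [sq]
    exact h2
  have hpos : 0 < C.card ^ 2 := by positivity
  apply Nat.le_of_mul_le_mul_right _ hpos
  calc (X.card - 1) * C.card * C.card ^ 2 = (X.card - 1) * C.card ^ 3 := by ring
    _ ≤ 128 * h ^ 2 * (gapSet C (X.min' hX) (X.max' hX)).card := hsum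
    _ ≤ 128 * h ^ 2 * C.card ^ 2 := Nat.mul_le_mul_left _ hgapN

section General

variable {E : Type*} [NormedAddCommGroup E] [InnerProductSpace ℝ E]

/-- The squared distances from `p` to the points of `P`, including `0` when `p ∈ P`. -/
noncomputable def pinSet (P : Finset E) (p : E) : Finset ℝ :=
  P.image (fun q => ‖p - q‖ ^ 2)

theorem mem_pinSet {P : Finset E} {p q : E} (hq : q ∈ P) : ‖p - q‖ ^ 2 ∈ pinSet P p :=
  Finset.mem_image.mpr ⟨q, hq, rfl⟩

/-- A line with `m` points pins at least `m` squared distances at its lowest point. -/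
theorem le_pin_of_line (e : E) (he : ‖e‖ = 1) (X : Finset ℝ) (hne : X.Nonempty) (P : Finset E)
    (q0 : E) (hP : ∀ x ∈ X, q0 + x • e ∈ P) :
    X.card ≤ (pinSet P (q0 + (X.min' hne) • e)).card := by
  set x0 := X.min' hne with hx0
  have hval : ∀ x ∈ X, ‖(q0 + x0 • e) - (q0 + x • e)‖ ^ 2 = (x - x0) ^ 2 := by
    intro x _
    have h1 : (q0 + x0 • e) - (q0 + x • e) = (x0 - x) • e := by
      rw [sub_smul]
      abel
    rw [h1, norm_smul, he, mul_one, Real.norm_eq_abs, sq_abs]
    ring
  have hinj : Set.InjOn (fun x : ℝ => (x - x0) ^ 2) (X : Set ℝ) := by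
    intro x hx y hy hEq
    have hx1 : x0 ≤ x := Finset.min'_le _ _ (Finset.mem_coe.mp hx)
    have hy1 : x0 ≤ y := Finset.min'_le _ _ (Finset.mem_coe.mp hy)
    have h2 : x - x0 = y - x0 :=
      (pow_left_inj₀ (by linarith) (by linarith) (by norm_num)).mp hEq
    linarith
  calc X.card = (X.image (fun x : ℝ => (x - x0) ^ 2)).card :=
        (Finset.card_image_of_injOn hinj).symm
    _ ≤ _ := by
        apply Finset.card_le_card
        intro y hy
        obtain ⟨x, hx, rfl⟩ := Finset.mem_image.mp hy
        rw [← hval x hx]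
        exact mem_pinSet (hP x hx)

/-- **Pinned lemma.**  Let `q0` and every `q ∈ Q` carry at least `m ≥ 2` points of `P` on their
lines parallel to the unit vector `e`, and let each point of `P` on the line of `q0` pin at most
`h` squared distances.  Then the number of distinct projected squared distances from `q0` to `Q`,
times `m ^ 2`, is at most `256 h ^ 2`. -/
theorem pinned_full (e : E) (he : ‖e‖ = 1) (Q : Finset E) (A : E → Finset ℝ) (P : Finset E)
    (q0 : E) (m : ℕ) (hm : 2 ≤ m) (hQ : ∀ q ∈ Q, m ≤ (A q).card) (h0 : m ≤ (A q0).card)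
    (hP : ∀ q ∈ Q, ∀ x ∈ A q, q + x • e ∈ P) (hP0 : ∀ x ∈ A q0, q0 + x • e ∈ P) (h : ℕ)
    (hh : ∀ x ∈ A q0, (pinSet P (q0 + x • e)).card ≤ h) :
    (Q.image (fun q => horiz e (q0, q))).card * m ^ 2 ≤ 256 * h ^ 2 := by
  obtain ⟨X, hXsub, hXcard⟩ := Finset.exists_subset_card_eq h0
  have hXne : X.Nonempty := Finset.card_pos.mp (by omega)
  have hmh : m ≤ h := by
    have h1 := le_pin_of_line e he X hXne P q0 (fun x hx => hP0 x (hXsub hx))
    have h2 := hh _ (hXsub (Finset.min'_mem X hXne))
    omega
  have hhpos : 0 < h := by omega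
  set H := Q.image (fun q => horiz e (q0, q)) with hH
  have hrep : ∀ δ ∈ H, ∃ q : E, q ∈ Q ∧ horiz e (q0, q) = δ := by
    intro δ hδ
    obtain ⟨q, hq, rfl⟩ := Finset.mem_image.mp hδ
    exact ⟨q, hq, rfl⟩
  choose! r hr using hrep
  let img : ℝ → Finset (ℝ × ℝ) := fun δ =>
    (A (r δ)).image (fun a => (a - inner ℝ (q0 - r δ) e, δ))
  let C : Finset (ℝ × ℝ) := H.biUnion img
  have hdisj : ∀ δ ∈ H, ∀ δ' ∈ H, δ ≠ δ' → Disjoint (img δ) (img δ') := by
    intro δ _ δ' _ hne
    rw [Finset.disjoint_left]
    intro c h1 h2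
    obtain ⟨a, _, rfl⟩ := Finset.mem_image.mp h1
    obtain ⟨a', _, h⟩ := Finset.mem_image.mp h2
    exact hne (Prod.mk.inj h).2.symm
  have hCcard : H.card * m ≤ C.card := by
    rw [Finset.card_biUnion hdisj]
    calc H.card * m = ∑ _δ ∈ H, m := by simp
      _ ≤ _ := by
        apply Finset.sum_le_sum
        intro δ hδ
        have h1 := hQ _ (hr δ hδ).1
        have h2 : (img δ).card = (A (r δ)).card := by
          apply Finset.card_image_of_injective
          intro a b h
          have := (Prod.mk.inj h).1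
          linarith
        rw [h2]
        exact h1
  have hT : ∀ x ∈ X, (C.image (fun c => par c x)).card ≤ h := by
    intro x hx
    refine le_trans (Finset.card_le_card ?_) (hh x (hXsub hx))
    intro y hy
    obtain ⟨c, hc, rfl⟩ := Finset.mem_image.mp hy
    obtain ⟨δ, hδ, hc⟩ := Finset.mem_biUnion.mp hc
    obtain ⟨a, ha, rfl⟩ := Finset.mem_image.mp hc
    have key := dist_identity e he q0 (r δ) x a
    rw [(hr δ hδ).2] at key
    rw [← key]
    exact mem_pinSet (hP _ (hr δ hδ).1 a ha)
  rcases Nat.lt_or_ge C.card (4 * h) with hsmall | hbig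
  · calc H.card * m ^ 2 = (H.card * m) * m := by ring
      _ ≤ C.card * m := Nat.mul_le_mul_right _ hCcard
      _ ≤ (4 * h) * h := Nat.mul_le_mul (le_of_lt hsmall) hmh
      _ ≤ 256 * h ^ 2 := by nlinarith
  · have hfc := full_column X C h hT hhpos hbig
    rw [hXcard] at hfc
    have h2m : m ≤ 2 * (m - 1) := by omega
    calc H.card * m ^ 2 = (H.card * m) * m := by ring
      _ ≤ C.card * (2 * (m - 1)) := Nat.mul_le_mul hCcard h2m
      _ = 2 * ((m - 1) * C.card) := by ring
      _ ≤ 2 * (128 * h ^ 2) := Nat.mul_le_mul_left _ hfc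
      _ = 256 * h ^ 2 := by ring

end General

end Vale.Agent.Lib.P054
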