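import Vale.Agent.Lib.P054.Full
import Vale.Agent.Lib.P041.Pinned

/-!
Pinned distances of a finite set spanning a low-dimensional space: a rich bisector, full columns in
dimension two, and induction on the dimension above that.
-/

open Finset Module

open scoped Classical

namespace Vale.Agent.Lib.P054

variable {E : Type*} [NormedAddCommGroup E] [InnerProductSpace ℝ E] [FiniteDimensional ℝ E]

/-- The points of `Q` equidistant from the two points of `z`. -/
noncomputable def bisectG (Q : Finset E) (z : E × E) : Finset E :=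
  Q.filter (fun a => ‖a - z.1‖ ^ 2 = ‖a - z.2‖ ^ 2)

omit [FiniteDimensional ℝ E] in
/-- Isosceles triples: some bisector is rich. -/
theorem rich_bisectorG (Q : Finset E) (H : ℕ) (hH : ∀ a ∈ Q, (pinSet Q a).card ≤ H)
    (hQ : 2 ≤ Q.card) :
    ∃ z ∈ Q.offDiag, Q.card ≤ H * (1 + (bisectG Q z).card) := by
  set u := Q.card with hu
  have hne : Q.offDiag.Nonempty := by
    obtain ⟨a, ha, b, hb, hab⟩ := Finset.one_lt_card.mp (by omega : 1 < Q.card)
    exact ⟨(a, b), Finset.mem_offDiag.mpr ⟨ha, hb, hab⟩⟩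
  obtain ⟨z0, hz0, hmax⟩ := Finset.exists_max_image Q.offDiag (fun z => (bisectG Q z).card) hne
  refine ⟨z0, hz0, ?_⟩
  set K := (bisectG Q z0).card with hK
  have h1 : ∀ a ∈ Q, u ^ 2 ≤ H * ((Q ×ˢ Q).filter
      (fun z => ‖a - z.1‖ ^ 2 = ‖a - z.2‖ ^ 2)).card := by
    intro a ha
    have h2 := Vale.Agent.Lib.P041.card_sq_le Q (fun q => ‖a - q‖ ^ 2)
    refine le_trans h2 (Nat.mul_le_mul_right _ (hH a ha))
  have h3 : u * u ^ 2 ≤ H * ∑ a ∈ Q, ((Q ×ˢ Q).filter
      (fun z => ‖a - z.1‖ ^ 2 = ‖a - z.2‖ ^ 2)).card := by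
    calc u * u ^ 2 = ∑ _a ∈ Q, u ^ 2 := by simp [hu]
      _ ≤ ∑ a ∈ Q, H * ((Q ×ˢ Q).filter
          (fun z => ‖a - z.1‖ ^ 2 = ‖a - z.2‖ ^ 2)).card := Finset.sum_le_sum h1
      _ = _ := by rw [Finset.mul_sum]
  have h4 : ∑ a ∈ Q, ((Q ×ˢ Q).filter (fun z => ‖a - z.1‖ ^ 2 = ‖a - z.2‖ ^ 2)).card =
      ∑ z ∈ Q ×ˢ Q, (bisectG Q z).card := by
    unfold bisectG
    exact sum_card_filter_comm Q (Q ×ˢ Q) (fun a z => ‖a - z.1‖ ^ 2 = ‖a - z.2‖ ^ 2) _ _
  have h5 : ∑ z ∈ Q ×ˢ Q, (bisectG Q z).card ≤ u ^ 2 * (1 + K) := by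
    have hsplit : Q ×ˢ Q = Q.offDiag ∪ Q.diag := by
      rw [Finset.union_comm]
      exact (Finset.diag_union_offDiag Q).symm
    rw [hsplit, Finset.sum_union (Finset.disjoint_diag_offDiag Q).symm]
    have hdiag : ∑ z ∈ Q.diag, (bisectG Q z).card ≤ u ^ 2 := by
      calc ∑ z ∈ Q.diag, (bisectG Q z).card ≤ ∑ _z ∈ Q.diag, u := by
            apply Finset.sum_le_sum
            intro z _
            exact Finset.card_filter_le _ _
        _ = Q.diag.card * u := by simp
        _ = u ^ 2 := by rw [Finset.diag_card]; ring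
    have hoff : ∑ z ∈ Q.offDiag, (bisectG Q z).card ≤ u ^ 2 * K := by
      calc ∑ z ∈ Q.offDiag, (bisectG Q z).card ≤ ∑ _z ∈ Q.offDiag, K :=
            Finset.sum_le_sum hmax
        _ = Q.offDiag.card * K := by simp
        _ ≤ u ^ 2 * K := by
            apply Nat.mul_le_mul_right
            rw [Finset.offDiag_card, sq]
            exact Nat.sub_le _ _
    calc _ ≤ u ^ 2 * K + u ^ 2 := Nat.add_le_add hoff hdiag
      _ = _ := by ring
  have h6 : u * u ^ 2 ≤ (H * (1 + K)) * u ^ 2 := by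
    calc u * u ^ 2 ≤ H * ∑ a ∈ Q, ((Q ×ˢ Q).filter
          (fun z => ‖a - z.1‖ ^ 2 = ‖a - z.2‖ ^ 2)).card := h3
      _ = H * ∑ z ∈ Q ×ˢ Q, (bisectG Q z).card := by rw [h4]
      _ ≤ H * (u ^ 2 * (1 + K)) := Nat.mul_le_mul_left _ h5
      _ = _ := by ring
  have hupos : 0 < u ^ 2 := by
    have : 0 < u := by omega
    positivity
  exact Nat.le_of_mul_le_mul_right h6 hupos

omit [FiniteDimensional ℝ E] in
/-- Differences of points of a bisector are orthogonal to the normal. -/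
theorem bisect_orth {Q : Finset E} {z : E × E} {a a' : E} (ha : a ∈ bisectG Q z)
    (ha' : a' ∈ bisectG Q z) : inner ℝ (z.2 - z.1) (a - a') = (0 : ℝ) := by
  have h1 := (Finset.mem_filter.mp ha).2
  have h2 := (Finset.mem_filter.mp ha').2
  rw [norm_sub_sq_real, norm_sub_sq_real] at h1 h2
  rw [inner_sub_left, inner_sub_right, inner_sub_right, real_inner_comm a z.2,
    real_inner_comm a' z.2, real_inner_comm a z.1, real_inner_comm a' z.1]
  linarith

/-- A proper subspace obtained by cutting with a nonzero vector. -/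
theorem finrank_cut (W : Submodule ℝ E) {n : E} (hn : n ∈ W) (hn0 : n ≠ 0) :
    finrank ℝ (W ⊓ (ℝ ∙ n)ᗮ : Submodule ℝ E) < finrank ℝ W := by
  apply Submodule.finrank_lt_finrank_of_lt
  refine lt_of_le_of_ne inf_le_left ?_
  intro h
  have h1 : n ∈ W ⊓ (ℝ ∙ n)ᗮ := by rw [h]; exact hn
  have h2 := (Submodule.mem_orthogonal_singleton_iff_inner_right.mp h1.2)
  have h3 : inner ℝ n n = (0 : ℝ) := h2
  exact hn0 (inner_self_eq_zero.mp h3)

theorem mem_cut {W : Submodule ℝ E} {n x : E} (hx : x ∈ W) (h : inner ℝ n x = (0 : ℝ)) :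
    x ∈ (W ⊓ (ℝ ∙ n)ᗮ : Submodule ℝ E) :=
  ⟨hx, Submodule.mem_orthogonal_singleton_iff_inner_right.mpr h⟩

/-- In a subspace of dimension at most one, three vectors of equal norm are not pairwise distinct. -/
theorem three_same_norm (W : Submodule ℝ E) (h : finrank ℝ W ≤ 1) {w1 w2 w3 : E}
    (h1 : w1 ∈ W) (h2 : w2 ∈ W) (h3 : w3 ∈ W) (h12 : ‖w1‖ = ‖w2‖) (h13 : ‖w1‖ = ‖w3‖) :
    w1 = w2 ∨ w1 = w3 ∨ w2 = w3 := by
  obtain ⟨v, hv⟩ := finrank_le_one_iff.mp h
  obtain ⟨c1, hc1⟩ := hv ⟨w1, h1⟩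
  obtain ⟨c2, hc2⟩ := hv ⟨w2, h2⟩
  obtain ⟨c3, hc3⟩ := hv ⟨w3, h3⟩
  have e1 : w1 = c1 • (v : E) := by
    have := congrArg Subtype.val hc1
    simpa using this.symm
  have e2 : w2 = c2 • (v : E) := by
    have := congrArg Subtype.val hc2
    simpa using this.symm
  have e3 : w3 = c3 • (v : E) := by
    have := congrArg Subtype.val hc3
    simpa using this.symm
  by_cases hv0 : (v : E) = 0
  · left
    rw [e1, e2, hv0]
    simp
  have hvn : ‖(v : E)‖ ≠ 0 := norm_ne_zero_iff.mpr hv0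
  rw [e1, e2, norm_smul, norm_smul] at h12
  rw [e1, e3, norm_smul, norm_smul] at h13
  have a12 : |c1| = |c2| := by
    have := mul_right_cancel₀ hvn h12
    simpa [Real.norm_eq_abs] using this
  have a13 : |c1| = |c3| := by
    have := mul_right_cancel₀ hvn h13
    simpa [Real.norm_eq_abs] using this
  rw [e1, e2, e3]
  rcases abs_eq_abs.mp a12 with h4 | h4
  · left; rw [h4]
  rcases abs_eq_abs.mp a13 with h5 | h5
  · right; left; rw [h5]
  · right; right
    have : c2 = c3 := by linarith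
    rw [this]

/-- **Dimension two.**  If the differences of `Q` lie in a subspace of dimension at most two and
every point of `Q` pins at most `H` squared distances, then `|Q| ^ 2 ≤ 343 H ^ 3`. -/
theorem moser_two (W : Submodule ℝ E) (hW : finrank ℝ W ≤ 2) (Q : Finset E)
    (hQ : ∀ a ∈ Q, ∀ b ∈ Q, a - b ∈ W) (H : ℕ) (hH : ∀ a ∈ Q, (pinSet Q a).card ≤ H) :
    Q.card ^ 2 ≤ 343 * H ^ 3 := by
  set u := Q.card with hu
  rcases Nat.eq_zero_or_pos u with hu0 | hupos
  · rw [hu0]; simp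
  obtain ⟨a0, ha0⟩ : Q.Nonempty := Finset.card_pos.mp hupos
  have hH1 : 1 ≤ H := by
    have h1 := hH a0 ha0
    have h2 : 0 < (pinSet Q a0).card :=
      Finset.card_pos.mpr ⟨_, mem_pinSet (p := a0) ha0⟩
    omega
  have hH3 : H ^ 2 ≤ H ^ 3 := Nat.pow_le_pow_right hH1 (by norm_num)
  rcases Nat.lt_or_ge (8 * H) u with hbig | hsmall
  swap
  · calc u ^ 2 ≤ (8 * H) ^ 2 := Nat.pow_le_pow_left hsmall 2
      _ = 64 * H ^ 2 := by ring
      _ ≤ 343 * H ^ 3 := by nlinarith
  obtain ⟨z, hz, hzK⟩ := rich_bisectorG Q H hH (by omega)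
  obtain ⟨hz1, hz2, hz3⟩ := Finset.mem_offDiag.mp hz
  set L := bisectG Q z with hL
  have hLQ : ∀ a ∈ L, a ∈ Q := fun a ha => (Finset.mem_filter.mp ha).1
  have hk8 : 2 ≤ L.card := by
    by_contra hlt
    have hk : L.card ≤ 1 := by omega
    have : H * (1 + L.card) ≤ H * 2 := Nat.mul_le_mul_left _ (by omega)
    omega
  obtain ⟨a1, ha1, a2, ha2, ha12⟩ := Finset.one_lt_card.mp (by omega : 1 < L.card)
  -- the normal and the tangent
  set n := z.2 - z.1 with hn
  have hn0 : n ≠ 0 := sub_ne_zero.mpr (Ne.symm hz3)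
  have hnW : n ∈ W := hQ _ hz2 _ hz1
  set W' : Submodule ℝ E := W ⊓ (ℝ ∙ n)ᗮ with hW'
  have hW'1 : finrank ℝ W' ≤ 1 := by
    have : finrank ℝ W' < finrank ℝ W := finrank_cut W hnW hn0
    omega
  set t0 := a2 - a1 with ht0
  have ht00 : t0 ≠ 0 := sub_ne_zero.mpr (Ne.symm ha12)
  have ht0n : ‖t0‖ ≠ 0 := norm_ne_zero_iff.mpr ht00
  set τ : E := (‖t0‖)⁻¹ • t0 with hτ
  have hτ1 : ‖τ‖ = 1 := by
    rw [hτ, norm_smul, norm_inv, norm_norm]
    exact inv_mul_cancel₀ ht0n
  have hτ0 : τ ≠ 0 := by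
    intro h
    rw [h, norm_zero] at hτ1
    exact zero_ne_one hτ1
  have hτW' : τ ∈ W' := by
    apply W'.smul_mem
    exact mem_cut (hQ _ (hLQ a2 ha2) _ (hLQ a1 ha1)) (bisect_orth ha2 ha1)
  have hτW : τ ∈ W := hτW'.1
  -- the points of `L` lie on the line through `a1` with direction `τ`
  have hline : ∀ a ∈ L, a = a1 + (inner ℝ (a - a1) τ) • τ := by
    intro a ha
    have hmem : a - a1 ∈ W' :=
      mem_cut (hQ _ (hLQ a ha) _ (hLQ a1 ha1)) (bisect_orth ha ha1)
    obtain ⟨v, hv⟩ := finrank_le_one_iff.mp hW'1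
    obtain ⟨c, hc⟩ := hv ⟨a - a1, hmem⟩
    obtain ⟨c', hc'⟩ := hv ⟨τ, hτW'⟩
    have e1 : a - a1 = c • (v : E) := by
      have := congrArg Subtype.val hc
      simpa using this.symm
    have e2 : τ = c' • (v : E) := by
      have := congrArg Subtype.val hc'
      simpa using this.symm
    have hc'0 : c' ≠ 0 := by
      intro h0
      rw [h0, zero_smul] at e2
      exact hτ0 e2
    have e3 : a - a1 = (c / c') • τ := by
      rw [e1, e2, smul_smul, div_mul_cancel₀ _ hc'0]
    have e4 : inner ℝ (a - a1) τ = c / c' := by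
      rw [e3, real_inner_smul_left, real_inner_self_eq_norm_sq, hτ1]
      ring
    rw [e4, ← e3]
    abel
  set s : E → ℝ := fun a => inner ℝ (a - a1) τ with hs
  have hsinj : Set.InjOn s (L : Set E) := by
    intro a ha a' ha' h
    have h1 := hline a (Finset.mem_coe.mp ha)
    have h2 := hline a' (Finset.mem_coe.mp ha')
    have h3 : inner ℝ (a - a1) τ = inner ℝ (a' - a1) τ := h
    calc a = a1 + (inner ℝ (a - a1) τ) • τ := h1
      _ = a1 + (inner ℝ (a' - a1) τ) • τ := by rw [h3]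
      _ = a' := h2.symm
  set X := L.image s with hX
  have hXcard : X.card = L.card := Finset.card_image_of_injOn hsinj
  -- the parabolas
  let cv : E → ℝ × ℝ := fun q => (0 - inner ℝ (a1 - q) τ, horiz τ (a1, q))
  have hpar : ∀ a ∈ L, ∀ q, par (cv q) (s a) = ‖a - q‖ ^ 2 := by
    intro a ha q
    have key := dist_identity τ hτ1 a1 q (s a) 0
    have e : (a1 + (s a) • τ) - (q + (0 : ℝ) • τ) = a - q := by
      have := hline a ha
      simp only [zero_smul, add_zero]
      rw [← this]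
    rw [e] at key
    rw [key]
  set C := Q.image cv with hC
  have hfib : ∀ c, (Q.filter (fun q => cv q = c)).card ≤ 2 := by
    intro c
    by_contra hcon
    push Not at hcon
    obtain ⟨p1, h1, p2, h2, p3, h3, h12, h13, h23⟩ := Finset.two_lt_card.mp hcon
    obtain ⟨hp1, e1⟩ := Finset.mem_filter.mp h1
    obtain ⟨hp2, e2⟩ := Finset.mem_filter.mp h2
    obtain ⟨hp3, e3⟩ := Finset.mem_filter.mp h3
    -- common abscissa and height
    have key : ∀ q ∈ Q, cv q = c → (q - a1) - (c.1 • τ) ∈ W ⊓ (ℝ ∙ τ)ᗮ ∧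
        ‖(q - a1) - (c.1 • τ)‖ ^ 2 = c.2 := by
      intro q hq hqc
      have hc1 : c.1 = 0 - inner ℝ (a1 - q) τ := by rw [← hqc]
      have hc2 : c.2 = horiz τ (a1, q) := by rw [← hqc]
      have hin : inner ℝ (q - a1) τ = c.1 := by
        rw [hc1, ← neg_sub q a1, inner_neg_left]
        ring
      have horth : inner ℝ τ ((q - a1) - c.1 • τ) = (0 : ℝ) := by
        rw [inner_sub_right, real_inner_smul_right, real_inner_self_eq_norm_sq, hτ1,
          real_inner_comm, hin]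
        ring
      refine ⟨mem_cut (W.sub_mem (hQ _ hq _ (hLQ a1 ha1)) (W.smul_mem _ hτW)) horth, ?_⟩
      rw [norm_sub_sq_real, real_inner_smul_right, norm_smul, hτ1, hin, hc2]
      unfold horiz
      simp only [Real.norm_eq_abs, mul_one, sq_abs]
      rw [← neg_sub q a1, norm_neg, inner_neg_left, hin]
      ring
    obtain ⟨m1, n1⟩ := key p1 hp1 e1
    obtain ⟨m2, n2⟩ := key p2 hp2 e2
    obtain ⟨m3, n3⟩ := key p3 hp3 e3
    have hW1 : finrank ℝ (W ⊓ (ℝ ∙ τ)ᗮ : Submodule ℝ E) ≤ 1 := by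
      have := finrank_cut W hτW hτ0
      omega
    have eq12 : ‖(p1 - a1) - (c.1 • τ)‖ = ‖(p2 - a1) - (c.1 • τ)‖ :=
      (pow_left_inj₀ (norm_nonneg _) (norm_nonneg _) (by norm_num)).mp (n1.trans n2.symm)
    have eq13 : ‖(p1 - a1) - (c.1 • τ)‖ = ‖(p3 - a1) - (c.1 • τ)‖ :=
      (pow_left_inj₀ (norm_nonneg _) (norm_nonneg _) (by norm_num)).mp (n1.trans n3.symm)
    rcases three_same_norm _ hW1 m1 m2 m3 eq12 eq13 with h4 | h4 | h4
    · apply h12
      have := sub_left_injective h4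
      exact sub_left_injective this
    · apply h13
      have := sub_left_injective h4
      exact sub_left_injective this
    · apply h23
      have := sub_left_injective h4
      exact sub_left_injective this
  have hu2 : u ≤ 2 * C.card :=
    Finset.card_le_mul_card_image (f := cv) Q 2 (fun c _ => hfib c)
  have hT : ∀ x ∈ X, (C.image (fun c => par c x)).card ≤ H := by
    intro x hx
    obtain ⟨a, ha, rfl⟩ := Finset.mem_image.mp hx
    refine le_trans (Finset.card_le_card ?_) (hH a (hLQ a ha))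
    intro y hy
    obtain ⟨c, hc, rfl⟩ := Finset.mem_image.mp hy
    obtain ⟨q, hq, rfl⟩ := Finset.mem_image.mp hc
    rw [hpar a ha q]
    exact mem_pinSet hq
  have hN : 4 * H ≤ C.card := by omega
  have hfc := full_column X C H hT (by omega) hN
  rw [hXcard] at hfc
  set k := L.card with hk
  set N := C.card with hNdef
  obtain ⟨k', hk'⟩ : ∃ k', k = k' + 1 := ⟨k - 1, by omega⟩
  rw [hk'] at hfc hzK
  simp only [Nat.add_sub_cancel] at hfc
  have h1 : 3 * u ≤ 4 * (H * k') := by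
    have h2 : u ≤ 2 * H + H * k' := by
      calc u ≤ H * (1 + (k' + 1)) := hzK
        _ = 2 * H + H * k' := by ring
    omega
  have h2 : 3 * u ^ 2 ≤ 1024 * H ^ 3 := by
    calc 3 * u ^ 2 = (3 * u) * u := by ring
      _ ≤ (4 * (H * k')) * (2 * N) := Nat.mul_le_mul h1 hu2
      _ = 8 * H * (k' * N) := by ring
      _ ≤ 8 * H * (128 * H ^ 2) := Nat.mul_le_mul_left _ hfc
      _ = 1024 * H ^ 3 := by ring
  omega

/-- **All dimensions.**  If the differences of `Q` lie in a subspace of dimension at most `D + 2`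
and every point of `Q` pins at most `H` squared distances, then
`|Q| ^ 2 ≤ 343 * 4 ^ D * H ^ (2 D + 3)`. -/
theorem moser_all (D : ℕ) : ∀ (W : Submodule ℝ E), finrank ℝ W ≤ D + 2 → ∀ (Q : Finset E),
    (∀ a ∈ Q, ∀ b ∈ Q, a - b ∈ W) → ∀ (H : ℕ), (∀ a ∈ Q, (pinSet Q a).card ≤ H) →
    Q.card ^ 2 ≤ 343 * 4 ^ D * H ^ (2 * D + 3) := by
  induction D with
  | zero =>
    intro W hW Q hQ H hH
    simpa using moser_two W hW Q hQ H hH
  | succ D ih =>
    intro W hW Q hQ H hH
    set u := Q.card with hu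
    rcases Nat.lt_or_ge u 2 with hsmall | hbig
    · -- at most one point
      rcases Nat.eq_zero_or_pos u with hu0 | hupos
      · rw [hu0]; simp
      obtain ⟨a0, ha0⟩ : Q.Nonempty := Finset.card_pos.mp hupos
      have hH1 : 1 ≤ H := by
        have h1 := hH a0 ha0
        have h2 : 0 < (pinSet Q a0).card :=
          Finset.card_pos.mpr ⟨_, mem_pinSet (p := a0) ha0⟩
        omega
      have hu1 : u = 1 := by omega
      rw [hu1]
      have h1 : 1 ≤ H ^ (2 * (D + 1) + 3) := Nat.one_le_pow _ _ hH1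
      have h2 : 1 ≤ 343 * 4 ^ (D + 1) := by
        have : 1 ≤ 4 ^ (D + 1) := Nat.one_le_pow _ _ (by norm_num)
        omega
      calc 1 ^ 2 = 1 * 1 := by norm_num
        _ ≤ _ := Nat.mul_le_mul h2 h1
    · obtain ⟨z, hz, hzK⟩ := rich_bisectorG Q H hH hbig
      obtain ⟨hz1, hz2, hz3⟩ := Finset.mem_offDiag.mp hz
      set L := bisectG Q z with hL
      have hLQ : ∀ a ∈ L, a ∈ Q := fun a ha => (Finset.mem_filter.mp ha).1
      set n := z.2 - z.1 with hn
      have hn0 : n ≠ 0 := sub_ne_zero.mpr (Ne.symm hz3)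
      have hnW : n ∈ W := hQ _ hz2 _ hz1
      have hdim : finrank ℝ (W ⊓ (ℝ ∙ n)ᗮ : Submodule ℝ E) ≤ D + 2 := by
        have := finrank_cut W hnW hn0
        omega
      have hpinL : ∀ a ∈ L, (pinSet L a).card ≤ H := by
        intro a ha
        refine le_trans (Finset.card_le_card ?_) (hH a (hLQ a ha))
        intro y hy
        obtain ⟨q, hq, rfl⟩ := Finset.mem_image.mp hy
        exact mem_pinSet (hLQ q hq)
      have hIH := ih (W ⊓ (ℝ ∙ n)ᗮ) hdim L
        (fun a ha b hb => mem_cut (hQ _ (hLQ a ha) _ (hLQ b hb)) (bisect_orth ha hb)) H hpinL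
      set k := L.card with hk
      have hHpos : 1 ≤ H := by
        have h1 := hH _ hz1
        have h2 : 0 < (pinSet Q z.1).card :=
          Finset.card_pos.mpr ⟨_, mem_pinSet (p := z.1) hz1⟩
        omega
      have hpw : H ^ 2 ≤ H ^ (2 * (D + 1) + 3) :=
        Nat.pow_le_pow_right hHpos (by omega)
      rcases Nat.eq_zero_or_pos k with hk0 | hkpos
      · rw [hk0] at hzK
        have h1 : u ≤ H := by simpa using hzK
        calc u ^ 2 ≤ H ^ 2 := Nat.pow_le_pow_left h1 2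
          _ ≤ H ^ (2 * (D + 1) + 3) := hpw
          _ ≤ 343 * 4 ^ (D + 1) * H ^ (2 * (D + 1) + 3) := by
              apply Nat.le_mul_of_pos_left
              positivity
      · have h1 : u ≤ H * (2 * k) := le_trans hzK (Nat.mul_le_mul_left _ (by omega))
        calc u ^ 2 ≤ (H * (2 * k)) ^ 2 := Nat.pow_le_pow_left h1 2
          _ = 4 * H ^ 2 * k ^ 2 := by ring
          _ ≤ 4 * H ^ 2 * (343 * 4 ^ D * H ^ (2 * D + 3)) := Nat.mul_le_mul_left _ hIH
          _ = _ := by ring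

end Vale.Agent.Lib.P054
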