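import Vale.Agent.Lib.P054.Tree

/-!
The weights of the low-crossing construction, with `δ m = 6 log m / m ^ (1 / D)`.
-/

open Finset

open scoped Classical

namespace Vale.Agent.Lib.P054

variable {α ι : Type*}

/-- The loss at size `j`. -/
noncomputable def lossD (D : ℕ) (j : ℕ) : ℝ := 6 * Real.log j / (j : ℝ) ^ ((D : ℝ)⁻¹)

theorem lossD_nonneg (D j : ℕ) : 0 ≤ lossD D j := by
  unfold lossD
  have h1 : 0 ≤ Real.log j := Real.log_natCast_nonneg j
  positivity

theorem pack_real (pos : ι → α → Prop) (L : Finset ι) (S0 S : Finset α) (hS : S ⊆ S0) (D : ℕ)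
    (hD : 1 ≤ D)
    (hVC : ∀ I : Finset ι, I ⊆ L → D < I.card → ¬ ∀ J : Finset ι, J ⊆ I →
      ∃ x ∈ S0, ∀ i ∈ I, (pos i x ↔ i ∈ J))
    (h2 : 2 ≤ S.card) (w : ι → ℝ) (hw : ∀ i ∈ L, 0 ≤ w i) :
    ∃ a ∈ S, ∃ b ∈ S, a ≠ b ∧
      ∑ i ∈ L.filter (fun i => sepP pos i a b), w i ≤ lossD D S.card * ∑ i ∈ L, w i := by
  set m := S.card with hm
  have hmR : (2 : ℝ) ≤ m := by exact_mod_cast h2
  have hmpos : (0 : ℝ) < m := by linarith
  set ρ := (m : ℝ) ^ ((D : ℝ)⁻¹) with hρ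
  have hρpos : 0 < ρ := Real.rpow_pos_of_pos hmpos _
  have hlog2 : Real.log 2 ≤ Real.log m := Real.log_le_log (by norm_num) hmR
  have hlog3 : (0.6931 : ℝ) < Real.log 2 := by
    have := Real.log_two_gt_d9
    linarith
  have hlogpos : 0 < Real.log m := by linarith
  by_cases hδ : 1 ≤ lossD D m
  · obtain ⟨a, ha, b, hb, hab⟩ := Finset.one_lt_card.mp (by omega : 1 < S.card)
    refine ⟨a, ha, b, hb, hab, ?_⟩
    have hW : 0 ≤ ∑ i ∈ L, w i := Finset.sum_nonneg hw
    calc _ ≤ ∑ i ∈ L, w i := Finset.sum_le_sum_of_subset_of_nonneg (Finset.filter_subset _ _)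
          (fun i hi _ => hw i hi)
      _ = 1 * ∑ i ∈ L, w i := by ring
      _ ≤ _ := mul_le_mul_of_nonneg_right hδ hW
  push Not at hδ
  have hδdef : lossD D m = 6 * Real.log m / ρ := rfl
  have hρbig : 6 * Real.log m < ρ := by
    rw [hδdef, div_lt_one hρpos] at hδ
    exact hδ
  have hρ4 : 4 ≤ ρ := by linarith
  set c := ⌈ρ⌉₊ with hc
  have hc1 : (c : ℝ) < ρ + 1 := Nat.ceil_lt_add_one hρpos.le
  have hc2 : ρ ≤ c := Nat.le_ceil ρ
  have hc3 : 2 ≤ c := by
    have : (2 : ℝ) ≤ c := by linarith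
    exact_mod_cast this
  set r := c - 2 with hr
  have hrR : (r : ℝ) = (c : ℝ) - 2 := by
    rw [hr, Nat.cast_sub hc3]
    norm_num
  have hr1 : (r : ℝ) + 1 < ρ := by linarith
  have hr2 : ρ / 2 ≤ r := by linarith
  apply packing pos L S0 S hS D r w hw (lossD D m) hδ.le hVC
  · have h3 : ((r : ℝ) + 1) ^ D < ρ ^ D :=
      pow_lt_pow_left₀ hr1 (by positivity) (by omega)
    have h4 : ρ ^ D = m := Real.rpow_inv_natCast_pow hmpos.le (by omega)
    rw [h4] at h3
    exact_mod_cast h3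
  · have hδ0 : 0 ≤ lossD D m := lossD_nonneg D m
    have h5 : (1 - lossD D m) ^ r ≤ Real.exp (-(lossD D m)) ^ r :=
      pow_le_pow_left₀ (by linarith) (Real.one_sub_le_exp_neg _) _
    rw [← Real.exp_nat_mul] at h5
    have h6 : lossD D m * (ρ / 2) = 3 * Real.log m := by
      rw [hδdef]
      field_simp
      ring
    have h7 : 3 * Real.log m ≤ lossD D m * r := by
      rw [← h6]
      exact mul_le_mul_of_nonneg_left hr2 hδ0
    have h8 : Real.exp ((r : ℝ) * -(lossD D m)) ≤ Real.exp (-(3 * Real.log m)) := by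
      apply Real.exp_le_exp.mpr
      linarith
    have h9 : Real.exp (3 * Real.log m) = (m : ℝ) ^ 3 := by
      rw [show 3 * Real.log m = Real.log m + Real.log m + Real.log m by ring, Real.exp_add,
        Real.exp_add, Real.exp_log hmpos]
      ring
    have h10 : Real.exp (-(3 * Real.log m)) = 1 / (m : ℝ) ^ 3 := by
      rw [Real.exp_neg, h9, one_div]
    calc (m : ℝ) ^ 2 * (1 - lossD D m) ^ r
        ≤ (m : ℝ) ^ 2 * (1 / (m : ℝ) ^ 3) := by
          apply mul_le_mul_of_nonneg_left _ (by positivity)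
          rw [← h10]
          exact le_trans h5 h8
      _ = 1 / (m : ℝ) := by
          field_simp
      _ < 1 := by
          rw [div_lt_one hmpos]
          linarith

/-- Summing negative powers. -/
theorem sum_rpow_le (θ : ℝ) (h0 : 0 ≤ θ) (h1 : θ ≤ 1 / 2) (n : ℕ) :
    ∑ j ∈ Finset.Icc 1 n, (j : ℝ) ^ (-θ) ≤ 2 * (n : ℝ) ^ (1 - θ) := by
  induction n with
  | zero =>
    simp only [Finset.Icc_eq_empty_of_lt (by norm_num : 0 < 1), Finset.sum_empty]
    positivity
  | succ n ih =>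
    rw [Finset.sum_Icc_succ_top (by omega)]
    set N : ℝ := ((n + 1 : ℕ) : ℝ) with hN
    have hNpos : 0 < N := by
      rw [hN]
      positivity
    have hNeq : N = (n : ℝ) + 1 := by
      rw [hN]
      push_cast
      ring
    set p := 1 - θ with hp
    have hp1 : 0 ≤ p := by linarith
    have hp2 : p ≤ 1 := by linarith
    have hs : -1 ≤ -(1 / N) := by
      have : 1 / N ≤ 1 := by
        rw [div_le_one hNpos, hNeq]
        have : (0 : ℝ) ≤ n := Nat.cast_nonneg n
        linarith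
      linarith
    have hb := rpow_one_add_le_one_add_mul_self hs hp1 hp2
    have e1 : 1 + -(1 / N) = (n : ℝ) / N := by
      field_simp
      rw [hNeq]
      ring
    rw [e1, Real.div_rpow (Nat.cast_nonneg n) hNpos.le] at hb
    have hNp : 0 < N ^ p := Real.rpow_pos_of_pos hNpos _
    have e2 : N ^ (-θ) = N ^ p / N := by
      have : -θ = p - 1 := by
        rw [hp]
        ring
      rw [this, Real.rpow_sub_one hNpos.ne']
    have h3 : (n : ℝ) ^ p ≤ N ^ p - p * N ^ (-θ) := by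
      have h4 := mul_le_mul_of_nonneg_right hb hNp.le
      rw [div_mul_cancel₀ _ hNp.ne'] at h4
      calc (n : ℝ) ^ p ≤ _ := h4
        _ = N ^ p - p * (N ^ p / N) := by
            field_simp
            ring
        _ = _ := by rw [e2]
    have h5 : 0 ≤ N ^ (-θ) := (Real.rpow_pos_of_pos hNpos _).le
    have h6 : N ^ (-θ) ≤ 2 * p * N ^ (-θ) := by
      have : 1 ≤ 2 * p := by
        rw [hp]
        linarith
      nlinarith
    nlinarith

theorem sum_lossD_le (D : ℕ) (hD : 2 ≤ D) (k : ℕ) :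
    ∑ j ∈ Finset.Icc 2 k, lossD D j ≤
      12 * Real.log k * (k : ℝ) ^ (1 - (D : ℝ)⁻¹) := by
  set θ := (D : ℝ)⁻¹ with hθ
  have hD2 : (2 : ℝ) ≤ D := by exact_mod_cast hD
  have hθ0 : 0 ≤ θ := by positivity
  have hθ1 : θ ≤ 1 / 2 := by
    rw [hθ, inv_eq_one_div]
    exact one_div_le_one_div_of_le (by norm_num) hD2
  have hlogk : 0 ≤ Real.log k := Real.log_natCast_nonneg k
  have h1 : ∀ j ∈ Finset.Icc 2 k, lossD D j ≤ 6 * Real.log k * (j : ℝ) ^ (-θ) := by
    intro j hj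
    obtain ⟨hj1, hj2⟩ := Finset.mem_Icc.mp hj
    have hjpos : (0 : ℝ) < j := by
      have : 0 < j := by omega
      exact_mod_cast this
    unfold lossD
    rw [Real.rpow_neg hjpos.le, div_eq_mul_inv]
    have h2 : Real.log j ≤ Real.log k :=
      Real.log_le_log hjpos (by exact_mod_cast hj2)
    have h3 : 0 ≤ ((j : ℝ) ^ θ)⁻¹ := by positivity
    apply mul_le_mul_of_nonneg_right _ h3
    linarith
  calc ∑ j ∈ Finset.Icc 2 k, lossD D j ≤ ∑ j ∈ Finset.Icc 2 k, 6 * Real.log k * (j : ℝ) ^ (-θ) :=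
        Finset.sum_le_sum h1
    _ = 6 * Real.log k * ∑ j ∈ Finset.Icc 2 k, (j : ℝ) ^ (-θ) := by rw [Finset.mul_sum]
    _ ≤ 6 * Real.log k * ∑ j ∈ Finset.Icc 1 k, (j : ℝ) ^ (-θ) := by
        apply mul_le_mul_of_nonneg_left _ (by positivity)
        apply Finset.sum_le_sum_of_subset_of_nonneg
        · intro j hj
          obtain ⟨hj1, hj2⟩ := Finset.mem_Icc.mp hj
          exact Finset.mem_Icc.mpr ⟨by omega, hj2⟩
        · intro j _ _
          positivity
    _ ≤ 6 * Real.log k * (2 * (k : ℝ) ^ (1 - θ)) :=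
        mul_le_mul_of_nonneg_left (sum_rpow_le θ hθ0 hθ1 k) (by positivity)
    _ = _ := by ring

/-- **Low-crossing edges.** -/
theorem tree_main (pos : ι → α → Prop) (L : Finset ι) (hL : L.Nonempty) (S0 : Finset α) (D : ℕ)
    (hD : 2 ≤ D)
    (hVC : ∀ I : Finset ι, I ⊆ L → D < I.card → ¬ ∀ J : Finset ι, J ⊆ I →
      ∃ x ∈ S0, ∀ i ∈ I, (pos i x ↔ i ∈ J))
    (hS0 : 2 ≤ S0.card) (n : ℕ) (hn : S0.card ≤ n) (hLn : L.card ≤ n ^ 2) :
    ∃ E : List (α × α), E.length = S0.card - 1 ∧ (∀ e ∈ E, e.1 ∈ S0 ∧ e.2 ∈ S0 ∧ e.1 ≠ e.2) ∧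
      ∀ i ∈ L, (cntP pos i E : ℝ) ≤ 21 * Real.log n * (S0.card : ℝ) ^ (1 - (D : ℝ)⁻¹) := by
  set k := S0.card with hk
  obtain ⟨m, hm⟩ : ∃ m, k = m + 1 := ⟨k - 1, by omega⟩
  obtain ⟨E, hEl, hEm, hEs⟩ := tree_count pos L hL S0 (lossD D) (lossD_nonneg D)
    (fun S hS hS2 w hw => pack_real pos L S0 S hS D (by omega) hVC hS2 w hw) m hm
  refine ⟨E, by omega, hEm, fun i hi => ?_⟩
  have hi' := hEs i hi
  rw [← hm] at hi'
  have hsum := sum_lossD_le D hD k
  have hlog3 : (0.6931 : ℝ) < Real.log 2 := by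
    have := Real.log_two_gt_d9
    linarith
  have hnR : (k : ℝ) ≤ n := by exact_mod_cast hn
  have hkR : (2 : ℝ) ≤ k := by exact_mod_cast hS0
  have hnR2 : (2 : ℝ) ≤ n := by linarith
  have hlogk : Real.log k ≤ Real.log n := Real.log_le_log (by linarith) hnR
  have hlogn : 0 < Real.log n := by
    have := Real.log_le_log (by norm_num : (0 : ℝ) < 2) hnR2
    linarith
  have hlogk0 : 0 ≤ Real.log k := Real.log_natCast_nonneg k
  have hLlog : Real.log L.card ≤ 2 * Real.log n := by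
    have hLpos : (0 : ℝ) < L.card := by exact_mod_cast Finset.card_pos.mpr hL
    have h1 : (L.card : ℝ) ≤ (n : ℝ) ^ 2 := by exact_mod_cast hLn
    have h2 := Real.log_le_log hLpos h1
    rwa [Real.log_pow, Nat.cast_ofNat] at h2
  have hθ : 0 ≤ 1 - (D : ℝ)⁻¹ := by
    have hD2 : (2 : ℝ) ≤ D := by exact_mod_cast hD
    have : (D : ℝ)⁻¹ ≤ 1 := by
      rw [inv_eq_one_div, div_le_one (by linarith)]
      linarith
    linarith
  set X := (k : ℝ) ^ (1 - (D : ℝ)⁻¹) with hX
  have hX1 : 1 ≤ X := Real.one_le_rpow (by linarith) hθ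
  have h5 : (cntP pos i E : ℝ) * Real.log 2 ≤ 14 * Real.log n * X := by
    have h6 : 12 * Real.log k * X ≤ 12 * Real.log n * X := by
      apply mul_le_mul_of_nonneg_right _ (by linarith)
      linarith
    have h7 : 2 * Real.log n ≤ 2 * Real.log n * X := by
      nlinarith
    calc _ ≤ _ := hi'
      _ ≤ 2 * Real.log n + 12 * Real.log k * X := by linarith
      _ ≤ 14 * Real.log n * X := by linarith
  have h8 : 0 ≤ Real.log n * X := by positivity
  have hlog2pos : 0 < Real.log 2 := by linarith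
  have h9 : 14 * Real.log n * X ≤ (21 * Real.log n * X) * Real.log 2 := by
    nlinarith
  exact le_of_mul_le_mul_right (le_trans h5 h9) hlog2pos

end Vale.Agent.Lib.P054
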