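import Vale.Agent.Lib.P054.Layer2
import Vale.Agent.Lib.P054.TreeReal
import Vale.Agent.Lib.P054.GenLines

/-!
Pinned distances from low-crossing edges: if two spheres centred at points of `A ⊆ P` never share
more than `s` points of `P`, with `A` in a `D`-flat, and every point of `A` sees at most `h` squared
distances, then `8 s h > |P|` or `|A| ^ (1 / D) |P| ≤ 10752 s h ^ 2 log |P|`.
-/

open Finset

open scoped Classical

namespace Vale.Agent.Lib.P054

variable {E : Type*} [NormedAddCommGroup E] [InnerProductSpace ℝ E]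

/-- The side of the bisector of `i.1, i.2` nearer to `i.2`. -/
def bisPos (i : E × E) (x : E) : Prop := ‖x - i.2‖ ^ 2 < ‖x - i.1‖ ^ 2

theorem exists_dep_functional (W : Submodule ℝ E) [FiniteDimensional ℝ W] (I : Finset (E × E))
    (u : E × E → E) (h : Module.finrank ℝ W < I.card) :
    ∃ g : E × E → ℝ, (∀ x ∈ W, ∑ i ∈ I, g i * inner ℝ (u i) x = 0) ∧ ∃ i ∈ I, g i ≠ 0 := by
  by_contra hcon
  push Not at hcon
  let φ : {i // i ∈ I} → Module.Dual ℝ W := fun i => (innerₛₗ ℝ (u i)).comp W.subtype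
  have hli : LinearIndependent ℝ φ := by
    rw [Fintype.linearIndependent_iff]
    intro g hg i
    let g' : E × E → ℝ := fun j => if hj : j ∈ I then g ⟨j, hj⟩ else 0
    have hg' : ∀ j : {i // i ∈ I}, g' j.1 = g j := by
      intro j
      simp only [g', j.2, dif_pos]
    have h2 := hcon g' (by
      intro x hx
      have h1 := LinearMap.congr_fun hg ⟨x, hx⟩
      rw [LinearMap.sum_apply, LinearMap.zero_apply] at h1
      rw [← Finset.sum_coe_sort I (fun j => g' j * inner ℝ (u j) x)]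
      rw [← h1]
      apply Finset.sum_congr rfl
      intro j _
      rw [hg']
      rfl) i.1 i.2
    rw [hg'] at h2
    exact h2
  have h3 := hli.fintype_card_le_finrank
  rw [Fintype.card_coe, Subspace.dual_finrank_eq] at h3
  omega

/-- The bisector sides restricted to a flat have bounded shatter dimension. -/
theorem bis_VC (W : Submodule ℝ E) [FiniteDimensional ℝ W] (a0 : E) (S0 : Finset E)
    (hS0 : ∀ x ∈ S0, x - a0 ∈ W) (I : Finset (E × E)) (hI : Module.finrank ℝ W < I.card) :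
    ¬ ∀ J : Finset (E × E), J ⊆ I → ∃ x ∈ S0, ∀ i ∈ I, (bisPos i x ↔ i ∈ J) := by
  intro hsh
  obtain ⟨g, hg, i0, hi0, hne⟩ := exists_dep_functional W I (fun i => i.2 - i.1) hI
  let ell : E × E → E → ℝ := fun i x => ‖x - i.1‖ ^ 2 - ‖x - i.2‖ ^ 2
  let c : E × E → ℝ := fun i => ‖a0 - i.1‖ ^ 2 - ‖a0 - i.2‖ ^ 2
  have hell : ∀ i x, ell i x = 2 * inner ℝ (i.2 - i.1) (x - a0) + c i := by
    intro i x
    have e1 : x - i.1 = (x - a0) + (a0 - i.1) := by abel
    have e2 : x - i.2 = (x - a0) + (a0 - i.2) := by abel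
    have e3 : i.2 - i.1 = (a0 - i.1) - (a0 - i.2) := by abel
    have key : ∀ p q1 q2 : E, ‖p + q1‖ ^ 2 - ‖p + q2‖ ^ 2 =
        2 * inner ℝ (q1 - q2) p + (‖q1‖ ^ 2 - ‖q2‖ ^ 2) := by
      intro p q1 q2
      rw [@norm_add_sq_real, @norm_add_sq_real, inner_sub_left, real_inner_comm q1 p,
        real_inner_comm q2 p]
      ring
    simp only [ell, c]
    rw [e1, e2, e3, key]
  have hsum : ∀ x ∈ S0, ∑ i ∈ I, g i * ell i x = ∑ i ∈ I, g i * c i := by
    intro x hx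
    have h1 := hg (x - a0) (hS0 x hx)
    have h2 : ∀ i ∈ I, g i * ell i x = 2 * (g i * inner ℝ (i.2 - i.1) (x - a0)) + g i * c i := by
      intro i _
      rw [hell]
      ring
    rw [Finset.sum_congr rfl h2, Finset.sum_add_distrib, ← Finset.mul_sum, h1]
    ring
  have hpos : ∀ i x, bisPos i x ↔ 0 < ell i x := by
    intro i x
    simp only [bisPos, ell]
    rw [sub_pos]
  obtain ⟨xp, hxp, hp⟩ := hsh (I.filter (fun i => 0 < g i)) (Finset.filter_subset _ _)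
  obtain ⟨xn, hxn, hn⟩ := hsh (I.filter (fun i => g i < 0)) (Finset.filter_subset _ _)
  have hp1 : ∀ i ∈ I, 0 < g i → 0 < ell i xp := by
    intro i hi h
    exact (hpos i xp).mp ((hp i hi).mpr (Finset.mem_filter.mpr ⟨hi, h⟩))
  have hp2 : ∀ i ∈ I, ¬ 0 < g i → ell i xp ≤ 0 := by
    intro i hi h
    by_contra h2
    push Not at h2
    exact h (Finset.mem_filter.mp ((hp i hi).mp ((hpos i xp).mpr h2))).2
  have hn1 : ∀ i ∈ I, g i < 0 → 0 < ell i xn := by
    intro i hi h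
    exact (hpos i xn).mp ((hn i hi).mpr (Finset.mem_filter.mpr ⟨hi, h⟩))
  have hn2 : ∀ i ∈ I, ¬ g i < 0 → ell i xn ≤ 0 := by
    intro i hi h
    by_contra h2
    push Not at h2
    exact h (Finset.mem_filter.mp ((hn i hi).mp ((hpos i xn).mpr h2))).2
  have hTp : ∀ i ∈ I, 0 ≤ g i * ell i xp := by
    intro i hi
    by_cases h : 0 < g i
    · exact (mul_pos h (hp1 i hi h)).le
    · exact mul_nonneg_of_nonpos_of_nonpos (not_lt.mp h) (hp2 i hi h)
  have hTn : ∀ i ∈ I, g i * ell i xn ≤ 0 := by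
    intro i hi
    by_cases h : g i < 0
    · exact (mul_neg_of_neg_of_pos h (hn1 i hi h)).le
    · exact mul_nonpos_of_nonneg_of_nonpos (not_lt.mp h) (hn2 i hi h)
  have hSp := hsum xp hxp
  have hSn := hsum xn hxn
  rcases lt_or_gt_of_ne hne with h0 | h0
  · -- `g i0 < 0`
    have h1 : ∑ i ∈ I, g i * ell i xn < 0 :=
      Finset.sum_neg' hTn ⟨i0, hi0, mul_neg_of_neg_of_pos h0 (hn1 i0 hi0 h0)⟩
    have h2 : 0 ≤ ∑ i ∈ I, g i * ell i xp := Finset.sum_nonneg hTp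
    linarith
  · -- `0 < g i0`
    have h1 : 0 < ∑ i ∈ I, g i * ell i xp :=
      Finset.sum_pos' hTp ⟨i0, hi0, mul_pos h0 (hp1 i0 hi0 h0)⟩
    have h2 : ∑ i ∈ I, g i * ell i xn ≤ 0 := Finset.sum_nonpos hTn
    linarith

theorem list_sum_cnt {α ι : Type*} (pos : ι → α → Prop) (L : Finset ι) (E' : List (α × α)) :
    (E'.map (fun e => (L.filter (fun i => sepP pos i e.1 e.2)).card)).sum =
      ∑ i ∈ L, cntP pos i E' := by
  induction E' with
  | nil => simp [cntP]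
  | cons e E' ih =>
    rw [List.map_cons, List.sum_cons, ih]
    simp only [cntP_cons]
    rw [Finset.sum_add_distrib, Finset.card_filter, add_comm]

theorem list_bound {β : Type*} (E' : List β) (F : β → ℕ) (A K : ℕ) (h : ∀ e ∈ E', A ≤ K * F e) :
    E'.length * A ≤ K * (E'.map F).sum := by
  induction E' with
  | nil => simp
  | cons e E' ih =>
    rw [List.map_cons, List.sum_cons, List.length_cons, mul_add, add_mul, one_mul]
    have h1 := h e List.mem_cons_self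
    have h2 := ih (fun e' he' => h e' (List.mem_cons_of_mem _ he'))
    omega

/-- The crossing bound for one edge. -/
theorem edge_bound (P : Finset E) (a b : E) (ha : a ∈ P) (s h : ℕ) (hs : 1 ≤ s)
    (hcell : ∀ r r' : ℝ, (P.filter (fun q => ‖a - q‖ ^ 2 = r ∧ ‖b - q‖ ^ 2 = r')).card ≤ s)
    (hpa : (pinSet P a).card ≤ h) (hpb : (pinSet P b).card ≤ h) (hbig : 8 * s * h ≤ P.card) :
    P.card ^ 3 ≤ 256 * s * h ^ 2 *
      ((P ×ˢ P).filter (fun i => sepP bisPos i a b)).card := by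
  set f : E → ℝ := fun q => ‖a - q‖ ^ 2 with hf
  set g : E → ℝ := fun q => ‖b - q‖ ^ 2 with hg
  have hR : ∀ c ∈ P, f c ∈ pinSet P a := fun c hc => mem_pinSet hc
  have hS : ∀ c ∈ P, g c ∈ pinSet P b := fun c hc => mem_pinSet hc
  have hc : ∀ p : ℝ × ℝ, (P.filter (fun y => (f y, g y) = p)).card ≤ s := by
    intro p
    refine le_trans (Finset.card_le_card ?_) (hcell p.1 p.2)
    intro q hq
    obtain ⟨h1, h2⟩ := Finset.mem_filter.mp hq
    refine Finset.mem_filter.mpr ⟨h1, ?_⟩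
    rw [← h2]
    exact ⟨rfl, rfl⟩
  have hRpos : 0 < (pinSet P a).card :=
    Finset.card_pos.mpr ⟨_, mem_pinSet ha⟩
  have hv : 0 < (pinSet P a).card + (pinSet P b).card := by omega
  have hvh : (pinSet P a).card + (pinSet P b).card ≤ 2 * h := by omega
  have hbig' : 4 * (s * ((pinSet P a).card + (pinSet P b).card)) ≤ P.card := by
    calc 4 * (s * ((pinSet P a).card + (pinSet P b).card)) ≤ 4 * (s * (2 * h)) :=
          Nat.mul_le_mul_left _ (Nat.mul_le_mul_left _ hvh)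
      _ = 8 * s * h := by ring
      _ ≤ _ := hbig
  have hmain := crossing_lower_mult f g P (pinSet P a) (pinSet P b) s hs hR hS hc hv hbig'
  have hcr : (crossPairs f g P).card ≤ ((P ×ˢ P).filter (fun i => sepP bisPos i a b)).card := by
    apply Finset.card_le_card
    intro z hz
    obtain ⟨hz1, hz2, hz3⟩ := Finset.mem_filter.mp hz
    refine Finset.mem_filter.mpr ⟨hz1, ?_⟩
    intro hiff
    have h1 : ‖b - z.2‖ ^ 2 < ‖b - z.1‖ ^ 2 := hz3
    have h2 : ‖a - z.1‖ ^ 2 < ‖a - z.2‖ ^ 2 := hz2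
    have h3 := hiff.mpr h1
    have h4 : ‖a - z.2‖ ^ 2 < ‖a - z.1‖ ^ 2 := h3
    linarith
  calc P.card ^ 3 ≤ _ := hmain
    _ ≤ 64 * s * (2 * h) ^ 2 * ((P ×ˢ P).filter (fun i => sepP bisPos i a b)).card :=
        Nat.mul_le_mul (Nat.mul_le_mul_left _ (Nat.pow_le_pow_left hvh 2)) hcr
    _ = _ := by ring

/-- **Main theorem**, real form. -/
theorem flat_main (W : Submodule ℝ E) [FiniteDimensional ℝ W] (D : ℕ) (hD : 2 ≤ D)
    (hW : Module.finrank ℝ W ≤ D) (a0 : E) (A P : Finset E) (hAP : A ⊆ P)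
    (hAW : ∀ a ∈ A, a - a0 ∈ W) (hm : 2 ≤ A.card) (s h : ℕ) (hs : 1 ≤ s)
    (hcell : ∀ a ∈ A, ∀ b ∈ A, a ≠ b → ∀ r r' : ℝ,
      (P.filter (fun q => ‖a - q‖ ^ 2 = r ∧ ‖b - q‖ ^ 2 = r')).card ≤ s)
    (hpin : ∀ a ∈ A, (pinSet P a).card ≤ h) (hbig : 8 * s * h ≤ P.card) :
    (A.card : ℝ) ^ ((D : ℝ)⁻¹) * P.card ≤ 10752 * s * h ^ 2 * Real.log P.card := by
  set n := P.card with hn
  set m := A.card with hm'
  have hmn : m ≤ n := Finset.card_le_card hAP
  have hn2 : 2 ≤ n := by omega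
  have hPne : P.Nonempty := Finset.card_pos.mp (by omega)
  have hL : (P ×ˢ P).Nonempty := hPne.product hPne
  have hLn : (P ×ˢ P).card ≤ n ^ 2 := by
    rw [Finset.card_product, sq]
  obtain ⟨E', hEl, hEm, hEs⟩ := tree_main bisPos (P ×ˢ P) hL A D hD
    (fun I _ hI => bis_VC W a0 A hAW I (lt_of_le_of_lt hW hI)) hm n hmn hLn
  have hedge : ∀ e ∈ E', n ^ 3 ≤ (256 * s * h ^ 2) *
      ((P ×ˢ P).filter (fun i => sepP bisPos i e.1 e.2)).card := by
    intro e he
    obtain ⟨h1, h2, h3⟩ := hEm e he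
    exact edge_bound P e.1 e.2 (hAP h1) s h hs (hcell e.1 h1 e.2 h2 h3) (hpin _ h1) (hpin _ h2) hbig
  have hlist := list_bound E' _ (n ^ 3) (256 * s * h ^ 2) hedge
  rw [list_sum_cnt, hEl] at hlist
  -- pass to reals
  set X := (m : ℝ) ^ (1 - (D : ℝ)⁻¹) with hX
  set κ := 21 * Real.log n * X with hκ
  have hmR : (2 : ℝ) ≤ m := by exact_mod_cast hm
  have hnR : (2 : ℝ) ≤ n := by exact_mod_cast hn2
  have hlogn : 0 < Real.log n := Real.log_pos (by linarith)
  have hXpos : 0 < X := Real.rpow_pos_of_pos (by linarith) _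
  have hsumR : ((∑ i ∈ P ×ˢ P, cntP bisPos i E' : ℕ) : ℝ) ≤ (n : ℝ) ^ 2 * κ := by
    push_cast
    calc ∑ i ∈ P ×ˢ P, (cntP bisPos i E' : ℝ) ≤ ∑ _i ∈ P ×ˢ P, κ := Finset.sum_le_sum hEs
      _ = ((P ×ˢ P).card : ℝ) * κ := by rw [Finset.sum_const, nsmul_eq_mul]
      _ ≤ (n : ℝ) ^ 2 * κ := by
          apply mul_le_mul_of_nonneg_right _ (by positivity)
          exact_mod_cast hLn
  have hm1 : ((m - 1 : ℕ) : ℝ) = (m : ℝ) - 1 := by
    rw [Nat.cast_sub (by omega)]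
    norm_num
  have hlistR : ((m : ℝ) - 1) * (n : ℝ) ^ 3 ≤ (256 * s * h ^ 2) * ((n : ℝ) ^ 2 * κ) := by
    have h1 : (((m - 1) * n ^ 3 : ℕ) : ℝ) ≤
        ((256 * s * h ^ 2 * ∑ i ∈ P ×ˢ P, cntP bisPos i E' : ℕ) : ℝ) := by
      exact_mod_cast hlist
    rw [Nat.cast_mul, hm1, Nat.cast_mul, Nat.cast_pow] at h1
    refine le_trans h1 ?_
    have h2 : (0 : ℝ) ≤ ((256 * s * h ^ 2 : ℕ) : ℝ) := Nat.cast_nonneg _
    calc _ ≤ ((256 * s * h ^ 2 : ℕ) : ℝ) * ((n : ℝ) ^ 2 * κ) :=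
          mul_le_mul_of_nonneg_left hsumR h2
      _ = _ := by push_cast; ring
  have hnpos : (0 : ℝ) < n := by linarith
  have hn2pos : (0 : ℝ) < (n : ℝ) ^ 2 := by positivity
  have h3 : ((m : ℝ) - 1) * n ≤ (256 * s * h ^ 2) * κ := by
    have : (n : ℝ) ^ 2 * (((m : ℝ) - 1) * n) ≤ (n : ℝ) ^ 2 * ((256 * s * h ^ 2) * κ) := by
      calc _ = ((m : ℝ) - 1) * (n : ℝ) ^ 3 := by ring
        _ ≤ _ := hlistR
        _ = _ := by ring
    exact le_of_mul_le_mul_left this hn2pos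
  have h4 : (m : ℝ) * n ≤ 2 * ((m : ℝ) - 1) * n := by
    apply mul_le_mul_of_nonneg_right _ hnpos.le
    linarith
  have hsplit : (m : ℝ) = (m : ℝ) ^ ((D : ℝ)⁻¹) * X := by
    rw [hX, ← Real.rpow_add (by linarith)]
    simp
  set Y := (m : ℝ) ^ ((D : ℝ)⁻¹) with hY
  have h5 : X * (Y * n) ≤ X * (10752 * s * h ^ 2 * Real.log n) := by
    calc X * (Y * n) = (Y * X) * n := by ring
      _ = (m : ℝ) * n := by rw [← hsplit]
      _ ≤ 2 * ((m : ℝ) - 1) * n := h4
      _ = 2 * (((m : ℝ) - 1) * n) := by ring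
      _ ≤ 2 * ((256 * s * h ^ 2) * κ) := by linarith
      _ = _ := by
          rw [hκ]
          ring
  exact le_of_mul_le_mul_left h5 hXpos

end Vale.Agent.Lib.P054
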