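import Vale.Agent.Lib.P054.Haussler2
import Vale.Agent.Lib.P054.TreeReal

/-!
Low-crossing edges without logarithm: Haussler's packing lemma in the greedy construction, and the
total number of crossings in place of the largest one.
-/

open Finset

open scoped Classical

namespace Vale.Agent.Lib.P054

attribute [-instance] Sigma.instDecidableEqSigma instDecidableEqSigma

variable {α ι : Type*}

/-- The pattern of a point on the weighted ground set. -/
noncomputable def patS (pos : ι → α → Prop) (L : Finset ι) (w : ι → ℕ) (x : α) :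
    Finset (Σ _ : ι, ℕ) :=
  (L.sigma (fun i => Finset.range (w i))).filter (fun z => pos z.1 x)

theorem sep_card (pos : ι → α → Prop) (L : Finset ι) (w : ι → ℕ) (a b : α) :
    (patS pos L w b \ patS pos L w a).card + (patS pos L w a \ patS pos L w b).card =
      ∑ i ∈ L.filter (fun i => sepP pos i a b), w i := by
  have e : (L.filter (fun i => sepP pos i a b)).sigma (fun i => Finset.range (w i)) =
      (patS pos L w b \ patS pos L w a) ∪ (patS pos L w a \ patS pos L w b) := by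
    ext ⟨i, k⟩
    simp only [patS, Finset.mem_sigma, Finset.mem_filter, Finset.mem_union, Finset.mem_sdiff,
      Finset.mem_range]
    simp only [sepP]
    tauto
  have hd : Disjoint (patS pos L w b \ patS pos L w a) (patS pos L w a \ patS pos L w b) := by
    rw [Finset.disjoint_left]
    intro z h1 h2
    exact (Finset.mem_sdiff.mp h1).2 (Finset.mem_sdiff.mp h2).1
  rw [← Finset.card_union_of_disjoint hd, ← e, Finset.card_sigma]
  simp only [Finset.card_range]

theorem pat_shatter (pos : ι → α → Prop) (L : Finset ι) (w : ι → ℕ) (S0 S : Finset α)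
    (hS : S ⊆ S0) (D : ℕ)
    (hVC : ∀ I : Finset ι, I ⊆ L → D < I.card → ¬ ∀ J : Finset ι, J ⊆ I →
      ∃ x ∈ S0, ∀ i ∈ I, (pos i x ↔ i ∈ J)) (I : Finset (Σ _ : ι, ℕ))
    (h : (S.image (patS pos L w)).Shatters I) : I.card ≤ D := by
  by_contra hcon
  push Not at hcon
  obtain ⟨t0, ht0, hI0⟩ := h.exists_superset
  obtain ⟨x0, _, rfl⟩ := Finset.mem_image.mp ht0
  have hIX : ∀ z ∈ I, z ∈ L.sigma (fun i => Finset.range (w i)) := fun z hz =>
    (Finset.mem_filter.mp (hI0 hz)).1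
  have hinj : Set.InjOn (fun z : Σ _ : ι, ℕ => z.1) (I : Set (Σ _ : ι, ℕ)) := by
    intro z hz z' hz' hzz
    by_contra hne
    have hz1 : z ∈ I := Finset.mem_coe.mp hz
    have hz1' : z' ∈ I := Finset.mem_coe.mp hz'
    obtain ⟨u, hu, hIu⟩ := h (Finset.singleton_subset_iff.mpr hz1)
    obtain ⟨x, _, rfl⟩ := Finset.mem_image.mp hu
    have h1 : z ∈ I ∩ patS pos L w x := by
      rw [hIu]
      exact Finset.mem_singleton_self _
    have h2 : pos z.1 x := (Finset.mem_filter.mp (Finset.mem_inter.mp h1).2).2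
    have h3 : pos z'.1 x := by
      have h4 : z.1 = z'.1 := hzz
      rw [← h4]
      exact h2
    have h5 : z' ∈ I ∩ patS pos L w x :=
      Finset.mem_inter.mpr ⟨hz1', Finset.mem_filter.mpr ⟨hIX z' hz1', h3⟩⟩
    rw [hIu] at h5
    exact hne (Finset.mem_singleton.mp h5).symm
  have hcard : (I.image (fun z : Σ _ : ι, ℕ => z.1)).card = I.card :=
    Finset.card_image_of_injOn hinj
  refine hVC (I.image (fun z : Σ _ : ι, ℕ => z.1)) ?_ (by omega) ?_
  · intro i hi
    obtain ⟨z, hz, rfl⟩ := Finset.mem_image.mp hi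
    exact (Finset.mem_sigma.mp (hIX z hz)).1
  · intro J _
    obtain ⟨u, hu, hIu⟩ := h (Finset.filter_subset (fun z : Σ _ : ι, ℕ => z.1 ∈ J) I)
    obtain ⟨x, hx, rfl⟩ := Finset.mem_image.mp hu
    refine ⟨x, hS hx, fun i hi => ?_⟩
    obtain ⟨z, hz, rfl⟩ := Finset.mem_image.mp hi
    have h1 : z ∈ I ∩ patS pos L w x ↔ z ∈ I.filter (fun z : Σ _ : ι, ℕ => z.1 ∈ J) := by
      rw [hIu]
    simp only [Finset.mem_inter, Finset.mem_filter, patS] at h1
    constructor
    · intro hp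
      exact (h1.mp ⟨hz, hIX z hz, hp⟩).2
    · intro hp
      exact (h1.mpr ⟨hz, hp⟩).2.2

/-- The loss at size `j`, now without logarithm. -/
noncomputable def lossE (D : ℕ) (j : ℕ) : ℝ := 12 * D / (j : ℝ) ^ ((D : ℝ)⁻¹)

theorem lossE_nonneg (D j : ℕ) : 0 ≤ lossE D j := by
  unfold lossE
  positivity

/-- The packing step for integer weights. -/
theorem pack_nat (pos : ι → α → Prop) (L : Finset ι) (S0 S : Finset α) (hS : S ⊆ S0) (D : ℕ)
    (hD : 2 ≤ D)
    (hVC : ∀ I : Finset ι, I ⊆ L → D < I.card → ¬ ∀ J : Finset ι, J ⊆ I →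
      ∃ x ∈ S0, ∀ i ∈ I, (pos i x ↔ i ∈ J))
    (h2 : 2 ≤ S.card) (w : ι → ℕ) :
    ∃ a ∈ S, ∃ b ∈ S, a ≠ b ∧
      ((∑ i ∈ L.filter (fun i => sepP pos i a b), w i : ℕ) : ℝ) ≤
        lossE D S.card * ((∑ i ∈ L, w i : ℕ) : ℝ) := by
  set m := S.card with hm
  set N := ∑ i ∈ L, w i with hN
  have hmR : (2 : ℝ) ≤ m := by exact_mod_cast h2
  have hmpos : (0 : ℝ) < m := by linarith
  set ρ := (m : ℝ) ^ ((D : ℝ)⁻¹) with hρ
  have hρpos : 0 < ρ := Real.rpow_pos_of_pos hmpos _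
  have hDR : (2 : ℝ) ≤ D := by exact_mod_cast hD
  have hle : ∀ a b : α, ∑ i ∈ L.filter (fun i => sepP pos i a b), w i ≤ N := by
    intro a b
    exact Finset.sum_le_sum_of_subset (Finset.filter_subset _ _)
  have hNR : (0 : ℝ) ≤ N := Nat.cast_nonneg N
  by_cases hδ : 1 ≤ lossE D m
  · obtain ⟨a, ha, b, hb, hab⟩ := Finset.one_lt_card.mp (by omega : 1 < S.card)
    refine ⟨a, ha, b, hb, hab, ?_⟩
    have h1 : ((∑ i ∈ L.filter (fun i => sepP pos i a b), w i : ℕ) : ℝ) ≤ (N : ℝ) := by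
      exact_mod_cast hle a b
    calc _ ≤ (N : ℝ) := h1
      _ = 1 * (N : ℝ) := by ring
      _ ≤ _ := mul_le_mul_of_nonneg_right hδ hNR
  push Not at hδ
  have hδdef : lossE D m = 12 * D / ρ := rfl
  have hρbig : 12 * (D : ℝ) < ρ := by
    rw [hδdef, div_lt_one hρpos] at hδ
    exact hδ
  have hρ24 : 24 ≤ ρ := by linarith
  by_contra hcon
  push Not at hcon
  set η := lossE D m with hη
  have hηpos : 0 ≤ η := lossE_nonneg D m
  -- separated family
  set X₀ := L.sigma (fun i => Finset.range (w i)) with hX₀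
  have hX₀card : X₀.card = N := by
    rw [hX₀, Finset.card_sigma]
    simp only [Finset.card_range]
    rfl
  have hpair : ∀ a ∈ S, ∀ b ∈ S, a ≠ b →
      η * (N : ℝ) < ((∑ i ∈ L.filter (fun i => sepP pos i a b), w i : ℕ) : ℝ) := hcon
  obtain ⟨a0, ha0, b0, hb0, hab0⟩ := Finset.one_lt_card.mp (by omega : 1 < S.card)
  have hNpos : 0 < N := by
    have h1 := hpair a0 ha0 b0 hb0 hab0
    have h3 : (0 : ℝ) ≤ η * N := by positivity
    have h4 : (0 : ℝ) < ((∑ i ∈ L.filter (fun i => sepP pos i a0 b0), w i : ℕ) : ℝ) := by linarith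
    have h5 : 0 < ∑ i ∈ L.filter (fun i => sepP pos i a0 b0), w i := by exact_mod_cast h4
    have h6 := hle a0 b0
    omega
  have hinj : Set.InjOn (patS pos L w) (S : Set α) := by
    intro a ha b hb hab
    by_contra hne
    have h1 := hpair a (Finset.mem_coe.mp ha) b (Finset.mem_coe.mp hb) hne
    have h3 := sep_card pos L w a b
    have hab' : patS pos L w a = patS pos L w b := hab
    rw [hab'] at h3
    simp only [Finset.sdiff_self, Finset.card_empty, add_zero] at h3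
    rw [← h3] at h1
    have h4 : (0 : ℝ) ≤ η * N := by positivity
    simp only [Nat.cast_zero] at h1
    linarith
  set F := S.image (patS pos L w) with hF
  have hFcard : F.card = m := Finset.card_image_of_injOn hinj
  set δ := ⌈η * (N : ℝ)⌉₊ with hδnat
  have hδle : (η * (N : ℝ)) ≤ δ := Nat.le_ceil _
  have hsep : ∀ Q₁ ∈ F, ∀ Q₂ ∈ F, Q₁ ≠ Q₂ → δ ≤ (Q₂ \ Q₁).card + (Q₁ \ Q₂).card := by
    intro Q₁ hQ₁ Q₂ hQ₂ hne
    obtain ⟨a, ha, rfl⟩ := Finset.mem_image.mp hQ₁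
    obtain ⟨b, hb, rfl⟩ := Finset.mem_image.mp hQ₂
    have hab : a ≠ b := fun h => hne (by rw [h])
    rw [sep_card]
    exact Nat.ceil_le.mpr (hpair a ha b hb hab).le
  have hsub : ∀ Q ∈ F, Q ⊆ X₀ := by
    intro Q hQ
    obtain ⟨a, _, rfl⟩ := Finset.mem_image.mp hQ
    exact Finset.filter_subset _ _
  have hρ3 : 0 < ρ / 3 := by linarith
  set c := ⌈ρ / 3⌉₊ with hc
  have hc1 : (c : ℝ) < ρ / 3 + 1 := Nat.ceil_lt_add_one hρ3.le
  have hc2 : ρ / 3 ≤ c := Nat.le_ceil _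
  have hc3 : 1 ≤ c := by
    have : (0 : ℝ) < c := by linarith
    have h4 : 0 < c := by exact_mod_cast this
    omega
  obtain ⟨s, hs⟩ : ∃ s, c = s + 1 := ⟨c - 1, by omega⟩
  have hbig : 4 * X₀.card * D ≤ (s + 1) * δ := by
    rw [hX₀card, ← hs]
    have h1 : (4 : ℝ) * N * D ≤ (c : ℝ) * δ := by
      have h3 : (0 : ℝ) ≤ (η * N) := by positivity
      calc (4 : ℝ) * N * D = (ρ / 3) * (η * N) := by
            rw [hδdef]
            field_simp
            ring
        _ ≤ (c : ℝ) * δ := mul_le_mul hc2 hδle h3 (by positivity)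
    exact_mod_cast h1
  have hmain := haussler_pack F X₀ D δ s hsub
    (fun I h => pat_shatter pos L w S0 S hS D hVC I h) hsep (by rw [hX₀card]; exact hNpos)
    (by omega) hbig
  rw [hFcard, ← hs] at hmain
  -- the contradiction
  have h3 : (c : ℝ) ≤ 3 / 8 * ρ := by linarith
  have h4 : (c : ℝ) ^ D ≤ (3 / 8 * ρ) ^ D := pow_le_pow_left₀ (by positivity) h3 D
  have h5 : ρ ^ D = m := Real.rpow_inv_natCast_pow hmpos.le (by omega)
  have h6 : ((3 : ℝ) / 8) ^ D ≤ (3 / 8) ^ 2 :=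
    pow_le_pow_of_le_one (by norm_num) (by norm_num) hD
  rw [mul_pow, h5] at h4
  have h7 : (m : ℝ) ≤ 2 * (c : ℝ) ^ D := by exact_mod_cast hmain
  have h8 : ((3 : ℝ) / 8) ^ D * m ≤ (3 / 8) ^ 2 * m := mul_le_mul_of_nonneg_right h6 hmpos.le
  nlinarith

/-- Greedy construction with integer weights. -/
theorem tree_weight_nat (pos : ι → α → Prop) (L : Finset ι) (S0 : Finset α) (δ : ℕ → ℝ)
    (hδ : ∀ j, 0 ≤ δ j)
    (hpack : ∀ S : Finset α, S ⊆ S0 → 2 ≤ S.card → ∀ w : ι → ℕ,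
      ∃ a ∈ S, ∃ b ∈ S, a ≠ b ∧
        ((∑ i ∈ L.filter (fun i => sepP pos i a b), w i : ℕ) : ℝ) ≤
          δ S.card * ((∑ i ∈ L, w i : ℕ) : ℝ)) :
    ∀ (m : ℕ) (S : Finset α), S ⊆ S0 → S.card = m + 1 → ∀ w : ι → ℕ,
      ∃ E : List (α × α), E.length = m ∧ (∀ e ∈ E, e.1 ∈ S ∧ e.2 ∈ S ∧ e.1 ≠ e.2) ∧
        ∑ i ∈ L, (w i : ℝ) * 2 ^ cntP pos i E ≤
          ((∑ i ∈ L, w i : ℕ) : ℝ) * ∏ j ∈ Finset.Icc 2 (m + 1), (1 + δ j) := by
  intro m
  induction m with
  | zero =>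
    intro S _ _ w
    refine ⟨[], rfl, by simp, ?_⟩
    simp [cntP]
  | succ m ih =>
    intro S hS hcard w
    obtain ⟨a, ha, b, hb, hab, hsep⟩ := hpack S hS (by omega) w
    rw [hcard] at hsep
    let w' : ι → ℕ := fun i => w i * (if sepP pos i a b then 2 else 1)
    have hcard' : (S.erase b).card = m + 1 := by
      rw [Finset.card_erase_of_mem hb, hcard]
      rfl
    obtain ⟨E, hEl, hEm, hEs⟩ := ih (S.erase b) ((Finset.erase_subset _ _).trans hS) hcard' w'
    refine ⟨(a, b) :: E, by simp [hEl], ?_, ?_⟩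
    · intro e he
      rcases List.mem_cons.mp he with rfl | he
      · exact ⟨ha, hb, hab⟩
      · obtain ⟨h1, h2, h3⟩ := hEm e he
        exact ⟨(Finset.mem_erase.mp h1).2, (Finset.mem_erase.mp h2).2, h3⟩
    · have e1 : ∑ i ∈ L, w' i = ∑ i ∈ L, w i + ∑ i ∈ L.filter (fun i => sepP pos i a b), w i := by
        rw [Finset.sum_filter, ← Finset.sum_add_distrib]
        apply Finset.sum_congr rfl
        intro i _
        by_cases h : sepP pos i a b <;> simp [w', h]
        ring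
      have hW' : ((∑ i ∈ L, w' i : ℕ) : ℝ) ≤ (1 + δ (m + 1 + 1)) * ((∑ i ∈ L, w i : ℕ) : ℝ) := by
        rw [e1, Nat.cast_add, add_mul, one_mul]
        linarith
      have hprod : 0 ≤ ∏ j ∈ Finset.Icc 2 (m + 1), (1 + δ j) :=
        Finset.prod_nonneg fun j _ => by linarith [hδ j]
      calc ∑ i ∈ L, (w i : ℝ) * 2 ^ cntP pos i ((a, b) :: E)
          = ∑ i ∈ L, (w' i : ℝ) * 2 ^ cntP pos i E := by
            apply Finset.sum_congr rfl
            intro i _
            rw [cntP_cons]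
            by_cases h : sepP pos i a b
            · simp only [w', h, if_true]
              push_cast
              rw [pow_succ]
              ring
            · simp [w', h]
        _ ≤ ((∑ i ∈ L, w' i : ℕ) : ℝ) * ∏ j ∈ Finset.Icc 2 (m + 1), (1 + δ j) := hEs
        _ ≤ ((1 + δ (m + 1 + 1)) * ((∑ i ∈ L, w i : ℕ) : ℝ)) *
              ∏ j ∈ Finset.Icc 2 (m + 1), (1 + δ j) :=
            mul_le_mul_of_nonneg_right hW' hprod
        _ = _ := by
            have e3 : ∏ j ∈ Finset.Icc 2 (m + 1 + 1), (1 + δ j) =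
                (∏ j ∈ Finset.Icc 2 (m + 1), (1 + δ j)) * (1 + δ (m + 1 + 1)) :=
              Finset.prod_Icc_succ_top (by omega) _
            rw [e3]
            ring

/-- The total number of crossings of the greedy edges. -/
theorem tree_total (pos : ι → α → Prop) (L : Finset ι) (hL : L.Nonempty) (S0 : Finset α)
    (δ : ℕ → ℝ) (hδ : ∀ j, 0 ≤ δ j)
    (hpack : ∀ S : Finset α, S ⊆ S0 → 2 ≤ S.card → ∀ w : ι → ℕ,
      ∃ a ∈ S, ∃ b ∈ S, a ≠ b ∧
        ((∑ i ∈ L.filter (fun i => sepP pos i a b), w i : ℕ) : ℝ) ≤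
          δ S.card * ((∑ i ∈ L, w i : ℕ) : ℝ))
    (m : ℕ) (hcard : S0.card = m + 1) :
    ∃ E : List (α × α), E.length = m ∧ (∀ e ∈ E, e.1 ∈ S0 ∧ e.2 ∈ S0 ∧ e.1 ≠ e.2) ∧
      ((∑ i ∈ L, cntP pos i E : ℕ) : ℝ) * Real.log 2 ≤
        (L.card : ℝ) * ∑ j ∈ Finset.Icc 2 (m + 1), δ j := by
  obtain ⟨E, hEl, hEm, hEs⟩ := tree_weight_nat pos L S0 δ hδ hpack m S0 subset_rfl hcard (fun _ => 1)
  refine ⟨E, hEl, hEm, ?_⟩
  have hLpos : (0 : ℝ) < L.card := by exact_mod_cast Finset.card_pos.mpr hL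
  set nL : ℝ := (L.card : ℝ) with hnL
  set T : ℝ := ((∑ i ∈ L, cntP pos i E : ℕ) : ℝ) * Real.log 2 with hT
  set a : ℝ := T / nL with ha
  have h2 : ∏ j ∈ Finset.Icc 2 (m + 1), (1 + δ j) ≤
      Real.exp (∑ j ∈ Finset.Icc 2 (m + 1), δ j) := by
    rw [Real.exp_sum]
    apply Finset.prod_le_prod
    · intro j _
      linarith [hδ j]
    · intro j _
      linarith [Real.add_one_le_exp (δ j)]
  have hup : ∑ i ∈ L, (2 : ℝ) ^ cntP pos i E ≤
      nL * Real.exp (∑ j ∈ Finset.Icc 2 (m + 1), δ j) := by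
    have h3 := hEs
    simp only [Nat.cast_one, one_mul, Finset.sum_const, smul_eq_mul, mul_one] at h3
    calc _ ≤ _ := h3
      _ ≤ _ := mul_le_mul_of_nonneg_left h2 (by positivity)
  have hlow : nL * Real.exp a ≤ ∑ i ∈ L, (2 : ℝ) ^ cntP pos i E := by
    have h3 : ∀ i ∈ L, Real.exp a * (1 + (cntP pos i E : ℝ) * Real.log 2 - a) ≤
        (2 : ℝ) ^ cntP pos i E := by
      intro i _
      have h4 : (2 : ℝ) ^ cntP pos i E = Real.exp a * Real.exp ((cntP pos i E : ℝ) * Real.log 2 - a) := by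
        rw [← Real.exp_add]
        have h5 : a + ((cntP pos i E : ℝ) * Real.log 2 - a) = (cntP pos i E : ℝ) * Real.log 2 := by
          ring
        rw [h5, mul_comm, Real.exp_mul, Real.exp_log (by norm_num)]
        simp
      rw [h4]
      apply mul_le_mul_of_nonneg_left _ (Real.exp_pos _).le
      linarith [Real.add_one_le_exp ((cntP pos i E : ℝ) * Real.log 2 - a)]
    have h6 := Finset.sum_le_sum h3
    rw [← Finset.mul_sum] at h6
    have h7 : ∑ i ∈ L, (1 + (cntP pos i E : ℝ) * Real.log 2 - a) = nL := by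
      rw [Finset.sum_sub_distrib, Finset.sum_add_distrib, ← Finset.sum_mul, Finset.sum_const,
        Finset.sum_const, nsmul_eq_mul, nsmul_eq_mul, ← hnL]
      have h8 : (∑ i ∈ L, (cntP pos i E : ℝ)) * Real.log 2 = T := by
        rw [hT]
        push_cast
        ring
      rw [h8, ha]
      field_simp
      ring
    rw [h7] at h6
    calc nL * Real.exp a = Real.exp a * nL := by ring
      _ ≤ _ := h6
  have h9 : Real.exp a ≤ Real.exp (∑ j ∈ Finset.Icc 2 (m + 1), δ j) :=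
    le_of_mul_le_mul_left (le_trans hlow hup) hLpos
  have h10 := Real.exp_le_exp.mp h9
  have h11 : T = a * nL := by
    rw [ha]
    field_simp
  rw [h11, mul_comm]
  exact mul_le_mul_of_nonneg_left h10 hLpos.le

/-- **Low-crossing edges**, without logarithm. -/
theorem tree_total_real (pos : ι → α → Prop) (L : Finset ι) (hL : L.Nonempty) (S0 : Finset α)
    (D : ℕ) (hD : 2 ≤ D)
    (hVC : ∀ I : Finset ι, I ⊆ L → D < I.card → ¬ ∀ J : Finset ι, J ⊆ I →
      ∃ x ∈ S0, ∀ i ∈ I, (pos i x ↔ i ∈ J))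
    (hS0 : 2 ≤ S0.card) :
    ∃ E : List (α × α), E.length = S0.card - 1 ∧ (∀ e ∈ E, e.1 ∈ S0 ∧ e.2 ∈ S0 ∧ e.1 ≠ e.2) ∧
      ((∑ i ∈ L, cntP pos i E : ℕ) : ℝ) ≤
        (L.card : ℝ) * (35 * D * (S0.card : ℝ) ^ (1 - (D : ℝ)⁻¹)) := by
  set k := S0.card with hk
  obtain ⟨m, hm⟩ : ∃ m, k = m + 1 := ⟨k - 1, by omega⟩
  obtain ⟨E, hEl, hEm, hEs⟩ := tree_total pos L hL S0 (lossE D) (lossE_nonneg D)
    (fun S hS hS2 w => pack_nat pos L S0 S hS D hD hVC hS2 w) m hm
  refine ⟨E, by omega, hEm, ?_⟩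
  rw [← hm] at hEs
  have hDR : (2 : ℝ) ≤ D := by exact_mod_cast hD
  have hθ0 : (0 : ℝ) ≤ (D : ℝ)⁻¹ := by positivity
  have hθ1 : (D : ℝ)⁻¹ ≤ 1 / 2 := by
    rw [inv_eq_one_div]
    exact one_div_le_one_div_of_le (by norm_num) hDR
  set θ := (D : ℝ)⁻¹ with hθ
  set X := (k : ℝ) ^ (1 - θ) with hX
  have hXnn : 0 ≤ X := by positivity
  have hsum : ∑ j ∈ Finset.Icc 2 k, lossE D j ≤ 24 * D * X := by
    have h1 : ∀ j ∈ Finset.Icc 2 k, lossE D j = 12 * D * (j : ℝ) ^ (-θ) := by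
      intro j hj
      obtain ⟨hj1, _⟩ := Finset.mem_Icc.mp hj
      have hjpos : (0 : ℝ) < j := by
        have : 0 < j := by omega
        exact_mod_cast this
      unfold lossE
      rw [Real.rpow_neg hjpos.le, div_eq_mul_inv]
    rw [Finset.sum_congr rfl h1, ← Finset.mul_sum]
    calc 12 * (D : ℝ) * ∑ j ∈ Finset.Icc 2 k, (j : ℝ) ^ (-θ)
        ≤ 12 * (D : ℝ) * ∑ j ∈ Finset.Icc 1 k, (j : ℝ) ^ (-θ) := by
          apply mul_le_mul_of_nonneg_left _ (by positivity)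
          apply Finset.sum_le_sum_of_subset_of_nonneg
          · intro j hj
            obtain ⟨hj1, hj2⟩ := Finset.mem_Icc.mp hj
            exact Finset.mem_Icc.mpr ⟨by omega, hj2⟩
          · intro j _ _
            positivity
      _ ≤ 12 * (D : ℝ) * (2 * X) :=
          mul_le_mul_of_nonneg_left (sum_rpow_le θ hθ0 hθ1 k) (by positivity)
      _ = _ := by ring
  have hlog3 : (0.6931 : ℝ) < Real.log 2 := by
    have := Real.log_two_gt_d9
    linarith
  have hLnn : (0 : ℝ) ≤ L.card := Nat.cast_nonneg _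
  have h5 : ((∑ i ∈ L, cntP pos i E : ℕ) : ℝ) * Real.log 2 ≤
      ((L.card : ℝ) * (35 * D * X)) * Real.log 2 := by
    calc _ ≤ (L.card : ℝ) * ∑ j ∈ Finset.Icc 2 k, lossE D j := hEs
      _ ≤ (L.card : ℝ) * (24 * D * X) := mul_le_mul_of_nonneg_left hsum hLnn
      _ ≤ _ := by
          have h6 : 0 ≤ (L.card : ℝ) * (D * X) := by positivity
          nlinarith
  exact le_of_mul_le_mul_right h5 (by linarith)

end Vale.Agent.Lib.P054
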