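import Vale.Agent.Lib.P054.Geo
import Vale.Agent.Lib.P054.Tree2

/-!
Pinned distances from low-crossing edges, without logarithm.
-/

open Finset

open scoped Classical

namespace Vale.Agent.Lib.P054

variable {E : Type*} [NormedAddCommGroup E] [InnerProductSpace ℝ E]

/-- **Main theorem**, log-free form. -/
theorem flat_main2 (W : Submodule ℝ E) [FiniteDimensional ℝ W] (D : ℕ) (hD : 2 ≤ D)
    (hW : Module.finrank ℝ W ≤ D) (a0 : E) (A P : Finset E) (hAP : A ⊆ P)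
    (hAW : ∀ a ∈ A, a - a0 ∈ W) (hm : 2 ≤ A.card) (s h : ℕ) (hs : 1 ≤ s)
    (hcell : ∀ a ∈ A, ∀ b ∈ A, a ≠ b → ∀ r r' : ℝ,
      (P.filter (fun q => ‖a - q‖ ^ 2 = r ∧ ‖b - q‖ ^ 2 = r')).card ≤ s)
    (hpin : ∀ a ∈ A, (pinSet P a).card ≤ h) (hbig : 8 * s * h ≤ P.card) :
    (A.card : ℝ) ^ ((D : ℝ)⁻¹) * P.card ≤ 17920 * D * s * h ^ 2 := by
  set n := P.card with hn
  set m := A.card with hm'
  have hmn : m ≤ n := Finset.card_le_card hAP
  have hn2 : 2 ≤ n := by omega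
  have hPne : P.Nonempty := Finset.card_pos.mp (by omega)
  have hL : (P ×ˢ P).Nonempty := hPne.product hPne
  have hLn : (P ×ˢ P).card = n ^ 2 := by
    rw [Finset.card_product, sq]
  obtain ⟨E', hEl, hEm, hEs⟩ := tree_total_real bisPos (P ×ˢ P) hL A D hD
    (fun I _ hI => bis_VC W a0 A hAW I (lt_of_le_of_lt hW hI)) hm
  have hedge : ∀ e ∈ E', n ^ 3 ≤ (256 * s * h ^ 2) *
      ((P ×ˢ P).filter (fun i => sepP bisPos i e.1 e.2)).card := by
    intro e he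
    obtain ⟨h1, h2, h3⟩ := hEm e he
    exact edge_bound P e.1 e.2 (hAP h1) s h hs (hcell e.1 h1 e.2 h2 h3) (hpin _ h1) (hpin _ h2) hbig
  have hlist := list_bound E' _ (n ^ 3) (256 * s * h ^ 2) hedge
  rw [list_sum_cnt, hEl] at hlist
  -- pass to reals
  set X := (m : ℝ) ^ (1 - (D : ℝ)⁻¹) with hX
  have hmR : (2 : ℝ) ≤ m := by exact_mod_cast hm
  have hnR : (2 : ℝ) ≤ n := by exact_mod_cast hn2
  have hXpos : 0 < X := Real.rpow_pos_of_pos (by linarith) _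
  have hm1 : ((m - 1 : ℕ) : ℝ) = (m : ℝ) - 1 := by
    rw [Nat.cast_sub (by omega)]
    norm_num
  rw [hLn] at hEs
  have hlistR : ((m : ℝ) - 1) * (n : ℝ) ^ 3 ≤
      (256 * s * h ^ 2) * (((n ^ 2 : ℕ) : ℝ) * (35 * D * X)) := by
    have h1 : (((m - 1) * n ^ 3 : ℕ) : ℝ) ≤
        ((256 * s * h ^ 2 * ∑ i ∈ P ×ˢ P, cntP bisPos i E' : ℕ) : ℝ) := by
      exact_mod_cast hlist
    rw [Nat.cast_mul, hm1, Nat.cast_mul, Nat.cast_pow] at h1
    refine le_trans h1 ?_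
    have h2 : (0 : ℝ) ≤ ((256 * s * h ^ 2 : ℕ) : ℝ) := Nat.cast_nonneg _
    calc _ ≤ ((256 * s * h ^ 2 : ℕ) : ℝ) * (((n ^ 2 : ℕ) : ℝ) * (35 * D * X)) :=
          mul_le_mul_of_nonneg_left hEs h2
      _ = _ := by push_cast; ring
  have hnpos : (0 : ℝ) < n := by linarith
  have hn2pos : (0 : ℝ) < (n : ℝ) ^ 2 := by positivity
  have h3 : ((m : ℝ) - 1) * n ≤ (256 * s * h ^ 2) * (35 * D * X) := by
    have : (n : ℝ) ^ 2 * (((m : ℝ) - 1) * n) ≤ (n : ℝ) ^ 2 * ((256 * s * h ^ 2) * (35 * D * X)) := by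
      calc _ = ((m : ℝ) - 1) * (n : ℝ) ^ 3 := by ring
        _ ≤ _ := hlistR
        _ = _ := by push_cast; ring
    exact le_of_mul_le_mul_left this hn2pos
  have h4 : (m : ℝ) * n ≤ 2 * ((m : ℝ) - 1) * n := by
    apply mul_le_mul_of_nonneg_right _ hnpos.le
    linarith
  have hsplit : (m : ℝ) = (m : ℝ) ^ ((D : ℝ)⁻¹) * X := by
    rw [hX, ← Real.rpow_add (by linarith)]
    simp
  set Y := (m : ℝ) ^ ((D : ℝ)⁻¹) with hY
  have h5 : X * (Y * n) ≤ X * (17920 * D * s * h ^ 2) := by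
    calc X * (Y * n) = (Y * X) * n := by ring
      _ = (m : ℝ) * n := by rw [← hsplit]
      _ ≤ 2 * ((m : ℝ) - 1) * n := h4
      _ = 2 * (((m : ℝ) - 1) * n) := by ring
      _ ≤ 2 * ((256 * s * h ^ 2) * (35 * D * X)) := by linarith
      _ = _ := by ring
  exact le_of_mul_le_mul_left h5 hXpos

end Vale.Agent.Lib.P054
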