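import Vale.Agent.Lib.P054.Geo2

/-!
Pinned distances from low-crossing edges, with a robust multiplicity hypothesis: for each pair of
centres, at most half of the points lie on a rich intersection of two spheres about the centres.
-/

open Finset

open scoped Classical

namespace Vale.Agent.Lib.P054

variable {E : Type*} [NormedAddCommGroup E] [InnerProductSpace ℝ E]

/-- The crossing bound for one edge, robust form. -/
theorem edge_bound2 (P : Finset E) (a b : E) (ha : a ∈ P) (s h : ℕ) (hs : 1 ≤ s)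
    (hcell : 2 * (P.filter (fun q => s < (P.filter (fun y =>
      dist a y = dist a q ∧ dist b y = dist b q)).card)).card ≤ P.card)
    (hpa : (pinSet P a).card ≤ h) (hpb : (pinSet P b).card ≤ h) (hbig : 16 * s * h ≤ P.card) :
    P.card ^ 3 ≤ 2048 * s * h ^ 2 *
      ((P ×ˢ P).filter (fun i => sepP bisPos i a b)).card := by
  set f : E → ℝ := fun q => ‖a - q‖ ^ 2 with hf
  set g : E → ℝ := fun q => ‖b - q‖ ^ 2 with hg
  set C := P.filter (fun q => ¬ s < (P.filter (fun y =>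
      dist a y = dist a q ∧ dist b y = dist b q)).card) with hC
  have hCP : C ⊆ P := Finset.filter_subset _ _
  have hCcard : P.card ≤ 2 * C.card := by
    have h1 : (P.filter (fun q => s < (P.filter (fun y =>
        dist a y = dist a q ∧ dist b y = dist b q)).card)).card + C.card = P.card :=
      Finset.card_filter_add_card_filter_not _
    omega
  have hR : ∀ c ∈ C, f c ∈ pinSet P a := fun c hc => mem_pinSet (hCP hc)
  have hS : ∀ c ∈ C, g c ∈ pinSet P b := fun c hc => mem_pinSet (hCP hc)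
  have hc : ∀ p : ℝ × ℝ, (C.filter (fun y => (f y, g y) = p)).card ≤ s := by
    intro p
    rcases (C.filter (fun y => (f y, g y) = p)).eq_empty_or_nonempty with h0 | ⟨q, hq⟩
    · rw [h0]
      simp
    · obtain ⟨hqC, hqp⟩ := Finset.mem_filter.mp hq
      have hq2 := not_lt.mp (Finset.mem_filter.mp hqC).2
      refine le_trans (Finset.card_le_card ?_) hq2
      intro y hy
      obtain ⟨hyC, hyp⟩ := Finset.mem_filter.mp hy
      have e : (f y, g y) = (f q, g q) := hyp.trans hqp.symm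
      have e1 : ‖a - y‖ ^ 2 = ‖a - q‖ ^ 2 := congrArg Prod.fst e
      have e2 : ‖b - y‖ ^ 2 = ‖b - q‖ ^ 2 := congrArg Prod.snd e
      refine Finset.mem_filter.mpr ⟨hCP hyC, ?_, ?_⟩
      · rw [dist_eq_norm, dist_eq_norm]
        exact (pow_left_inj₀ (norm_nonneg _) (norm_nonneg _) (by norm_num)).mp e1
      · rw [dist_eq_norm, dist_eq_norm]
        exact (pow_left_inj₀ (norm_nonneg _) (norm_nonneg _) (by norm_num)).mp e2
  have hRpos : 0 < (pinSet P a).card :=
    Finset.card_pos.mpr ⟨_, mem_pinSet ha⟩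
  have hv : 0 < (pinSet P a).card + (pinSet P b).card := by omega
  have hvh : (pinSet P a).card + (pinSet P b).card ≤ 2 * h := by omega
  have hbig' : 4 * (s * ((pinSet P a).card + (pinSet P b).card)) ≤ C.card := by
    have h3 : 4 * (s * ((pinSet P a).card + (pinSet P b).card)) ≤ 4 * (s * (2 * h)) :=
      Nat.mul_le_mul_left _ (Nat.mul_le_mul_left _ hvh)
    have h4 : 4 * (s * (2 * h)) = 8 * s * h := by ring
    have h5 : 16 * s * h = 2 * (8 * s * h) := by ring
    omega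
  have hmain := crossing_lower_mult f g C (pinSet P a) (pinSet P b) s hs hR hS hc hv hbig'
  have hcr : (crossPairs f g C).card ≤ ((P ×ˢ P).filter (fun i => sepP bisPos i a b)).card := by
    apply Finset.card_le_card
    intro z hz
    obtain ⟨hz1, hz2, hz3⟩ := Finset.mem_filter.mp hz
    obtain ⟨hz4, hz5⟩ := Finset.mem_product.mp hz1
    refine Finset.mem_filter.mpr ⟨Finset.mem_product.mpr ⟨hCP hz4, hCP hz5⟩, ?_⟩
    intro hiff
    have h1 : ‖b - z.2‖ ^ 2 < ‖b - z.1‖ ^ 2 := hz3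
    have h2 : ‖a - z.1‖ ^ 2 < ‖a - z.2‖ ^ 2 := hz2
    have h3 := hiff.mpr h1
    have h4 : ‖a - z.2‖ ^ 2 < ‖a - z.1‖ ^ 2 := h3
    linarith
  calc P.card ^ 3 ≤ (2 * C.card) ^ 3 := Nat.pow_le_pow_left hCcard 3
    _ = 8 * C.card ^ 3 := by ring
    _ ≤ 8 * (64 * s * ((pinSet P a).card + (pinSet P b).card) ^ 2 * (crossPairs f g C).card) :=
        Nat.mul_le_mul_left _ hmain
    _ ≤ 8 * (64 * s * (2 * h) ^ 2 * ((P ×ˢ P).filter (fun i => sepP bisPos i a b)).card) :=
        Nat.mul_le_mul_left _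
          (Nat.mul_le_mul (Nat.mul_le_mul_left _ (Nat.pow_le_pow_left hvh 2)) hcr)
    _ = _ := by ring

/-- **Main theorem**, robust log-free form. -/
theorem flat_main3 (W : Submodule ℝ E) [FiniteDimensional ℝ W] (D : ℕ) (hD : 2 ≤ D)
    (hW : Module.finrank ℝ W ≤ D) (a0 : E) (A P : Finset E) (hAP : A ⊆ P)
    (hAW : ∀ a ∈ A, a - a0 ∈ W) (hm : 2 ≤ A.card) (s h : ℕ) (hs : 1 ≤ s)
    (hcell : ∀ a ∈ A, ∀ b ∈ A, a ≠ b →
      2 * (P.filter (fun q => s < (P.filter (fun y =>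
        dist a y = dist a q ∧ dist b y = dist b q)).card)).card ≤ P.card)
    (hpin : ∀ a ∈ A, (pinSet P a).card ≤ h) (hbig : 16 * s * h ≤ P.card) :
    (A.card : ℝ) ^ ((D : ℝ)⁻¹) * P.card ≤ 143360 * D * s * h ^ 2 := by
  set n := P.card with hn
  set m := A.card with hm'
  have hmn : m ≤ n := Finset.card_le_card hAP
  have hn2 : 2 ≤ n := by omega
  have hPne : P.Nonempty := Finset.card_pos.mp (by omega)
  have hL : (P ×ˢ P).Nonempty := hPne.product hPne
  have hLn : (P ×ˢ P).card = n ^ 2 := by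
    rw [Finset.card_product, sq]
  obtain ⟨E', hEl, hEm, hEs⟩ := tree_total_real bisPos (P ×ˢ P) hL A D hD
    (fun I _ hI => bis_VC W a0 A hAW I (lt_of_le_of_lt hW hI)) hm
  have hedge : ∀ e ∈ E', n ^ 3 ≤ (2048 * s * h ^ 2) *
      ((P ×ˢ P).filter (fun i => sepP bisPos i e.1 e.2)).card := by
    intro e he
    obtain ⟨h1, h2, h3⟩ := hEm e he
    exact edge_bound2 P e.1 e.2 (hAP h1) s h hs (hcell e.1 h1 e.2 h2 h3) (hpin _ h1) (hpin _ h2) hbig
  have hlist := list_bound E' _ (n ^ 3) (2048 * s * h ^ 2) hedge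
  rw [list_sum_cnt, hEl] at hlist
  -- pass to reals
  set X := (m : ℝ) ^ (1 - (D : ℝ)⁻¹) with hX
  have hmR : (2 : ℝ) ≤ m := by exact_mod_cast hm
  have hnR : (2 : ℝ) ≤ n := by exact_mod_cast hn2
  have hXpos : 0 < X := Real.rpow_pos_of_pos (by linarith) _
  have hm1 : ((m - 1 : ℕ) : ℝ) = (m : ℝ) - 1 := by
    rw [Nat.cast_sub (by omega)]
    norm_num
  rw [hLn] at hEs
  have hlistR : ((m : ℝ) - 1) * (n : ℝ) ^ 3 ≤
      (2048 * s * h ^ 2) * (((n ^ 2 : ℕ) : ℝ) * (35 * D * X)) := by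
    have h1 : (((m - 1) * n ^ 3 : ℕ) : ℝ) ≤
        ((2048 * s * h ^ 2 * ∑ i ∈ P ×ˢ P, cntP bisPos i E' : ℕ) : ℝ) := by
      exact_mod_cast hlist
    rw [Nat.cast_mul, hm1, Nat.cast_mul, Nat.cast_pow] at h1
    refine le_trans h1 ?_
    have h2 : (0 : ℝ) ≤ ((2048 * s * h ^ 2 : ℕ) : ℝ) := Nat.cast_nonneg _
    calc _ ≤ ((2048 * s * h ^ 2 : ℕ) : ℝ) * (((n ^ 2 : ℕ) : ℝ) * (35 * D * X)) :=
          mul_le_mul_of_nonneg_left hEs h2
      _ = _ := by push_cast; ring
  have hnpos : (0 : ℝ) < n := by linarith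
  have hn2pos : (0 : ℝ) < (n : ℝ) ^ 2 := by positivity
  have h3 : ((m : ℝ) - 1) * n ≤ (2048 * s * h ^ 2) * (35 * D * X) := by
    have : (n : ℝ) ^ 2 * (((m : ℝ) - 1) * n) ≤ (n : ℝ) ^ 2 * ((2048 * s * h ^ 2) * (35 * D * X)) := by
      calc _ = ((m : ℝ) - 1) * (n : ℝ) ^ 3 := by ring
        _ ≤ _ := hlistR
        _ = _ := by push_cast; ring
    exact le_of_mul_le_mul_left this hn2pos
  have h4 : (m : ℝ) * n ≤ 2 * ((m : ℝ) - 1) * n := by
    apply mul_le_mul_of_nonneg_right _ hnpos.le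
    linarith
  have hsplit : (m : ℝ) = (m : ℝ) ^ ((D : ℝ)⁻¹) * X := by
    rw [hX, ← Real.rpow_add (by linarith)]
    simp
  set Y := (m : ℝ) ^ ((D : ℝ)⁻¹) with hY
  have h5 : X * (Y * n) ≤ X * (143360 * D * s * h ^ 2) := by
    calc X * (Y * n) = (Y * X) * n := by ring
      _ = (m : ℝ) * n := by rw [← hsplit]
      _ ≤ 2 * ((m : ℝ) - 1) * n := h4
      _ = 2 * (((m : ℝ) - 1) * n) := by ring
      _ ≤ 2 * ((2048 * s * h ^ 2) * (35 * D * X)) := by linarith
      _ = _ := by ring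
  exact le_of_mul_le_mul_left h5 hXpos

end Vale.Agent.Lib.P054
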