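import Mathlib

open Finset

open scoped Classical

namespace Vale.Agent.Lib.P054

/-- Euclidean `d`-space. -/
abbrev EE (d : ℕ) := EuclideanSpace ℝ (Fin d)

variable {d : ℕ}

/-- The foot of `p` on the hyperplane orthogonal to the unit vector `v`; two points lie on a common
line parallel to `v` exactly when their feet agree. -/
noncomputable def foot (v p : EE d) : EE d := p - (inner ℝ v p) • v

theorem pyth {v : EE d} (hv : ‖v‖ = 1) (x y : EE d) :
    ‖x - y‖ ^ 2 = ‖foot v x - foot v y‖ ^ 2 + (inner ℝ v x - inner ℝ v y) ^ 2 := by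
  have e : foot v x - foot v y = (x - y) - (inner ℝ v x - inner ℝ v y) • v := by
    simp only [foot, sub_smul]
    abel
  have e2 : inner ℝ (x - y) v = inner ℝ v x - inner ℝ v y := by
    rw [real_inner_comm, inner_sub_right]
  have e3 : ‖(x - y) - (inner ℝ v x - inner ℝ v y) • v‖ ^ 2 = ‖x - y‖ ^ 2 -
      2 * ((inner ℝ v x - inner ℝ v y) * (inner ℝ v x - inner ℝ v y)) +
      (inner ℝ v x - inner ℝ v y) ^ 2 := by
    rw [norm_sub_sq_real, inner_smul_right, e2, norm_smul, hv]
    simp only [mul_one, Real.norm_eq_abs, sq_abs]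
  rw [e, e3]
  ring

theorem inner_foot {v : EE d} (hv : ‖v‖ = 1) (p : EE d) : inner ℝ v (foot v p) = 0 := by
  simp only [foot, inner_sub_right, inner_smul_right, real_inner_self_eq_norm_sq, hv]
  ring

theorem eq_of_foot_eq {v x y : EE d} (h1 : foot v x = foot v y)
    (h2 : inner ℝ v x = inner ℝ v y) : x = y := by
  simp only [foot, h2] at h1
  exact sub_left_inj.mp h1

/-- A finite set inside the hyperplane orthogonal to `v` is determined by at most `d` reference
points through its distance vectors, hence has at most `T ^ d` points when every point sees at most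
`T` distances. -/
theorem card_le_pow {v : EE d} (hv : ‖v‖ = 1) (G : Finset (EE d)) (hG : G.Nonempty)
    (hort : ∀ g ∈ G, inner ℝ v g = 0) (T : ℕ)
    (hT : ∀ a ∈ G, (G.image (fun g => ‖a - g‖)).card ≤ T) : G.card ≤ T ^ d := by
  obtain ⟨a0, ha0⟩ := hG
  have hv0 : v ≠ 0 := by
    intro h
    rw [h, norm_zero] at hv
    norm_num at hv
  set S : Set (EE d) := (fun g => g - a0) '' (G : Set (EE d)) with hS
  obtain ⟨b, hbS, hspan, hli⟩ := exists_linearIndependent ℝ S
  have hSfin : S.Finite := (G.finite_toSet).image _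
  have hbfin : b.Finite := hSfin.subset hbS
  -- elements of `b` are orthogonal to `v`
  set W : Submodule ℝ (EE d) := (Submodule.span ℝ {v})ᗮ with hW
  have hbW : ∀ s ∈ b, s ∈ W := by
    intro s hs
    obtain ⟨g, hg, rfl⟩ := hbS hs
    rw [hW, Submodule.mem_orthogonal_singleton_iff_inner_right]
    show inner ℝ v (g - a0) = 0
    rw [inner_sub_right, hort g hg, hort a0 ha0]
    simp
  have hfinW : Module.finrank ℝ W + 1 = d := by
    have h1 : Module.finrank ℝ (Submodule.span ℝ {v}) + Module.finrank ℝ W =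
        Module.finrank ℝ (EE d) := Submodule.finrank_add_finrank_orthogonal _
    rw [finrank_span_singleton hv0, finrank_euclideanSpace_fin] at h1
    omega
  have hbcard : hbfin.toFinset.card + 1 ≤ d := by
    letI : Fintype b := hbfin.fintype
    have hli' : LinearIndependent ℝ (fun s : b => (⟨s.1, hbW s.1 s.2⟩ : W)) := by
      apply LinearIndependent.of_comp W.subtype
      exact hli
    have h2 := hli'.fintype_card_le_finrank
    have h3 : hbfin.toFinset.card = Fintype.card b := by
      rw [Set.Finite.card_toFinset]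
    omega
  -- the reference points
  set Ref : Finset (EE d) := insert a0 (hbfin.toFinset.image (fun s => s + a0)) with hRef
  have hRefG : ∀ r ∈ Ref, r ∈ G := by
    intro r hr
    rcases Finset.mem_insert.mp hr with rfl | hr
    · exact ha0
    · obtain ⟨s, hs, rfl⟩ := Finset.mem_image.mp hr
      obtain ⟨g, hg, rfl⟩ := hbS (hbfin.mem_toFinset.mp hs)
      simpa using hg
  have hRefcard : Ref.card ≤ d := by
    calc Ref.card ≤ (hbfin.toFinset.image (fun s => s + a0)).card + 1 := Finset.card_insert_le _ _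
      _ ≤ hbfin.toFinset.card + 1 := Nat.add_le_add_right Finset.card_image_le 1
      _ ≤ d := hbcard
  -- the distance vector is injective on `G`
  set Φ : EE d → (↥Ref → ℝ) := fun g r => ‖(r : EE d) - g‖ with hΦ
  have hinj : Set.InjOn Φ (G : Set (EE d)) := by
    intro g hg g' hg' hgg
    have hdist : ∀ r ∈ Ref, ‖r - g‖ = ‖r - g'‖ := fun r hr => congrFun hgg ⟨r, hr⟩
    have h0 : ‖a0 - g‖ = ‖a0 - g'‖ := hdist a0 (Finset.mem_insert_self _ _)
    have horth : ∀ s ∈ b, inner ℝ (g' - g) s = 0 := by
      intro s hs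
      have h1 : ‖s + a0 - g‖ = ‖s + a0 - g'‖ :=
        hdist (s + a0) (Finset.mem_insert_of_mem
          (Finset.mem_image_of_mem _ (hbfin.mem_toFinset.mpr hs)))
      have e1 : s + a0 - g = s + (a0 - g) := by abel
      have e2 : s + a0 - g' = s + (a0 - g') := by abel
      rw [e1, e2] at h1
      have h3 : ‖s + (a0 - g)‖ ^ 2 = ‖s + (a0 - g')‖ ^ 2 := by rw [h1]
      rw [norm_add_sq_real, norm_add_sq_real, h0] at h3
      have h4 : inner ℝ s (a0 - g) = inner ℝ s (a0 - g') := by linarith
      rw [inner_sub_right, inner_sub_right] at h4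
      rw [inner_sub_left, real_inner_comm s g', real_inner_comm s g]
      linarith
    -- `g' - g` is orthogonal to the span of `b`
    have hle : Submodule.span ℝ b ≤ LinearMap.ker (innerₛₗ ℝ (g' - g)) := by
      rw [Submodule.span_le]
      intro s hs
      exact SetLike.mem_coe.mpr (LinearMap.mem_ker.mpr (horth s hs))
    have hmem1 : g' - a0 ∈ Submodule.span ℝ b := by
      rw [hspan]
      exact Submodule.subset_span ⟨g', hg', rfl⟩
    have hmem2 : g - a0 ∈ Submodule.span ℝ b := by
      rw [hspan]
      exact Submodule.subset_span ⟨g, hg, rfl⟩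
    have h5 : inner ℝ (g' - g) (g' - a0) = 0 := LinearMap.mem_ker.mp (hle hmem1)
    have h6 : inner ℝ (g' - g) (g - a0) = 0 := LinearMap.mem_ker.mp (hle hmem2)
    have h7 : inner ℝ (g' - g) (g' - g) = 0 := by
      have e : g' - g = (g' - a0) - (g - a0) := by abel
      nth_rewrite 2 [e]
      rw [inner_sub_right, h5, h6]
      simp
    have h8 : g' - g = 0 := inner_self_eq_zero.mp h7
    exact (sub_eq_zero.mp h8).symm
  -- counting
  have hT1 : 1 ≤ T := by
    have h := hT a0 ha0
    have : 0 < (G.image (fun g => ‖a0 - g‖)).card :=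
      Finset.card_pos.mpr ⟨_, Finset.mem_image_of_mem _ ha0⟩
    omega
  calc G.card ≤ (Fintype.piFinset
        (fun r : ↥Ref => G.image (fun g => ‖(r : EE d) - g‖))).card := by
        apply Finset.card_le_card_of_injOn Φ _ hinj
        intro g hg
        exact Finset.mem_coe.mpr (Fintype.mem_piFinset.mpr
          (fun r => Finset.mem_image_of_mem _ (Finset.mem_coe.mp hg)))
    _ = ∏ r : ↥Ref, (G.image (fun g => ‖(r : EE d) - g‖)).card := Fintype.card_piFinset _
    _ ≤ ∏ _r : ↥Ref, T := by
        apply Finset.prod_le_prod' 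
        intro r _
        exact hT r.1 (hRefG r.1 r.2)
    _ = T ^ Ref.card := by
        rw [Finset.prod_const, Finset.card_univ, Fintype.card_coe]
    _ ≤ T ^ d := Nat.pow_le_pow_right hT1 hRefcard

/-- The extreme point of a set on one line sees all the others at different distances. -/
theorem exists_extreme {v : EE d} (hv : ‖v‖ = 1) (P C : Finset (EE d)) (hCP : C ⊆ P)
    (hC : ∀ x ∈ C, ∀ y ∈ C, foot v x = foot v y) (hne : C.Nonempty) :
    ∃ x ∈ P, C.card ≤ ((P.erase x).image (fun y => ‖y - x‖)).card + 1 := by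
  obtain ⟨x, hx, hmin⟩ := Finset.exists_min_image C (fun y => inner ℝ v y) hne
  refine ⟨x, hCP hx, ?_⟩
  have hnorm : ∀ y ∈ C, ‖y - x‖ = inner ℝ v y - inner ℝ v x := by
    intro y hy
    have h1 := pyth hv y x
    rw [hC y hy x hx, sub_self, norm_zero] at h1
    have h2 : 0 ≤ inner ℝ v y - inner ℝ v x := sub_nonneg.mpr (hmin y hy)
    have h3 : ‖y - x‖ ^ 2 = (inner ℝ v y - inner ℝ v x) ^ 2 := by rw [h1]; ring
    exact (pow_left_inj₀ (norm_nonneg _) h2 (by norm_num)).mp h3
  have hinj : Set.InjOn (fun y => ‖y - x‖) ((C.erase x : Finset (EE d)) : Set (EE d)) := by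
    intro y hy y' hy' h
    have hy1 := Finset.mem_of_mem_erase (Finset.mem_coe.mp hy)
    have hy2 := Finset.mem_of_mem_erase (Finset.mem_coe.mp hy')
    have h' : ‖y - x‖ = ‖y' - x‖ := h
    rw [hnorm y hy1, hnorm y' hy2] at h'
    exact eq_of_foot_eq (hC y hy1 y' hy2) (by linarith)
  have hcard : ((C.erase x).image (fun y => ‖y - x‖)).card = C.card - 1 := by
    rw [Finset.card_image_of_injOn hinj, Finset.card_erase_of_mem hx]
  have hsub : (C.erase x).image (fun y => ‖y - x‖) ⊆ (P.erase x).image (fun y => ‖y - x‖) :=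
    Finset.image_subset_image (Finset.erase_subset_erase _ hCP)
  have := Finset.card_le_card hsub
  omega

end Vale.Agent.Lib.P054
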