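import Mathlib

/-!
Haussler's packing lemma for set systems of bounded VC dimension, through the bound on the number
of edges of the unit distance graph.
-/

open Finset

open scoped Classical

namespace Vale.Agent.Lib.P054

variable {X : Type*}

/-- Unit distance edges of `F` with direction in `G`, each listed once from its lower end. -/
noncomputable def udEdges (F : Finset (Finset X)) (G : Finset X) : Finset (Finset X × X) :=
  (F ×ˢ G).filter (fun e => e.2 ∉ e.1 ∧ insert e.2 e.1 ∈ F)

theorem mem_udEdges {F : Finset (Finset X)} {G : Finset X} {e : Finset X × X} :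
    e ∈ udEdges F G ↔ e.1 ∈ F ∧ e.2 ∈ G ∧ e.2 ∉ e.1 ∧ insert e.2 e.1 ∈ F := by
  simp only [udEdges, Finset.mem_filter, Finset.mem_product, and_assoc]

theorem shatters_image_erase (F : Finset (Finset X)) (x : X) (I : Finset X)
    (h : (F.image (fun Q => Q.erase x)).Shatters I) : F.Shatters I := by
  obtain ⟨t0, ht0, hI0⟩ := h.exists_superset
  obtain ⟨Q0, _, rfl⟩ := Finset.mem_image.mp ht0
  have hxI : x ∉ I := fun hx => (Finset.mem_erase.mp (hI0 hx)).1 rfl
  intro t ht
  obtain ⟨u, hu, hIu⟩ := h ht
  obtain ⟨Q, hQ, rfl⟩ := Finset.mem_image.mp hu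
  refine ⟨Q, hQ, ?_⟩
  rw [← hIu]
  ext y
  simp only [Finset.mem_inter, Finset.mem_erase]
  constructor
  · rintro ⟨h1, h2⟩
    exact ⟨h1, fun hy => hxI (hy ▸ h1), h2⟩
  · rintro ⟨h1, _, h2⟩
    exact ⟨h1, h2⟩

theorem shatters_insert_of (F : Finset (Finset X)) (x : X) (I : Finset X)
    (h : (F.filter (fun Q => x ∉ Q ∧ insert x Q ∈ F)).Shatters I) :
    x ∉ I ∧ F.Shatters (insert x I) := by
  obtain ⟨t0, ht0, hI0⟩ := h.exists_superset
  have hxI : x ∉ I := fun hx => (Finset.mem_filter.mp ht0).2.1 (hI0 hx)
  refine ⟨hxI, ?_⟩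
  intro t ht
  have ht' : t.erase x ⊆ I := by
    intro y hy
    obtain ⟨h1, h2⟩ := Finset.mem_erase.mp hy
    rcases Finset.mem_insert.mp (ht h2) with h3 | h3
    · exact absurd h3 h1
    · exact h3
  obtain ⟨u, hu, hIu⟩ := h ht'
  obtain ⟨huF, hxu, hiu⟩ := Finset.mem_filter.mp hu
  by_cases hxt : x ∈ t
  · refine ⟨insert x u, hiu, ?_⟩
    ext y
    by_cases hy : y = x
    · subst hy
      simp [hxt]
    · have h1 : y ∈ I ∩ u ↔ y ∈ t.erase x := by rw [hIu]
      simp only [Finset.mem_inter, Finset.mem_erase, Finset.mem_insert, hy, false_or, ne_eq,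
        not_false_eq_true, true_and] at h1 ⊢
      exact h1
  · refine ⟨u, huF, ?_⟩
    ext y
    by_cases hy : y = x
    · subst hy
      simp [hxu, hxt]
    · have h1 : y ∈ I ∩ u ↔ y ∈ t.erase x := by rw [hIu]
      simp only [Finset.mem_inter, Finset.mem_erase, Finset.mem_insert, hy, false_or, ne_eq,
        not_false_eq_true, true_and] at h1 ⊢
      exact h1

/-- Splitting a family along one element. -/
theorem card_split_family (F : Finset (Finset X)) (x : X) :
    (F.image (fun Q => Q.erase x)).card + (F.filter (fun Q => x ∉ Q ∧ insert x Q ∈ F)).card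
      = F.card := by
  set F₁ := F.filter (fun Q => x ∉ Q) with hF₁
  set F₂ := (F.filter (fun Q => ¬ x ∉ Q)).image (fun Q => Q.erase x) with hF₂
  have e1 : F.image (fun Q => Q.erase x) = F₁ ∪ F₂ := by
    ext R
    simp only [Finset.mem_image, Finset.mem_union, hF₁, hF₂, Finset.mem_filter]
    constructor
    · rintro ⟨Q, hQ, rfl⟩
      by_cases hx : x ∈ Q
      · exact Or.inr ⟨Q, ⟨hQ, not_not.mpr hx⟩, rfl⟩
      · left
        rw [Finset.erase_eq_of_notMem hx]
        exact ⟨hQ, hx⟩
    · rintro (⟨h1, h2⟩ | ⟨Q, ⟨hQ, _⟩, rfl⟩)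
      · exact ⟨R, h1, Finset.erase_eq_of_notMem h2⟩
      · exact ⟨Q, hQ, rfl⟩
  have e2 : F.filter (fun Q => x ∉ Q ∧ insert x Q ∈ F) = F₁ ∩ F₂ := by
    ext R
    simp only [Finset.mem_filter, Finset.mem_inter, Finset.mem_image, hF₁, hF₂]
    constructor
    · rintro ⟨h1, h2, h3⟩
      refine ⟨⟨h1, h2⟩, insert x R, ⟨h3, not_not.mpr (Finset.mem_insert_self _ _)⟩, ?_⟩
      exact Finset.erase_insert h2
    · rintro ⟨⟨h1, h2⟩, Q, ⟨hQ, hxQ⟩, rfl⟩
      refine ⟨h1, h2, ?_⟩
      rw [Finset.insert_erase (not_not.mp hxQ)]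
      exact hQ
  have hinj : Set.InjOn (fun Q : Finset X => Q.erase x) (F.filter (fun Q => ¬ x ∉ Q) : Set (Finset X)) := by
    intro Q hQ Q' hQ' h
    have h1 : x ∈ Q := not_not.mp (Finset.mem_filter.mp (Finset.mem_coe.mp hQ)).2
    have h2 : x ∈ Q' := not_not.mp (Finset.mem_filter.mp (Finset.mem_coe.mp hQ')).2
    calc Q = insert x (Q.erase x) := (Finset.insert_erase h1).symm
      _ = insert x (Q'.erase x) := by
          have h3 : Q.erase x = Q'.erase x := h
          rw [h3]
      _ = Q' := Finset.insert_erase h2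
  have h3 : F₂.card = (F.filter (fun Q => ¬ x ∉ Q)).card := Finset.card_image_of_injOn hinj
  have h4 := Finset.card_filter_add_card_filter_not (s := F) (fun Q => x ∉ Q)
  rw [e1, e2, Finset.card_union_add_card_inter, h3, hF₁]
  exact h4

/-- **The unit distance graph of a set system of VC dimension at most `d` has at most `d |F|`
edges** (Haussler). -/
theorem ud_bound (G : Finset X) : ∀ (F : Finset (Finset X)) (d : ℕ), (∀ Q ∈ F, Q ⊆ G) →
    (∀ I, F.Shatters I → I.card ≤ d) → (udEdges F G).card ≤ d * F.card := by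
  induction G using Finset.induction_on with
  | empty =>
    intro F d _ _
    have h : udEdges F (∅ : Finset X) = ∅ := by
      ext e
      simp [mem_udEdges]
    simp [h]
  | insert x G₀ hx ih =>
    intro F d hF hVC
    set F' := F.image (fun Q => Q.erase x) with hF'
    set F'' := F.filter (fun Q => x ∉ Q ∧ insert x Q ∈ F) with hF''
    have hsub' : ∀ Q ∈ F', Q ⊆ G₀ := by
      intro Q hQ y hy
      obtain ⟨Q', hQ', rfl⟩ := Finset.mem_image.mp hQ
      obtain ⟨h1, h2⟩ := Finset.mem_erase.mp hy
      rcases Finset.mem_insert.mp (hF Q' hQ' h2) with h3 | h3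
      · exact absurd h3 h1
      · exact h3
    have hsub'' : ∀ Q ∈ F'', Q ⊆ G₀ := by
      intro Q hQ y hy
      obtain ⟨h0, h1, _⟩ := Finset.mem_filter.mp hQ
      rcases Finset.mem_insert.mp (hF Q h0 hy) with h3 | h3
      · exact absurd (h3 ▸ hy) h1
      · exact h3
    have hVC' : ∀ I, F'.Shatters I → I.card ≤ d :=
      fun I h => hVC I (shatters_image_erase F x I h)
    have hcard : F'.card + F''.card = F.card := card_split_family F x
    have hVC'' : ∀ I, F''.Shatters I → I.card + 1 ≤ d := by
      intro I h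
      obtain ⟨h1, h2⟩ := shatters_insert_of F x I h
      have h3 := hVC _ h2
      rwa [Finset.card_insert_of_notMem h1] at h3
    set E := udEdges F (insert x G₀) with hE
    set Ex := E.filter (fun e => e.2 = x) with hEx
    set E₀ := E.filter (fun e => e.2 ≠ x) with hE₀
    set E₁ := E₀.filter (fun e => x ∉ e.1) with hE₁
    set E₂ := E₀.filter (fun e => ¬ x ∉ e.1) with hE₂
    let φ : Finset X × X → Finset X × X := fun e => (e.1.erase x, e.2)
    have hExcard : Ex.card ≤ F''.card := by
      apply Finset.card_le_card_of_injOn (fun e => e.1)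
      · intro e he
        obtain ⟨h1, h2⟩ := Finset.mem_filter.mp (Finset.mem_coe.mp he)
        obtain ⟨h3, _, h5, h6⟩ := mem_udEdges.mp h1
        rw [h2] at h5 h6
        exact Finset.mem_coe.mpr (Finset.mem_filter.mpr ⟨h3, h5, h6⟩)
      · intro e he e' he' h
        have h1 := (Finset.mem_filter.mp (Finset.mem_coe.mp he)).2
        have h2 := (Finset.mem_filter.mp (Finset.mem_coe.mp he')).2
        exact Prod.ext h (h1.trans h2.symm)
    have hinj1 : Set.InjOn φ (E₁ : Set (Finset X × X)) := by
      intro e he e' he' h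
      have h1 := (Finset.mem_filter.mp (Finset.mem_coe.mp he)).2
      have h2 := (Finset.mem_filter.mp (Finset.mem_coe.mp he')).2
      have h3 : e.1.erase x = e'.1.erase x := congrArg Prod.fst h
      have h4 : e.2 = e'.2 := (Prod.ext_iff.mp h).2
      rw [Finset.erase_eq_of_notMem h1, Finset.erase_eq_of_notMem h2] at h3
      exact Prod.ext h3 h4
    have hinj2 : Set.InjOn φ (E₂ : Set (Finset X × X)) := by
      intro e he e' he' h
      have h1 := not_not.mp (Finset.mem_filter.mp (Finset.mem_coe.mp he)).2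
      have h2 := not_not.mp (Finset.mem_filter.mp (Finset.mem_coe.mp he')).2
      have h3 : e.1.erase x = e'.1.erase x := congrArg Prod.fst h
      have h4 : e.2 = e'.2 := (Prod.ext_iff.mp h).2
      have h5 : e.1 = e'.1 := by
        rw [← Finset.insert_erase h1, h3, Finset.insert_erase h2]
      exact Prod.ext h5 h4
    have hφ : ∀ e ∈ E₀, φ e ∈ udEdges F' G₀ := by
      intro e he
      obtain ⟨h1, h2⟩ := Finset.mem_filter.mp he
      obtain ⟨h3, h4, h5, h6⟩ := mem_udEdges.mp h1
      refine mem_udEdges.mpr ⟨Finset.mem_image.mpr ⟨e.1, h3, rfl⟩, ?_, ?_, ?_⟩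
      · rcases Finset.mem_insert.mp h4 with h7 | h7
        · exact absurd h7 h2
        · exact h7
      · intro h7
        exact h5 (Finset.mem_erase.mp h7).2
      · refine Finset.mem_image.mpr ⟨insert e.2 e.1, h6, ?_⟩
        exact Finset.erase_insert_of_ne h2
    have hU : (E₁.image φ ∪ E₂.image φ) ⊆ udEdges F' G₀ := by
      intro e he
      rcases Finset.mem_union.mp he with h | h
      · obtain ⟨e', he', rfl⟩ := Finset.mem_image.mp h
        exact hφ e' (Finset.mem_filter.mp he').1
      · obtain ⟨e', he', rfl⟩ := Finset.mem_image.mp h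
        exact hφ e' (Finset.mem_filter.mp he').1
    have hI : (E₁.image φ ∩ E₂.image φ) ⊆ udEdges F'' G₀ := by
      intro e he
      obtain ⟨h1, h2⟩ := Finset.mem_inter.mp he
      obtain ⟨e1, he1, rfl⟩ := Finset.mem_image.mp h1
      obtain ⟨e2, he2, h3⟩ := Finset.mem_image.mp h2
      obtain ⟨he10, hx1⟩ := Finset.mem_filter.mp he1
      obtain ⟨he20, hx2⟩ := Finset.mem_filter.mp he2
      have hx2' := not_not.mp hx2
      obtain ⟨he1E, hz1⟩ := Finset.mem_filter.mp he10
      obtain ⟨he2E, hz2⟩ := Finset.mem_filter.mp he20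
      obtain ⟨a1, a2, a3, a4⟩ := mem_udEdges.mp he1E
      obtain ⟨b1, b2, b3, b4⟩ := mem_udEdges.mp he2E
      have e1a : e2.1.erase x = e1.1 := by
        have h4 : e2.1.erase x = e1.1.erase x := congrArg Prod.fst h3
        rw [h4, Finset.erase_eq_of_notMem hx1]
      have e1b : e2.2 = e1.2 := (Prod.ext_iff.mp h3).2
      have e1c : e2.1 = insert x e1.1 := by
        rw [← e1a, Finset.insert_erase hx2']
      simp only [φ]
      rw [Finset.erase_eq_of_notMem hx1]
      refine mem_udEdges.mpr ⟨?_, ?_, a3, ?_⟩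
      · exact Finset.mem_filter.mpr ⟨a1, hx1, e1c ▸ b1⟩
      · rcases Finset.mem_insert.mp a2 with h7 | h7
        · exact absurd h7 hz1
        · exact h7
      · refine Finset.mem_filter.mpr ⟨a4, ?_, ?_⟩
        · intro h7
          rcases Finset.mem_insert.mp h7 with h8 | h8
          · exact hz1 h8.symm
          · exact hx1 h8
        · rw [Finset.insert_comm]
          rw [e1c, e1b] at b4
          exact b4
    have h1 : E₁.card + E₂.card ≤ (udEdges F' G₀).card + (udEdges F'' G₀).card := by
      have h2 := Finset.card_union_add_card_inter (E₁.image φ) (E₂.image φ)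
      rw [Finset.card_image_of_injOn hinj1, Finset.card_image_of_injOn hinj2] at h2
      have h3 := Finset.card_le_card hU
      have h4 := Finset.card_le_card hI
      omega
    have h2 : E.card = Ex.card + E₁.card + E₂.card := by
      have h3 : Ex.card + E₀.card = E.card :=
        Finset.card_filter_add_card_filter_not (s := E) (fun e => e.2 = x)
      have h4 : E₁.card + E₂.card = E₀.card :=
        Finset.card_filter_add_card_filter_not (s := E₀) (fun e => x ∉ e.1)
      omega
    have hIH' := ih F' d hsub' hVC'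
    rcases F''.eq_empty_or_nonempty with h0 | hne
    · have hu : (udEdges F'' G₀).card = 0 := by
        rw [h0]
        simp [udEdges]
      have h00 : F''.card = 0 := by rw [h0]; rfl
      have h5 : F'.card = F.card := by omega
      rw [h5] at hIH'
      omega
    · have h1d : 1 ≤ d := by
        have hs : F''.Shatters ∅ := by
          rw [Finset.shatters_empty]
          exact hne
        have := hVC'' ∅ hs
        simpa using this
      have hIH'' := ih F'' (d - 1) hsub'' (fun I hI => by
        have := hVC'' I hI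
        omega)
      have h6 : (d - 1) * F''.card + F''.card = d * F''.card := by
        obtain ⟨k, rfl⟩ : ∃ k, d = k + 1 := ⟨d - 1, by omega⟩
        simp only [Nat.add_sub_cancel]
        ring
      calc E.card ≤ F''.card + (udEdges F' G₀).card + (udEdges F'' G₀).card := by omega
        _ ≤ F''.card + d * F'.card + (d - 1) * F''.card := by omega
        _ = d * F'.card + d * F''.card := by omega
        _ = d * (F'.card + F''.card) := by ring
        _ = d * F.card := by rw [hcard]

end Vale.Agent.Lib.P054
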