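import Mathlib

/-!
Spanning paths with low crossing number (Chazelle, Welzl), for a finite family of two-class
partitions of bounded dual shatter dimension: points `α`, partitions `pos i`, `i ∈ L`.
-/

open Finset

open scoped Classical

namespace Vale.Agent.Lib.P054

variable {α ι : Type*}

/-- The partition `i` separates `a` and `b`. -/
def sepP (pos : ι → α → Prop) (i : ι) (a b : α) : Prop := ¬ (pos i a ↔ pos i b)

/-- The number of edges of `E` separated by the partition `i`. -/
noncomputable def cntP (pos : ι → α → Prop) (i : ι) (E : List (α × α)) : ℕ :=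
  E.countP (fun e => decide (sepP pos i e.1 e.2))

theorem cntP_cons (pos : ι → α → Prop) (i : ι) (e : α × α) (E : List (α × α)) :
    cntP pos i (e :: E) = cntP pos i E + if sepP pos i e.1 e.2 then 1 else 0 := by
  unfold cntP
  rw [List.countP_cons]
  simp only [decide_eq_true_eq]

theorem card_low_subsets (T : Finset ι) (D : ℕ) :
    (T.powerset.filter (fun I => I.card ≤ D)).card ≤ (T.card + 1) ^ D := by
  induction D with
  | zero =>
    have h : T.powerset.filter (fun I => I.card ≤ 0) ⊆ {∅} := by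
      intro I hI
      have := (Finset.mem_filter.mp hI).2
      have h0 : I = ∅ := Finset.card_eq_zero.mp (by omega)
      simp [h0]
    simpa using Finset.card_le_card h
  | succ D ih =>
    have hsub : T.powerset.filter (fun I => I.card ≤ D + 1) ⊆
        T.powerset.filter (fun I => I.card ≤ D) ∪ T.powersetCard (D + 1) := by
      intro I hI
      obtain ⟨h1, h2⟩ := Finset.mem_filter.mp hI
      rcases Nat.lt_or_ge D I.card with h | h
      · apply Finset.mem_union_right
        exact Finset.mem_powersetCard.mpr ⟨Finset.mem_powerset.mp h1, by omega⟩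
      · apply Finset.mem_union_left
        exact Finset.mem_filter.mpr ⟨h1, h⟩
    have h1 := Finset.card_le_card hsub
    have h2 := Finset.card_union_le (T.powerset.filter (fun I => I.card ≤ D))
      (T.powersetCard (D + 1))
    have h3 : (T.powersetCard (D + 1)).card ≤ T.card ^ (D + 1) := by
      rw [Finset.card_powersetCard]
      exact Nat.choose_le_pow _ _
    have h4 : T.card ^ (D + 1) ≤ T.card * (T.card + 1) ^ D := by
      rw [pow_succ, mul_comm]
      exact Nat.mul_le_mul_left _ (Nat.pow_le_pow_left (by omega) _)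
    calc _ ≤ _ := h1
      _ ≤ _ := h2
      _ ≤ (T.card + 1) ^ D + T.card * (T.card + 1) ^ D := by omega
      _ = _ := by ring

/-- Few patterns on a finite family of bounded shatter dimension. -/
theorem pattern_count (pos : ι → α → Prop) (S0 : Finset α) (S : Finset α) (hS : S ⊆ S0)
    (T : Finset ι) (D : ℕ)
    (hVC : ∀ I : Finset ι, I ⊆ T → D < I.card → ¬ ∀ J : Finset ι, J ⊆ I →
      ∃ x ∈ S0, ∀ i ∈ I, (pos i x ↔ i ∈ J)) :
    (S.image (fun x => T.filter (fun i => pos i x))).card ≤ (T.card + 1) ^ D := by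
  set 𝒜 := S.image (fun x => T.filter (fun i => pos i x)) with h𝒜
  refine le_trans (Finset.card_le_card_shatterer 𝒜) (le_trans (Finset.card_le_card ?_)
    (card_low_subsets T D))
  intro I hI
  have hsh := Finset.mem_shatterer.mp hI
  obtain ⟨t, ht, hIt⟩ := hsh.exists_superset
  obtain ⟨x, _, rfl⟩ := Finset.mem_image.mp ht
  have hIT : I ⊆ T := fun i hi => (Finset.mem_filter.mp (hIt hi)).1
  refine Finset.mem_filter.mpr ⟨Finset.mem_powerset.mpr hIT, ?_⟩
  by_contra hcon
  refine hVC I hIT (by omega) ?_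
  intro J hJ
  obtain ⟨u, hu, hIu⟩ := hsh hJ
  obtain ⟨y, hy, rfl⟩ := Finset.mem_image.mp hu
  refine ⟨y, hS hy, fun i hi => ?_⟩
  rw [← hIu]
  simp only [Finset.mem_inter, Finset.mem_filter]
  exact ⟨fun h => ⟨hi, hIT hi, h⟩, fun h => h.2.2⟩

/-- The packing lemma: among enough points two are separated by a small part of the weight. -/
theorem packing (pos : ι → α → Prop) (L : Finset ι) (S0 S : Finset α) (hS : S ⊆ S0) (D r : ℕ)
    (w : ι → ℝ) (hw : ∀ i ∈ L, 0 ≤ w i) (δ : ℝ) (hδ1 : δ ≤ 1)
    (hVC : ∀ I : Finset ι, I ⊆ L → D < I.card → ¬ ∀ J : Finset ι, J ⊆ I →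
      ∃ x ∈ S0, ∀ i ∈ I, (pos i x ↔ i ∈ J))
    (hr1 : (r + 1) ^ D < S.card) (hr2 : (S.card : ℝ) ^ 2 * (1 - δ) ^ r < 1) :
    ∃ a ∈ S, ∃ b ∈ S, a ≠ b ∧
      ∑ i ∈ L.filter (fun i => sepP pos i a b), w i ≤ δ * ∑ i ∈ L, w i := by
  by_contra hcon
  push Not at hcon
  set W := ∑ i ∈ L, w i with hW
  let U : Finset ι → Finset (α × α) := fun T =>
    S.offDiag.filter (fun z => ∀ i ∈ T, ¬ sepP pos i z.1 z.2)
  have hstep : ∀ t : ℕ, ∃ T : Finset ι, T ⊆ L ∧ T.card ≤ t ∧
      ((U T).card : ℝ) ≤ (1 - δ) ^ t * (S.card : ℝ) ^ 2 := by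
    intro t
    induction t with
    | zero =>
      refine ⟨∅, Finset.empty_subset _, by simp, ?_⟩
      have h1 : (U ∅).card ≤ S.card ^ 2 := by
        refine le_trans (Finset.card_le_card (Finset.filter_subset _ _)) ?_
        rw [Finset.offDiag_card]
        rw [sq]
        exact Nat.sub_le _ _
      simp only [pow_zero, one_mul]
      exact_mod_cast h1
    | succ t ih =>
      obtain ⟨T, hTL, hTc, hU⟩ := ih
      have h1δ : 0 ≤ 1 - δ := by linarith
      rcases (U T).eq_empty_or_nonempty with hE | hne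
      · refine ⟨T, hTL, by omega, ?_⟩
        rw [hE]
        simp only [Finset.card_empty, Nat.cast_zero]
        positivity
      -- averaging
      have hex : ∃ i ∈ L, δ * ((U T).card : ℝ) ≤
          (((U T).filter (fun z => sepP pos i z.1 z.2)).card : ℝ) := by
        by_contra hno
        push Not at hno
        have h2 : ∑ i ∈ L, w i * (((U T).filter (fun z => sepP pos i z.1 z.2)).card : ℝ) ≤
            ∑ i ∈ L, w i * (δ * ((U T).card : ℝ)) :=
          Finset.sum_le_sum fun i hi => mul_le_mul_of_nonneg_left (hno i hi).le (hw i hi)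
        have h3 : ∑ i ∈ L, w i * (((U T).filter (fun z => sepP pos i z.1 z.2)).card : ℝ) =
            ∑ z ∈ U T, ∑ i ∈ L.filter (fun i => sepP pos i z.1 z.2), w i := by
          simp only [Finset.sum_filter]
          rw [Finset.sum_comm]
          apply Finset.sum_congr rfl
          intro i _
          rw [Finset.card_filter]
          push_cast
          rw [Finset.mul_sum]
          apply Finset.sum_congr rfl
          intro z _
          by_cases hz : sepP pos i z.1 z.2 <;> simp [hz]
        have h4 : ∑ z ∈ U T, δ * W < ∑ z ∈ U T, ∑ i ∈ L.filter (fun i => sepP pos i z.1 z.2), w i := by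
          apply Finset.sum_lt_sum_of_nonempty hne
          intro z hz
          have hz1 := (Finset.mem_filter.mp hz).1
          obtain ⟨ha, hb, hab⟩ := Finset.mem_offDiag.mp hz1
          exact hcon z.1 ha z.2 hb hab
        have h5 : ∑ i ∈ L, w i * (δ * ((U T).card : ℝ)) = ∑ z ∈ U T, δ * W := by
          rw [Finset.sum_const, nsmul_eq_mul, hW, ← Finset.sum_mul]
          ring
        rw [h3, h5] at h2
        linarith
      obtain ⟨i, hiL, hi⟩ := hex
      refine ⟨insert i T, Finset.insert_subset hiL hTL,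
        le_trans (Finset.card_insert_le _ _) (by omega), ?_⟩
      have hsplit : ((U (insert i T)).card : ℝ) =
          ((U T).card : ℝ) - (((U T).filter (fun z => sepP pos i z.1 z.2)).card : ℝ) := by
        have e : U (insert i T) = (U T).filter (fun z => ¬ sepP pos i z.1 z.2) := by
          ext z
          simp only [U, Finset.mem_filter, Finset.mem_insert, forall_eq_or_imp]
          tauto
        have h6 := Finset.card_filter_add_card_filter_not (s := U T)
          (fun z => sepP pos i z.1 z.2)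
        rw [e]
        rw [eq_sub_iff_add_eq, add_comm]
        exact_mod_cast h6
      rw [hsplit]
      calc ((U T).card : ℝ) - (((U T).filter (fun z => sepP pos i z.1 z.2)).card : ℝ)
          ≤ (1 - δ) * ((U T).card : ℝ) := by linarith
        _ ≤ (1 - δ) * ((1 - δ) ^ t * (S.card : ℝ) ^ 2) := mul_le_mul_of_nonneg_left hU h1δ
        _ = _ := by rw [pow_succ]; ring
  obtain ⟨T, hTL, hTc, hU⟩ := hstep r
  have hUe : U T = ∅ := by
    have h2 : ((U T).card : ℝ) < 1 := by
      calc _ ≤ _ := hU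
        _ = (S.card : ℝ) ^ 2 * (1 - δ) ^ r := by ring
        _ < 1 := hr2
    have h3 : (U T).card < 1 := by exact_mod_cast h2
    exact Finset.card_eq_zero.mp (by omega)
  have hinj : Set.InjOn (fun x => T.filter (fun i => pos i x)) (S : Set α) := by
    intro a ha b hb hab
    by_contra hne
    have hm : (a, b) ∈ S.offDiag := Finset.mem_offDiag.mpr ⟨ha, hb, hne⟩
    have hnot : (a, b) ∉ U T := by
      rw [hUe]
      exact Finset.notMem_empty _
    have h1 : ¬ ∀ i ∈ T, ¬ sepP pos i a b := fun h =>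
      hnot (Finset.mem_filter.mpr ⟨hm, h⟩)
    push Not at h1
    obtain ⟨i, hiT, hi⟩ := h1
    apply hi
    have h2 : i ∈ T.filter (fun i => pos i a) ↔ i ∈ T.filter (fun i => pos i b) := by
      have h3 : T.filter (fun i => pos i a) = T.filter (fun i => pos i b) := hab
      rw [h3]
    simp only [Finset.mem_filter, hiT, true_and] at h2
    exact h2
  have hcard : S.card ≤ (T.card + 1) ^ D := by
    rw [← Finset.card_image_of_injOn hinj]
    exact pattern_count pos S0 S hS T D (fun I hI => hVC I (hI.trans hTL))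
  have hle : (T.card + 1) ^ D ≤ (r + 1) ^ D := Nat.pow_le_pow_left (by omega) _
  omega

/-- Greedy construction: a list of `m` edges with small exponential crossing weight. -/
theorem tree_weight (pos : ι → α → Prop) (L : Finset ι) (S0 : Finset α) (δ : ℕ → ℝ)
    (hδ : ∀ j, 0 ≤ δ j)
    (hpack : ∀ S : Finset α, S ⊆ S0 → 2 ≤ S.card → ∀ w : ι → ℝ, (∀ i ∈ L, 0 ≤ w i) →
      ∃ a ∈ S, ∃ b ∈ S, a ≠ b ∧
        ∑ i ∈ L.filter (fun i => sepP pos i a b), w i ≤ δ S.card * ∑ i ∈ L, w i) :
    ∀ (m : ℕ) (S : Finset α), S ⊆ S0 → S.card = m + 1 → ∀ w : ι → ℝ, (∀ i ∈ L, 0 ≤ w i) →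
      ∃ E : List (α × α), E.length = m ∧ (∀ e ∈ E, e.1 ∈ S ∧ e.2 ∈ S ∧ e.1 ≠ e.2) ∧
        ∑ i ∈ L, w i * 2 ^ cntP pos i E ≤
          (∑ i ∈ L, w i) * ∏ j ∈ Finset.Icc 2 (m + 1), (1 + δ j) := by
  intro m
  induction m with
  | zero =>
    intro S _ _ w _
    refine ⟨[], rfl, by simp, ?_⟩
    simp [cntP]
  | succ m ih =>
    intro S hS hcard w hw
    obtain ⟨a, ha, b, hb, hab, hsep⟩ := hpack S hS (by omega) w hw
    rw [hcard] at hsep
    let w' : ι → ℝ := fun i => w i * (if sepP pos i a b then 2 else 1)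
    have hw' : ∀ i ∈ L, 0 ≤ w' i := by
      intro i hi
      apply mul_nonneg (hw i hi)
      split_ifs <;> norm_num
    have hcard' : (S.erase b).card = m + 1 := by
      rw [Finset.card_erase_of_mem hb, hcard]
      rfl
    obtain ⟨E, hEl, hEm, hEs⟩ := ih (S.erase b) ((Finset.erase_subset _ _).trans hS) hcard' w' hw'
    refine ⟨(a, b) :: E, by simp [hEl], ?_, ?_⟩
    · intro e he
      rcases List.mem_cons.mp he with rfl | he
      · exact ⟨ha, hb, hab⟩
      · obtain ⟨h1, h2, h3⟩ := hEm e he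
        exact ⟨(Finset.mem_erase.mp h1).2, (Finset.mem_erase.mp h2).2, h3⟩
    · have hW' : ∑ i ∈ L, w' i ≤ (1 + δ (m + 1 + 1)) * ∑ i ∈ L, w i := by
        have e1 : ∑ i ∈ L, w' i = ∑ i ∈ L, w i +
            ∑ i ∈ L.filter (fun i => sepP pos i a b), w i := by
          rw [Finset.sum_filter, ← Finset.sum_add_distrib]
          apply Finset.sum_congr rfl
          intro i _
          by_cases h : sepP pos i a b <;> simp [w', h]
          ring
        rw [e1, add_mul, one_mul]
        linarith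
      have hprod : 0 ≤ ∏ j ∈ Finset.Icc 2 (m + 1), (1 + δ j) :=
        Finset.prod_nonneg fun j _ => by linarith [hδ j]
      calc ∑ i ∈ L, w i * 2 ^ cntP pos i ((a, b) :: E)
          = ∑ i ∈ L, w' i * 2 ^ cntP pos i E := by
            apply Finset.sum_congr rfl
            intro i _
            rw [cntP_cons]
            by_cases h : sepP pos i a b
            · simp only [w', h, if_true]
              rw [pow_succ]
              ring
            · simp [w', h]
        _ ≤ (∑ i ∈ L, w' i) * ∏ j ∈ Finset.Icc 2 (m + 1), (1 + δ j) := hEs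
        _ ≤ ((1 + δ (m + 1 + 1)) * ∑ i ∈ L, w i) * ∏ j ∈ Finset.Icc 2 (m + 1), (1 + δ j) :=
            mul_le_mul_of_nonneg_right hW' hprod
        _ = _ := by
            have e3 : ∏ j ∈ Finset.Icc 2 (m + 1 + 1), (1 + δ j) =
                (∏ j ∈ Finset.Icc 2 (m + 1), (1 + δ j)) * (1 + δ (m + 1 + 1)) :=
              Finset.prod_Icc_succ_top (by omega) _
            rw [e3]
            ring

/-- All partitions cross few edges. -/
theorem tree_count (pos : ι → α → Prop) (L : Finset ι) (hL : L.Nonempty) (S0 : Finset α)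
    (δ : ℕ → ℝ) (hδ : ∀ j, 0 ≤ δ j)
    (hpack : ∀ S : Finset α, S ⊆ S0 → 2 ≤ S.card → ∀ w : ι → ℝ, (∀ i ∈ L, 0 ≤ w i) →
      ∃ a ∈ S, ∃ b ∈ S, a ≠ b ∧
        ∑ i ∈ L.filter (fun i => sepP pos i a b), w i ≤ δ S.card * ∑ i ∈ L, w i)
    (m : ℕ) (hcard : S0.card = m + 1) :
    ∃ E : List (α × α), E.length = m ∧ (∀ e ∈ E, e.1 ∈ S0 ∧ e.2 ∈ S0 ∧ e.1 ≠ e.2) ∧
      ∀ i ∈ L, (cntP pos i E : ℝ) * Real.log 2 ≤
        Real.log L.card + ∑ j ∈ Finset.Icc 2 (m + 1), δ j := by
  obtain ⟨E, hEl, hEm, hEs⟩ := tree_weight pos L S0 δ hδ hpack m S0 subset_rfl hcard (fun _ => 1)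
    (fun _ _ => zero_le_one)
  refine ⟨E, hEl, hEm, fun i hi => ?_⟩
  have hLpos : (0 : ℝ) < L.card := by exact_mod_cast Finset.card_pos.mpr hL
  have h1 : (2 : ℝ) ^ cntP pos i E ≤ ∑ i ∈ L, (1 : ℝ) * 2 ^ cntP pos i E := by
    have := Finset.single_le_sum (f := fun i => (1 : ℝ) * 2 ^ cntP pos i E)
      (fun j _ => by positivity) hi
    simpa using this
  have h2 : ∏ j ∈ Finset.Icc 2 (m + 1), (1 + δ j) ≤
      Real.exp (∑ j ∈ Finset.Icc 2 (m + 1), δ j) := by
    rw [Real.exp_sum]
    apply Finset.prod_le_prod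
    · intro j _
      linarith [hδ j]
    · intro j _
      linarith [Real.add_one_le_exp (δ j)]
  have h3 : (2 : ℝ) ^ cntP pos i E ≤ (L.card : ℝ) *
      Real.exp (∑ j ∈ Finset.Icc 2 (m + 1), δ j) := by
    calc _ ≤ _ := h1
      _ ≤ _ := hEs
      _ = (L.card : ℝ) * ∏ j ∈ Finset.Icc 2 (m + 1), (1 + δ j) := by simp
      _ ≤ _ := mul_le_mul_of_nonneg_left h2 hLpos.le
  have h4 := Real.log_le_log (by positivity) h3
  rw [Real.log_pow, Real.log_mul hLpos.ne' (Real.exp_pos _).ne', Real.log_exp] at h4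
  exact h4

end Vale.Agent.Lib.P054
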