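import Vale.Agent.Lib.P054.Haussler
import Vale.Agent.Lib.P054.Tree

/-!
Haussler's packing lemma, second part: the sampling argument.
-/

open Finset

open scoped Classical

namespace Vale.Agent.Lib.P054

variable {X : Type*}

/-- The traces of a family on `A`. -/
noncomputable def restrS (F : Finset (Finset X)) (A : Finset X) : Finset (Finset X) :=
  F.image (fun Q => Q ∩ A)

/-- The number of members of `F` with trace `R` on `A`. -/
noncomputable def multS (F : Finset (Finset X)) (A R : Finset X) : ℕ :=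
  (F.filter (fun Q => Q ∩ A = R)).card

theorem restrS_shatters {F : Finset (Finset X)} {A I : Finset X}
    (h : (restrS F A).Shatters I) : F.Shatters I := by
  obtain ⟨t0, ht0, hI0⟩ := h.exists_superset
  obtain ⟨Q0, _, rfl⟩ := Finset.mem_image.mp ht0
  have hIA : I ⊆ A := fun y hy => (Finset.mem_inter.mp (hI0 hy)).2
  intro t ht
  obtain ⟨u, hu, hIu⟩ := h ht
  obtain ⟨Q, hQ, rfl⟩ := Finset.mem_image.mp hu
  refine ⟨Q, hQ, ?_⟩
  rw [← hIu]
  ext y
  simp only [Finset.mem_inter]
  exact ⟨fun h => ⟨h.1, h.2, hIA h.1⟩, fun h => ⟨h.1, h.2.1⟩⟩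

theorem restrict_card (F : Finset (Finset X)) (A : Finset X) (D : ℕ)
    (hVC : ∀ I, F.Shatters I → I.card ≤ D) : (restrS F A).card ≤ (A.card + 1) ^ D := by
  refine le_trans (Finset.card_le_card_shatterer _)
    (le_trans (Finset.card_le_card ?_) (card_low_subsets A D))
  intro I hI
  have hsh := Finset.mem_shatterer.mp hI
  obtain ⟨t0, ht0, hI0⟩ := hsh.exists_superset
  obtain ⟨Q0, _, rfl⟩ := Finset.mem_image.mp ht0
  exact Finset.mem_filter.mpr ⟨Finset.mem_powerset.mpr
    (fun y hy => (Finset.mem_inter.mp (hI0 hy)).2), hVC I (restrS_shatters hsh)⟩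

theorem sum_multS (F : Finset (Finset X)) (A : Finset X) :
    ∑ R ∈ restrS F A, multS F A R = F.card :=
  (Finset.card_eq_sum_card_image _ F).symm

theorem mem_restrS_of_pos {F : Finset (Finset X)} {A R : Finset X} (h : 0 < multS F A R) :
    R ∈ restrS F A := by
  obtain ⟨Q, hQ⟩ := Finset.card_pos.mp h
  obtain ⟨h1, h2⟩ := Finset.mem_filter.mp hQ
  exact Finset.mem_image.mpr ⟨Q, h1, h2⟩

theorem multS_pos_of_mem {F : Finset (Finset X)} {A R : Finset X} (h : R ∈ restrS F A) :
    0 < multS F A R := by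
  obtain ⟨Q, hQ, rfl⟩ := Finset.mem_image.mp h
  exact Finset.card_pos.mpr ⟨Q, Finset.mem_filter.mpr ⟨hQ, rfl⟩⟩

theorem sum_card_filter_swap {α β : Type*} (s : Finset α) (t : Finset β) (r : α → β → Prop)
    (d1 : ∀ a, DecidablePred (r a)) (d2 : ∀ b, DecidablePred (fun a => r a b)) :
    ∑ a ∈ s, (@Finset.filter _ (r a) (d1 a) t).card =
      ∑ b ∈ t, (@Finset.filter _ (fun a => r a b) (d2 b) s).card := by
  simp only [Finset.card_filter]
  rw [Finset.sum_comm]
  apply Finset.sum_congr rfl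
  intro b _
  apply Finset.sum_congr rfl
  intro a _
  congr

/-- The weighted form of the unit distance bound. -/
theorem weighted_ud (F : Finset (Finset X)) (A : Finset X) (d : ℕ)
    (hVC : ∀ I, F.Shatters I → I.card ≤ d) :
    ∑ e ∈ (restrS F A ×ˢ A).filter (fun e => e.2 ∉ e.1),
      min (multS F A e.1) (multS F A (insert e.2 e.1)) ≤ d * F.card := by
  set F' := restrS F A with hF'
  set M := F.card + 1 with hM
  let Fτ : ℕ → Finset (Finset X) := fun τ => F'.filter (fun R => τ < multS F A R)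
  set Ep := (F' ×ˢ A).filter (fun e => e.2 ∉ e.1) with hEp
  have hsub : ∀ τ, ∀ Q ∈ Fτ τ, Q ⊆ A := by
    intro τ Q hQ
    obtain ⟨Q', _, rfl⟩ := Finset.mem_image.mp (Finset.mem_filter.mp hQ).1
    exact Finset.inter_subset_right
  have hVCτ : ∀ τ I, (Fτ τ).Shatters I → I.card ≤ d := fun τ I h =>
    hVC I (restrS_shatters (h.mono_left (Finset.filter_subset _ _)))
  have hud : ∀ τ, (udEdges (Fτ τ) A).card ≤ d * (Fτ τ).card := fun τ =>
    ud_bound A _ d (hsub τ) (hVCτ τ)
  have e1 : ∀ τ, udEdges (Fτ τ) A = Ep.filter (fun e =>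
      τ < multS F A e.1 ∧ τ < multS F A (insert e.2 e.1)) := by
    intro τ
    ext e
    rw [mem_udEdges]
    simp only [hEp, Fτ, Finset.mem_filter, Finset.mem_product]
    constructor
    · rintro ⟨⟨h1, h2⟩, h3, h4, ⟨_, h6⟩⟩
      exact ⟨⟨⟨h1, h3⟩, h4⟩, h2, h6⟩
    · rintro ⟨⟨⟨h1, h3⟩, h4⟩, h2, h6⟩
      exact ⟨⟨h1, h2⟩, h3, h4, ⟨mem_restrS_of_pos (by omega), h6⟩⟩
  have hle : ∀ R, multS F A R ≤ F.card := fun R => Finset.card_filter_le _ _
  have hmin : ∀ e ∈ Ep, ((Finset.range M).filter (fun τ =>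
      τ < multS F A e.1 ∧ τ < multS F A (insert e.2 e.1))).card =
      min (multS F A e.1) (multS F A (insert e.2 e.1)) := by
    intro e _
    have h1 : (Finset.range M).filter (fun τ =>
        τ < multS F A e.1 ∧ τ < multS F A (insert e.2 e.1)) =
        Finset.range (min (multS F A e.1) (multS F A (insert e.2 e.1))) := by
      ext τ
      simp only [Finset.mem_filter, Finset.mem_range, lt_min_iff]
      constructor
      · exact fun h => h.2
      · intro h
        have := hle e.1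
        exact ⟨by omega, h⟩
    rw [h1, Finset.card_range]
  have hS1 : ∑ τ ∈ Finset.range M, (udEdges (Fτ τ) A).card =
      ∑ e ∈ Ep, min (multS F A e.1) (multS F A (insert e.2 e.1)) := by
    simp only [e1]
    refine (sum_card_filter_swap (Finset.range M) Ep
      (fun τ e => τ < multS F A e.1 ∧ τ < multS F A (insert e.2 e.1)) _
      (fun e τ => inferInstance)).trans ?_
    exact Finset.sum_congr rfl hmin
  have hS2 : ∑ τ ∈ Finset.range M, (Fτ τ).card = F.card := by
    have h1 : ∀ τ, (Fτ τ).card = (F'.filter (fun R => τ < multS F A R)).card := fun _ => rfl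
    simp only [h1]
    refine (sum_card_filter_swap (Finset.range M) F' (fun τ R => τ < multS F A R) _
      (fun R τ => inferInstance)).trans ?_
    rw [← sum_multS F A]
    apply Finset.sum_congr rfl
    intro R _
    have h2 : (Finset.range M).filter (fun τ => τ < multS F A R) = Finset.range (multS F A R) := by
      ext τ
      simp only [Finset.mem_filter, Finset.mem_range]
      constructor
      · exact fun h => h.2
      · intro h
        have := hle R
        exact ⟨by omega, h⟩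
    rw [h2, Finset.card_range]
  rw [← hS1, ← hS2, Finset.mul_sum]
  exact Finset.sum_le_sum fun τ _ => hud τ

/-- Members with trace `R` on `A` avoiding `z`. -/
noncomputable def m0S (F : Finset (Finset X)) (A : Finset X) (z : X) (R : Finset X) : ℕ :=
  (F.filter (fun Q => Q ∩ A = R ∧ z ∉ Q)).card

/-- Members with trace `R` on `A` containing `z`. -/
noncomputable def m1S (F : Finset (Finset X)) (A : Finset X) (z : X) (R : Finset X) : ℕ :=
  (F.filter (fun Q => Q ∩ A = R ∧ z ∈ Q)).card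

/-- The trace classes on `A` cut by `z`. -/
noncomputable def sampleT (F : Finset (Finset X)) (A : Finset X) (z : X) : ℕ :=
  ∑ R ∈ restrS F A, min (m0S F A z R) (m1S F A z R)

theorem sampleT_le (F : Finset (Finset X)) (A : Finset X) (z : X) (hz : z ∉ A) :
    sampleT F A z ≤ ∑ R ∈ (restrS F (insert z A)).filter (fun R => z ∉ R),
      min (multS F (insert z A) R) (multS F (insert z A) (insert z R)) := by
  have hRA : ∀ R ∈ restrS F A, R ⊆ A := by
    intro R hR
    obtain ⟨Q, _, rfl⟩ := Finset.mem_image.mp hR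
    exact Finset.inter_subset_right
  have h0 : ∀ R ∈ restrS F A, m0S F A z R = multS F (insert z A) R := by
    intro R hR
    unfold m0S multS
    congr 1
    apply Finset.filter_congr
    intro Q _
    constructor
    · rintro ⟨h1, h2⟩
      rw [Finset.inter_insert_of_notMem h2]
      exact h1
    · intro h1
      have hzQ : z ∉ Q := by
        intro hzQ
        have h2 : z ∈ Q ∩ insert z A := Finset.mem_inter.mpr ⟨hzQ, Finset.mem_insert_self _ _⟩
        rw [h1] at h2
        exact hz (hRA R hR h2)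
      rw [Finset.inter_insert_of_notMem hzQ] at h1
      exact ⟨h1, hzQ⟩
  have h1 : ∀ R ∈ restrS F A, m1S F A z R = multS F (insert z A) (insert z R) := by
    intro R hR
    unfold m1S multS
    congr 1
    apply Finset.filter_congr
    intro Q _
    constructor
    · rintro ⟨h1, h2⟩
      rw [Finset.inter_insert_of_mem h2, h1]
    · intro h1
      have hzQ : z ∈ Q := by
        have h2 : z ∈ Q ∩ insert z A := by
          rw [h1]
          exact Finset.mem_insert_self _ _
        exact (Finset.mem_inter.mp h2).1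
      refine ⟨?_, hzQ⟩
      rw [Finset.inter_insert_of_mem hzQ] at h1
      have h3 : z ∉ Q ∩ A := fun h => hz (Finset.mem_inter.mp h).2
      have h4 : z ∉ R := fun h => hz (hRA R hR h)
      calc Q ∩ A = (insert z (Q ∩ A)).erase z := (Finset.erase_insert h3).symm
        _ = (insert z R).erase z := by rw [h1]
        _ = R := Finset.erase_insert h4
  have e : sampleT F A z = ∑ R ∈ restrS F A,
      min (multS F (insert z A) R) (multS F (insert z A) (insert z R)) := by
    unfold sampleT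
    apply Finset.sum_congr rfl
    intro R hR
    rw [h0 R hR, h1 R hR]
  rw [e]
  apply Finset.sum_le_sum_of_ne_zero
  intro R hR hne
  have h2 : 0 < multS F (insert z A) R := by
    rcases Nat.eq_zero_or_pos (multS F (insert z A) R) with h | h
    · rw [h] at hne
      simp at hne
    · exact h
  exact Finset.mem_filter.mpr ⟨mem_restrS_of_pos h2, fun h => hz (hRA R hR h)⟩

theorem sum_weighted_ud (F : Finset (Finset X)) (A : Finset X) (d : ℕ)
    (hVC : ∀ I, F.Shatters I → I.card ≤ d) :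
    ∑ z ∈ A, ∑ R ∈ (restrS F A).filter (fun R => z ∉ R),
      min (multS F A R) (multS F A (insert z R)) ≤ d * F.card := by
  refine le_trans (le_of_eq ?_) (weighted_ud F A d hVC)
  rw [Finset.sum_filter, Finset.sum_product_right]
  apply Finset.sum_congr rfl
  intro z _
  rw [Finset.sum_filter]

/-- The lower bound for one trace class. -/
theorem class_bound (F : Finset (Finset X)) (X₀ : Finset X) (δ : ℕ) (A R : Finset X)
    (hsub : ∀ Q ∈ F, Q ⊆ X₀)
    (hsep : ∀ Q₁ ∈ F, ∀ Q₂ ∈ F, Q₁ ≠ Q₂ → δ ≤ (Q₂ \ Q₁).card + (Q₁ \ Q₂).card)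
    (hR : R ∈ restrS F A) :
    (multS F A R - 1) * δ ≤ 2 * ∑ z ∈ X₀ \ A, min (m0S F A z R) (m1S F A z R) := by
  set C := F.filter (fun Q => Q ∩ A = R) with hC
  set m := multS F A R with hm
  have hmC : m = C.card := rfl
  have hmpos : 0 < m := multS_pos_of_mem hR
  have hCF : ∀ Q ∈ C, Q ∈ F ∧ Q ∩ A = R := fun Q hQ => Finset.mem_filter.mp hQ
  have hm0 : ∀ z, m0S F A z R = (C.filter (fun Q => z ∉ Q)).card := by
    intro z
    unfold m0S
    rw [hC, Finset.filter_filter]
  have hm1 : ∀ z, m1S F A z R = (C.filter (fun Q => z ∈ Q)).card := by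
    intro z
    unfold m1S
    rw [hC, Finset.filter_filter]
  have hadd : ∀ z, m0S F A z R + m1S F A z R = m := by
    intro z
    rw [hm0, hm1, hmC, ← Finset.card_filter_add_card_filter_not (s := C) (fun Q => z ∉ Q)]
    simp only [not_not]
  have ha : ∀ z, m0S F A z R * m1S F A z R ≤ min (m0S F A z R) (m1S F A z R) * m := by
    intro z
    rw [← hadd z]
    rcases le_total (m0S F A z R) (m1S F A z R) with h | h
    · rw [min_eq_left h]
      exact Nat.mul_le_mul_left _ (by omega)
    · rw [min_eq_right h, mul_comm]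
      exact Nat.mul_le_mul_left _ (by omega)
  have hb : ∀ z, m0S F A z R * m1S F A z R =
      ((C ×ˢ C).filter (fun p => z ∉ p.1 ∧ z ∈ p.2)).card := by
    intro z
    have e : (C ×ˢ C).filter (fun p => z ∉ p.1 ∧ z ∈ p.2) =
        C.filter (fun Q => z ∉ Q) ×ˢ C.filter (fun Q => z ∈ Q) := by
      ext p
      simp only [Finset.mem_filter, Finset.mem_product]
      tauto
    rw [e, Finset.card_product, hm0, hm1]
  have hc : ∑ z ∈ X₀ \ A, m0S F A z R * m1S F A z R = ∑ p ∈ C ×ˢ C, (p.2 \ p.1).card := by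
    simp only [hb]
    refine (sum_card_filter_swap (X₀ \ A) (C ×ˢ C) (fun z p => z ∉ p.1 ∧ z ∈ p.2) _
      (fun p z => inferInstance)).trans ?_
    apply Finset.sum_congr rfl
    intro p hp
    obtain ⟨hp1, hp2⟩ := Finset.mem_product.mp hp
    congr 1
    ext z
    simp only [Finset.mem_filter, Finset.mem_sdiff]
    constructor
    · rintro ⟨_, h1, h2⟩
      exact ⟨h2, h1⟩
    · rintro ⟨h1, h2⟩
      refine ⟨⟨hsub _ (hCF _ hp2).1 h1, fun hzA => h2 ?_⟩, h2, h1⟩
      have h3 : z ∈ p.2 ∩ A := Finset.mem_inter.mpr ⟨h1, hzA⟩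
      rw [(hCF _ hp2).2, ← (hCF _ hp1).2] at h3
      exact (Finset.mem_inter.mp h3).1
  have hd : ∑ p ∈ C ×ˢ C, (p.1 \ p.2).card = ∑ p ∈ C ×ˢ C, (p.2 \ p.1).card := by
    rw [Finset.sum_product, Finset.sum_product, Finset.sum_comm]
  have he : C.offDiag.card * δ ≤ ∑ p ∈ C ×ˢ C, ((p.2 \ p.1).card + (p.1 \ p.2).card) := by
    have h1 : ∑ p ∈ C.offDiag, ((p.2 \ p.1).card + (p.1 \ p.2).card) ≤
        ∑ p ∈ C ×ˢ C, ((p.2 \ p.1).card + (p.1 \ p.2).card) :=
      Finset.sum_le_sum_of_subset (fun p hp =>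
        Finset.mem_product.mpr ⟨(Finset.mem_offDiag.mp hp).1, (Finset.mem_offDiag.mp hp).2.1⟩)
    have h2 : C.offDiag.card • δ ≤ ∑ p ∈ C.offDiag, ((p.2 \ p.1).card + (p.1 \ p.2).card) := by
      apply Finset.card_nsmul_le_sum
      intro p hp
      obtain ⟨hp1, hp2, hp3⟩ := Finset.mem_offDiag.mp hp
      exact hsep _ (hCF _ hp1).1 _ (hCF _ hp2).1 hp3
    rw [smul_eq_mul] at h2
    exact le_trans h2 h1
  have hoff : C.offDiag.card = m * (m - 1) := by
    rw [Finset.offDiag_card, ← hmC, Nat.mul_sub, mul_one]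
  rw [hoff, Finset.sum_add_distrib, hd] at he
  have hfinal : m * ((m - 1) * δ) ≤ m * (2 * ∑ z ∈ X₀ \ A, min (m0S F A z R) (m1S F A z R)) := by
    calc m * ((m - 1) * δ) = m * (m - 1) * δ := by ring
      _ ≤ ∑ p ∈ C ×ˢ C, (p.2 \ p.1).card + ∑ p ∈ C ×ˢ C, (p.2 \ p.1).card := he
      _ = 2 * ∑ z ∈ X₀ \ A, m0S F A z R * m1S F A z R := by rw [hc]; ring
      _ ≤ 2 * ∑ z ∈ X₀ \ A, min (m0S F A z R) (m1S F A z R) * m :=
          Nat.mul_le_mul_left _ (Finset.sum_le_sum fun z _ => ha z)
      _ = _ := by rw [← Finset.sum_mul]; ring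
  exact Nat.le_of_mul_le_mul_left hfinal hmpos

/-- The lower bound for one sample. -/
theorem sample_lower (F : Finset (Finset X)) (X₀ : Finset X) (δ : ℕ) (A : Finset X)
    (hsub : ∀ Q ∈ F, Q ⊆ X₀)
    (hsep : ∀ Q₁ ∈ F, ∀ Q₂ ∈ F, Q₁ ≠ Q₂ → δ ≤ (Q₂ \ Q₁).card + (Q₁ \ Q₂).card) :
    (F.card - (restrS F A).card) * δ ≤ 2 * ∑ z ∈ X₀ \ A, sampleT F A z := by
  have h1 : ∑ R ∈ restrS F A, (multS F A R - 1) = F.card - (restrS F A).card := by
    have h2 : ∑ R ∈ restrS F A, ((multS F A R - 1) + 1) = F.card := by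
      rw [← sum_multS F A]
      apply Finset.sum_congr rfl
      intro R hR
      have := multS_pos_of_mem hR
      omega
    rw [Finset.sum_add_distrib, Finset.sum_const, smul_eq_mul, mul_one] at h2
    omega
  rw [← h1, Finset.sum_mul]
  unfold sampleT
  rw [Finset.sum_comm, Finset.mul_sum]
  exact Finset.sum_le_sum fun R hR => class_bound F X₀ δ A R hsub hsep hR

theorem sum_swap_samples (T : Finset X → X → ℕ) (X₀ : Finset X) (s : ℕ) :
    ∑ A ∈ X₀.powersetCard s, ∑ z ∈ X₀ \ A, T A z =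
      ∑ B ∈ X₀.powersetCard (s + 1), ∑ z ∈ B, T (B.erase z) z := by
  rw [Finset.sum_sigma', Finset.sum_sigma']
  refine Finset.sum_bij' (fun p _ => ⟨insert p.2 p.1, p.2⟩) (fun p _ => ⟨p.1.erase p.2, p.2⟩)
    ?_ ?_ ?_ ?_ ?_
  · rintro ⟨A, z⟩ hp
    obtain ⟨h1, h2⟩ := Finset.mem_sigma.mp hp
    obtain ⟨h3, h4⟩ := Finset.mem_powersetCard.mp h1
    obtain ⟨h5, h6⟩ := Finset.mem_sdiff.mp h2
    simp only at h3 h4 h5 h6
    refine Finset.mem_sigma.mpr ⟨Finset.mem_powersetCard.mpr ⟨?_, ?_⟩, Finset.mem_insert_self _ _⟩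
    · exact Finset.insert_subset h5 h3
    · simp only
      rw [Finset.card_insert_of_notMem h6, h4]
  · rintro ⟨B, z⟩ hp
    obtain ⟨h1, h2⟩ := Finset.mem_sigma.mp hp
    obtain ⟨h3, h4⟩ := Finset.mem_powersetCard.mp h1
    simp only at h2 h3 h4
    refine Finset.mem_sigma.mpr ⟨Finset.mem_powersetCard.mpr ⟨?_, ?_⟩, ?_⟩
    · exact (Finset.erase_subset _ _).trans h3
    · simp only
      rw [Finset.card_erase_of_mem h2, h4]
      rfl
    · exact Finset.mem_sdiff.mpr ⟨h3 h2, fun h => (Finset.mem_erase.mp h).1 rfl⟩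
  · rintro ⟨A, z⟩ hp
    obtain ⟨_, h2⟩ := Finset.mem_sigma.mp hp
    have h6 := (Finset.mem_sdiff.mp h2).2
    simp only at h6
    simp only [Finset.erase_insert h6]
  · rintro ⟨B, z⟩ hp
    obtain ⟨_, h2⟩ := Finset.mem_sigma.mp hp
    simp only at h2
    simp only [Finset.insert_erase h2]
  · rintro ⟨A, z⟩ hp
    obtain ⟨_, h2⟩ := Finset.mem_sigma.mp hp
    have h6 := (Finset.mem_sdiff.mp h2).2
    simp only at h6
    simp only [Finset.erase_insert h6]

/-- **Haussler's packing lemma**, inequality form. -/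
theorem haussler_main (F : Finset (Finset X)) (X₀ : Finset X) (D δ s : ℕ)
    (hsub : ∀ Q ∈ F, Q ⊆ X₀) (hVC : ∀ I, F.Shatters I → I.card ≤ D)
    (hsep : ∀ Q₁ ∈ F, ∀ Q₂ ∈ F, Q₁ ≠ Q₂ → δ ≤ (Q₂ \ Q₁).card + (Q₁ \ Q₂).card)
    (hs : s ≤ X₀.card) :
    (s + 1) * ((F.card - (s + 1) ^ D) * δ) ≤ 2 * X₀.card * D * F.card := by
  set N := X₀.card with hN
  have hlow : ∀ A ∈ X₀.powersetCard s, (F.card - (s + 1) ^ D) * δ ≤
      2 * ∑ z ∈ X₀ \ A, sampleT F A z := by
    intro A hA
    have hAc := (Finset.mem_powersetCard.mp hA).2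
    have h1 := restrict_card F A D hVC
    rw [hAc] at h1
    refine le_trans (Nat.mul_le_mul_right _ ?_) (sample_lower F X₀ δ A hsub hsep)
    omega
  have hsum1 : N.choose s * ((F.card - (s + 1) ^ D) * δ) ≤
      2 * ∑ A ∈ X₀.powersetCard s, ∑ z ∈ X₀ \ A, sampleT F A z := by
    have h1 := Finset.card_nsmul_le_sum _ _ _ hlow
    rw [Finset.card_powersetCard, smul_eq_mul, ← Finset.mul_sum] at h1
    exact h1
  have hup : ∀ B ∈ X₀.powersetCard (s + 1), ∑ z ∈ B, sampleT F (B.erase z) z ≤ D * F.card := by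
    intro B _
    refine le_trans (Finset.sum_le_sum fun z hz => ?_) (sum_weighted_ud F B D hVC)
    have h1 := sampleT_le F (B.erase z) z (fun h => (Finset.mem_erase.mp h).1 rfl)
    rw [Finset.insert_erase hz] at h1
    exact h1
  have hsum2 : ∑ B ∈ X₀.powersetCard (s + 1), ∑ z ∈ B, sampleT F (B.erase z) z ≤
      N.choose (s + 1) * (D * F.card) := by
    have h1 := Finset.sum_le_card_nsmul _ _ _ hup
    rw [Finset.card_powersetCard, smul_eq_mul] at h1
    exact h1
  rw [sum_swap_samples] at hsum1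
  have hpos : 0 < N.choose s := Nat.choose_pos hs
  have hch : N.choose (s + 1) * (s + 1) = N.choose s * (N - s) := Nat.choose_succ_right_eq N s
  have hfinal : N.choose s * ((s + 1) * ((F.card - (s + 1) ^ D) * δ)) ≤
      N.choose s * (2 * N * D * F.card) := by
    calc N.choose s * ((s + 1) * ((F.card - (s + 1) ^ D) * δ))
        = (s + 1) * (N.choose s * ((F.card - (s + 1) ^ D) * δ)) := by ring
      _ ≤ (s + 1) * (2 * (N.choose (s + 1) * (D * F.card))) :=
          Nat.mul_le_mul_left _ (le_trans hsum1 (Nat.mul_le_mul_left _ hsum2))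
      _ = 2 * (N.choose (s + 1) * (s + 1)) * (D * F.card) := by ring
      _ = 2 * (N.choose s * (N - s)) * (D * F.card) := by rw [hch]
      _ = N.choose s * (2 * (N - s) * D * F.card) := by ring
      _ ≤ _ := by
          apply Nat.mul_le_mul_left
          apply Nat.mul_le_mul_right
          apply Nat.mul_le_mul_right
          exact Nat.mul_le_mul_left _ (Nat.sub_le _ _)
  exact Nat.le_of_mul_le_mul_left hfinal hpos

/-- **Haussler's packing lemma.** -/
theorem haussler_pack (F : Finset (Finset X)) (X₀ : Finset X) (D δ s : ℕ)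
    (hsub : ∀ Q ∈ F, Q ⊆ X₀) (hVC : ∀ I, F.Shatters I → I.card ≤ D)
    (hsep : ∀ Q₁ ∈ F, ∀ Q₂ ∈ F, Q₁ ≠ Q₂ → δ ≤ (Q₂ \ Q₁).card + (Q₁ \ Q₂).card)
    (hN : 0 < X₀.card) (hD : 0 < D) (hbig : 4 * X₀.card * D ≤ (s + 1) * δ) :
    F.card ≤ 2 * (s + 1) ^ D := by
  rcases Nat.lt_or_ge X₀.card s with hs | hs
  · -- the whole ground set is already a small sample
    have h1 := restrict_card F X₀ D hVC
    have h2 : (restrS F X₀).card = F.card := by
      unfold restrS
      rw [Finset.card_image_of_injOn]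
      intro Q hQ Q' hQ' h
      have h3 : Q ∩ X₀ = Q' ∩ X₀ := h
      rw [Finset.inter_eq_left.mpr (hsub Q (Finset.mem_coe.mp hQ)),
        Finset.inter_eq_left.mpr (hsub Q' (Finset.mem_coe.mp hQ'))] at h3
      exact h3
    rw [h2] at h1
    have h3 : (X₀.card + 1) ^ D ≤ (s + 1) ^ D := Nat.pow_le_pow_left (by omega) _
    omega
  · have h1 := haussler_main F X₀ D δ s hsub hVC hsep hs
    set P := (s + 1) ^ D with hP
    set G := F.card - P with hG
    set N := X₀.card with hNdef
    have h2 : (4 * N * D) * G ≤ 2 * N * D * F.card := by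
      calc (4 * N * D) * G ≤ ((s + 1) * δ) * G := Nat.mul_le_mul_right _ hbig
        _ = (s + 1) * (G * δ) := by ring
        _ ≤ _ := h1
    have hND : 0 < 2 * N * D := by positivity
    have h3 : (2 * N * D) * (2 * G) ≤ (2 * N * D) * F.card := by
      calc (2 * N * D) * (2 * G) = (4 * N * D) * G := by ring
        _ ≤ _ := h2
    have h4 := Nat.le_of_mul_le_mul_left h3 hND
    omega

end Vale.Agent.Lib.P054
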