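import Vale.Agent.Lib.P041.Grid

/-!
A crossing lemma for two-layer drawings: `N` edges between two ordered vertex classes with `v`
vertices in all have at least `N ^ 3 / (32 v ^ 2)` crossings, once `N ≥ 2 v`.  A crossing-free
two-layer drawing is a chain in a product order, and sampling amplifies this.
-/

open Finset

open scoped Classical

namespace Vale.Agent.Lib.P054

open Vale.Agent.Lib.P041

variable {ι : Type*}

/-- Ordered pairs of edges that cross: `c` is lower than `c'` in the first layer and higher in the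
second. -/
noncomputable def crossPairs (f g : ι → ℝ) (C : Finset ι) : Finset (ι × ι) :=
  (C ×ˢ C).filter (fun z => f z.1 < f z.2 ∧ g z.2 < g z.1)

theorem chain_bound (f g : ι → ℝ) (C : Finset ι) (R S : Finset ℝ)
    (hR : ∀ c ∈ C, f c ∈ R) (hS : ∀ c ∈ C, g c ∈ S)
    (hinj : ∀ c ∈ C, ∀ c' ∈ C, f c = f c' → g c = g c' → c = c') :
    C.card ≤ R.card + S.card + (crossPairs f g C).card := by
  set B := C.filter (fun c => ∃ c' ∈ C, f c < f c' ∧ g c' < g c) with hB
  have hBcard : B.card ≤ (crossPairs f g C).card := by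
    have hsub : B ⊆ (crossPairs f g C).image Prod.fst := by
      intro c hc
      obtain ⟨hcC, c', hc', h1, h2⟩ := Finset.mem_filter.mp hc
      exact Finset.mem_image.mpr ⟨(c, c'), Finset.mem_filter.mpr
        ⟨Finset.mem_product.mpr ⟨hcC, hc'⟩, h1, h2⟩, rfl⟩
    exact le_trans (Finset.card_le_card hsub) Finset.card_image_le
  set D := C \ B with hD
  let rk : ι → ℕ := fun c =>
    (R.filter (fun z => z < f c)).card + (S.filter (fun z => z < g c)).card
  have hDC : ∀ c ∈ D, c ∈ C := fun c hc => (Finset.mem_sdiff.mp hc).1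
  have hlt : ∀ c ∈ D, ∀ c' ∈ D, f c < f c' → rk c < rk c' := by
    intro c hc c' hc' h
    have hnot : ¬ (g c' < g c) := by
      intro h2
      exact (Finset.mem_sdiff.mp hc).2
        (Finset.mem_filter.mpr ⟨hDC c hc, c', hDC c' hc', h, h2⟩)
    have h1 := rank_strict R (hR c (hDC c hc)) h
    have h2 := rank_mono S (not_lt.mp hnot)
    simp only [rk]
    omega
  have hrkinj : Set.InjOn rk (D : Set ι) := by
    intro c hc c' hc' hEq
    have hc1 : c ∈ D := Finset.mem_coe.mp hc
    have hc2 : c' ∈ D := Finset.mem_coe.mp hc'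
    rcases lt_trichotomy (f c) (f c') with h | h | h
    · have := hlt c hc1 c' hc2 h
      omega
    · apply hinj c (hDC c hc1) c' (hDC c' hc2) h
      rcases lt_trichotomy (g c) (g c') with h3 | h3 | h3
      · have h1 := rank_strict S (hS c (hDC c hc1)) h3
        simp only [rk] at hEq
        rw [h] at hEq
        omega
      · exact h3
      · have h1 := rank_strict S (hS c' (hDC c' hc2)) h3
        simp only [rk] at hEq
        rw [h] at hEq
        omega
    · have := hlt c' hc2 c hc1 h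
      omega
  have hrkmaps : ∀ c ∈ D, rk c ∈ Finset.range (R.card + S.card) := by
    intro c hc
    have h1 := rank_lt_card R (hR c (hDC c hc))
    have h2 := rank_lt_card S (hS c (hDC c hc))
    simp only [rk, Finset.mem_range]
    omega
  have hDcard : D.card ≤ R.card + S.card := by
    have := Finset.card_le_card_of_injOn rk hrkmaps hrkinj
    simpa using this
  have hsplit : C.card = D.card + B.card :=
    (Finset.card_sdiff_add_card_eq_card (Finset.filter_subset _ _)).symm
  omega

/-- Number of pairs of subsets containing prescribed subsets. -/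
theorem count_omega (R S T₁ T₂ : Finset ℝ) (h₁ : T₁ ⊆ R) (h₂ : T₂ ⊆ S) :
    ((R.powerset ×ˢ S.powerset).filter (fun ω => T₁ ⊆ ω.1 ∧ T₂ ⊆ ω.2)).card *
      (2 ^ T₁.card * 2 ^ T₂.card) = 2 ^ R.card * 2 ^ S.card := by
  have e : (R.powerset ×ˢ S.powerset).filter (fun ω => T₁ ⊆ ω.1 ∧ T₂ ⊆ ω.2) =
      (Finset.Icc T₁ R) ×ˢ (Finset.Icc T₂ S) := by
    ext ⟨A, B⟩
    simp only [Finset.mem_filter, Finset.mem_product, Finset.mem_powerset, Finset.mem_Icc]
    tauto
  rw [e, Finset.card_product, Finset.card_Icc_finset h₁, Finset.card_Icc_finset h₂]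
  have h3 := Finset.card_le_card h₁
  have h4 := Finset.card_le_card h₂
  calc 2 ^ (R.card - T₁.card) * 2 ^ (S.card - T₂.card) * (2 ^ T₁.card * 2 ^ T₂.card)
      = (2 ^ (R.card - T₁.card) * 2 ^ T₁.card) * (2 ^ (S.card - T₂.card) * 2 ^ T₂.card) := by ring
    _ = 2 ^ R.card * 2 ^ S.card := by
        rw [← pow_add, ← pow_add, Nat.sub_add_cancel h3, Nat.sub_add_cancel h4]

theorem sum_card_filter_comm {α β : Type*} (s : Finset α) (t : Finset β) (r : α → β → Prop)
    (d1 : ∀ a, DecidablePred (r a)) (d2 : ∀ b, DecidablePred (fun a => r a b)) :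
    ∑ a ∈ s, (@Finset.filter _ (r a) (d1 a) t).card =
      ∑ b ∈ t, (@Finset.filter _ (fun a => r a b) (d2 b) s).card := by
  simp only [Finset.card_filter]
  rw [Finset.sum_comm]
  apply Finset.sum_congr rfl
  intro b _
  apply Finset.sum_congr rfl
  intro a _
  congr

theorem card_eq_filter_mem (R A : Finset ℝ) (h : A ⊆ R) : A.card = (R.filter (fun u => u ∈ A)).card := by
  congr 1
  ext u
  simp only [Finset.mem_filter]
  exact ⟨fun hu => ⟨h hu, hu⟩, fun hu => hu.2⟩

/-- One doubling step of the sampling argument. -/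
theorem layer_bound (f g : ι → ℝ) (j : ℕ) : ∀ (C : Finset ι) (R S : Finset ℝ),
    (∀ c ∈ C, f c ∈ R) → (∀ c ∈ C, g c ∈ S) →
    (∀ c ∈ C, ∀ c' ∈ C, f c = f c' → g c = g c' → c = c') →
    4 ^ j * C.card ≤ 8 ^ j * (R.card + S.card) + (crossPairs f g C).card := by
  induction j with
  | zero =>
    intro C R S hR hS hinj
    simpa using chain_bound f g C R S hR hS hinj
  | succ j ih =>
    intro C R S hR hS hinj
    set Ω := R.powerset ×ˢ S.powerset with hΩ
    set W := 2 ^ R.card * 2 ^ S.card with hW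
    have hWpos : 0 < W := by positivity
    let D : Finset ℝ × Finset ℝ → Finset ι := fun ω => C.filter (fun c => f c ∈ ω.1 ∧ g c ∈ ω.2)
    have hstep : ∀ ω ∈ Ω, 4 ^ j * (D ω).card ≤
        8 ^ j * (ω.1.card + ω.2.card) + (crossPairs f g (D ω)).card := by
      intro ω _
      apply ih (D ω) ω.1 ω.2
      · intro c hc
        exact (Finset.mem_filter.mp hc).2.1
      · intro c hc
        exact (Finset.mem_filter.mp hc).2.2
      · intro c hc c' hc'
        exact hinj c (Finset.mem_filter.mp hc).1 c' (Finset.mem_filter.mp hc').1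
    have hsum : 4 ^ j * ∑ ω ∈ Ω, (D ω).card ≤
        8 ^ j * ∑ ω ∈ Ω, (ω.1.card + ω.2.card) + ∑ ω ∈ Ω, (crossPairs f g (D ω)).card := by
      rw [Finset.mul_sum, Finset.mul_sum, ← Finset.sum_add_distrib]
      exact Finset.sum_le_sum hstep
    -- first moment of edges
    have hA : 4 * ∑ ω ∈ Ω, (D ω).card = W * C.card := by
      have e : ∑ ω ∈ Ω, (D ω).card =
          ∑ c ∈ C, (Ω.filter (fun ω => f c ∈ ω.1 ∧ g c ∈ ω.2)).card :=
        sum_card_filter_comm Ω C (fun ω c => f c ∈ ω.1 ∧ g c ∈ ω.2) _ _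
      rw [e, Finset.mul_sum]
      have hc : ∀ c ∈ C, 4 * (Ω.filter (fun ω => f c ∈ ω.1 ∧ g c ∈ ω.2)).card = W := by
        intro c hc
        have h := count_omega R S {f c} {g c} (Finset.singleton_subset_iff.mpr (hR c hc))
          (Finset.singleton_subset_iff.mpr (hS c hc))
        simp only [Finset.singleton_subset_iff, Finset.card_singleton] at h
        rw [hW, ← h, hΩ]
        ring
      rw [Finset.sum_congr rfl hc]
      simp [mul_comm]
    -- first moment of vertices
    have hB1 : 2 * ∑ ω ∈ Ω, ω.1.card = W * R.card := by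
      have e : ∑ ω ∈ Ω, ω.1.card = ∑ u ∈ R, (Ω.filter (fun ω => u ∈ ω.1)).card := by
        have h1 : ∀ ω ∈ Ω, ω.1.card = (R.filter (fun u => u ∈ ω.1)).card := by
          intro ω hω
          exact card_eq_filter_mem R ω.1
            (Finset.mem_powerset.mp (Finset.mem_product.mp hω).1)
        rw [Finset.sum_congr rfl h1]
        exact sum_card_filter_comm Ω R (fun ω u => u ∈ ω.1) _ _
      rw [e, Finset.mul_sum]
      have hc : ∀ u ∈ R, 2 * (Ω.filter (fun ω => u ∈ ω.1)).card = W := by
        intro u hu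
        have h := count_omega R S {u} ∅ (Finset.singleton_subset_iff.mpr hu)
          (Finset.empty_subset _)
        simp only [Finset.singleton_subset_iff, Finset.card_singleton, Finset.empty_subset,
          and_true, Finset.card_empty, pow_zero, mul_one] at h
        rw [hW, ← h, hΩ]
        ring
      rw [Finset.sum_congr rfl hc]
      simp [mul_comm]
    have hB2 : 2 * ∑ ω ∈ Ω, ω.2.card = W * S.card := by
      have e : ∑ ω ∈ Ω, ω.2.card = ∑ u ∈ S, (Ω.filter (fun ω => u ∈ ω.2)).card := by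
        have h1 : ∀ ω ∈ Ω, ω.2.card = (S.filter (fun u => u ∈ ω.2)).card := by
          intro ω hω
          exact card_eq_filter_mem S ω.2
            (Finset.mem_powerset.mp (Finset.mem_product.mp hω).2)
        rw [Finset.sum_congr rfl h1]
        exact sum_card_filter_comm Ω S (fun ω u => u ∈ ω.2) _ _
      rw [e, Finset.mul_sum]
      have hc : ∀ u ∈ S, 2 * (Ω.filter (fun ω => u ∈ ω.2)).card = W := by
        intro u hu
        have h := count_omega R S ∅ {u} (Finset.empty_subset _)
          (Finset.singleton_subset_iff.mpr hu)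
        simp only [Finset.singleton_subset_iff, Finset.card_singleton, Finset.empty_subset,
          true_and, Finset.card_empty, pow_zero, one_mul] at h
        rw [hW, ← h, hΩ]
        ring
      rw [Finset.sum_congr rfl hc]
      simp [mul_comm]
    -- second moment of crossings
    have hC : 16 * ∑ ω ∈ Ω, (crossPairs f g (D ω)).card = W * (crossPairs f g C).card := by
      have e1 : ∀ ω, crossPairs f g (D ω) = (crossPairs f g C).filter (fun z =>
          (f z.1 ∈ ω.1 ∧ f z.2 ∈ ω.1) ∧ (g z.1 ∈ ω.2 ∧ g z.2 ∈ ω.2)) := by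
        intro ω
        ext z
        simp only [crossPairs, D, Finset.mem_filter, Finset.mem_product]
        tauto
      have e : ∑ ω ∈ Ω, (crossPairs f g (D ω)).card = ∑ z ∈ crossPairs f g C,
          (Ω.filter (fun ω => (f z.1 ∈ ω.1 ∧ f z.2 ∈ ω.1) ∧ (g z.1 ∈ ω.2 ∧ g z.2 ∈ ω.2))).card := by
        have h1 : ∀ ω ∈ Ω, (crossPairs f g (D ω)).card = ((crossPairs f g C).filter (fun z =>
            (f z.1 ∈ ω.1 ∧ f z.2 ∈ ω.1) ∧ (g z.1 ∈ ω.2 ∧ g z.2 ∈ ω.2))).card := by
          intro ω _
          rw [e1]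
        rw [Finset.sum_congr rfl h1]
        exact sum_card_filter_comm Ω (crossPairs f g C)
          (fun ω z => (f z.1 ∈ ω.1 ∧ f z.2 ∈ ω.1) ∧ (g z.1 ∈ ω.2 ∧ g z.2 ∈ ω.2)) _ _
      rw [e, Finset.mul_sum]
      have hc : ∀ z ∈ crossPairs f g C,
          16 * (Ω.filter (fun ω => (f z.1 ∈ ω.1 ∧ f z.2 ∈ ω.1) ∧ (g z.1 ∈ ω.2 ∧ g z.2 ∈ ω.2))).card
            = W := by
        intro z hz
        obtain ⟨hz1, hz2, hz3⟩ := Finset.mem_filter.mp hz
        have hz1' := Finset.mem_product.mp hz1
        have hsub1 : ({f z.1, f z.2} : Finset ℝ) ⊆ R := by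
          intro u hu
          simp only [Finset.mem_insert, Finset.mem_singleton] at hu
          rcases hu with rfl | rfl
          · exact hR _ hz1'.1
          · exact hR _ hz1'.2
        have hsub2 : ({g z.1, g z.2} : Finset ℝ) ⊆ S := by
          intro u hu
          simp only [Finset.mem_insert, Finset.mem_singleton] at hu
          rcases hu with rfl | rfl
          · exact hS _ hz1'.1
          · exact hS _ hz1'.2
        have h := count_omega R S {f z.1, f z.2} {g z.1, g z.2} hsub1 hsub2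
        rw [Finset.card_pair (ne_of_lt hz2), Finset.card_pair (ne_of_gt hz3)] at h
        have e2 : ∀ ω : Finset ℝ × Finset ℝ,
            (({f z.1, f z.2} : Finset ℝ) ⊆ ω.1 ∧ ({g z.1, g z.2} : Finset ℝ) ⊆ ω.2) ↔
            ((f z.1 ∈ ω.1 ∧ f z.2 ∈ ω.1) ∧ (g z.1 ∈ ω.2 ∧ g z.2 ∈ ω.2)) := by
          intro ω
          simp only [Finset.insert_subset_iff, Finset.singleton_subset_iff]
        simp only [e2] at h
        rw [hW, ← h, hΩ]
        ring
      rw [Finset.sum_congr rfl hc]
      simp [mul_comm]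
    -- conclusion
    have hvert : 2 * ∑ ω ∈ Ω, (ω.1.card + ω.2.card) = W * (R.card + S.card) := by
      rw [Finset.sum_add_distrib, mul_add, hB1, hB2]
      ring
    have hfinal : W * (4 ^ (j + 1) * C.card) ≤
        W * (8 ^ (j + 1) * (R.card + S.card) + (crossPairs f g C).card) := by
      calc W * (4 ^ (j + 1) * C.card) = 4 ^ j * 4 * (W * C.card) := by ring
        _ = 4 ^ j * 4 * (4 * ∑ ω ∈ Ω, (D ω).card) := by rw [hA]
        _ = 16 * (4 ^ j * ∑ ω ∈ Ω, (D ω).card) := by ring
        _ ≤ 16 * (8 ^ j * ∑ ω ∈ Ω, (ω.1.card + ω.2.card) +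
              ∑ ω ∈ Ω, (crossPairs f g (D ω)).card) := Nat.mul_le_mul_left _ hsum
        _ = 8 ^ j * 8 * (2 * ∑ ω ∈ Ω, (ω.1.card + ω.2.card)) +
              16 * ∑ ω ∈ Ω, (crossPairs f g (D ω)).card := by ring
        _ = 8 ^ j * 8 * (W * (R.card + S.card)) + W * (crossPairs f g C).card := by
            rw [hvert, hC]
        _ = _ := by ring
    exact Nat.le_of_mul_le_mul_left hfinal hWpos

/-- **The two-layer crossing lemma.** -/
theorem crossing_lower (f g : ι → ℝ) (C : Finset ι) (R S : Finset ℝ)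
    (hR : ∀ c ∈ C, f c ∈ R) (hS : ∀ c ∈ C, g c ∈ S)
    (hinj : ∀ c ∈ C, ∀ c' ∈ C, f c = f c' → g c = g c' → c = c')
    (hv : 0 < R.card + S.card) (hbig : 2 * (R.card + S.card) ≤ C.card) :
    C.card ^ 3 ≤ 32 * (R.card + S.card) ^ 2 * (crossPairs f g C).card := by
  set v := R.card + S.card with hvdef
  set N := C.card with hN
  set q := N / (2 * v) with hq
  have h2v : 0 < 2 * v := by omega
  have hq1 : 1 ≤ q := (Nat.one_le_div_iff h2v).mpr hbig
  set j := Nat.log 2 q with hj
  set P := 2 ^ j with hP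
  have hP1 : P ≤ q := Nat.pow_log_le_self 2 (by omega)
  have hP2 : q < 2 * P := by
    have h := Nat.lt_pow_succ_log_self (b := 2) (by norm_num) q
    have e : 2 ^ (Nat.log 2 q).succ = 2 * P := by
      rw [hP, hj, pow_succ]
      ring
    rw [e] at h
    exact h
  have hlow : P * (2 * v) ≤ N :=
    le_trans (Nat.mul_le_mul_right _ hP1) (Nat.div_mul_le_self N (2 * v))
  have hhigh : N < 4 * P * v := by
    have h1 : N < (q + 1) * (2 * v) := by
      have := Nat.lt_div_mul_add (a := N) h2v
      calc N < N / (2 * v) * (2 * v) + 2 * v := this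
        _ = (q + 1) * (2 * v) := by rw [hq]; ring
    have h2 : (q + 1) * (2 * v) ≤ (2 * P) * (2 * v) := Nat.mul_le_mul_right _ (by omega)
    calc N < _ := h1
      _ ≤ (2 * P) * (2 * v) := h2
      _ = 4 * P * v := by ring
  have hlayer := layer_bound f g j C R S hR hS hinj
  have e4 : (4 : ℕ) ^ j = P ^ 2 := by
    rw [hP, ← pow_mul, mul_comm, pow_mul]
    norm_num
  have e8 : (8 : ℕ) ^ j = P ^ 3 := by
    rw [hP, ← pow_mul, mul_comm, pow_mul]
    norm_num
  rw [e4, e8, ← hvdef, ← hN] at hlayer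
  set cr := (crossPairs f g C).card with hcr
  have h5 : 2 * (P ^ 3 * v) ≤ P ^ 2 * N := by
    calc 2 * (P ^ 3 * v) = P ^ 2 * (P * (2 * v)) := by ring
      _ ≤ P ^ 2 * N := Nat.mul_le_mul_left _ hlow
  have h6 : P ^ 2 * N ≤ 2 * cr := by omega
  have h7 : N ^ 2 ≤ (4 * P * v) ^ 2 := Nat.pow_le_pow_left (le_of_lt hhigh) 2
  calc N ^ 3 = N ^ 2 * N := by ring
    _ ≤ (4 * P * v) ^ 2 * N := Nat.mul_le_mul_right _ h7
    _ = 16 * v ^ 2 * (P ^ 2 * N) := by ring
    _ ≤ 16 * v ^ 2 * (2 * cr) := Nat.mul_le_mul_left _ h6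
    _ = 32 * v ^ 2 * cr := by ring

end Vale.Agent.Lib.P054
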