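import Vale.Agent.Lib.P054.Layer

/-!
The two-layer crossing lemma with bounded edge multiplicity: `N` edges between two ordered vertex
classes with `v` vertices in all, at most `K = 2 ^ i` edges in each cell, have at least
`N ^ 3 / (32 K v ^ 2)` crossings once `N ≥ 2 K v`.
-/

open Finset

open scoped Classical

namespace Vale.Agent.Lib.P054

variable {ι : Type*}

/-- Number of subsets containing `T` and avoiding `F`. -/
theorem count_TF {β : Type*} (M T F : Finset β) (hT : T ⊆ M) (hF : F ⊆ M) (hd : Disjoint T F) :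
    (M.powerset.filter (fun Z => T ⊆ Z ∧ Disjoint Z F)).card * (2 ^ T.card * 2 ^ F.card)
      = 2 ^ M.card := by
  have e : M.powerset.filter (fun Z => T ⊆ Z ∧ Disjoint Z F) = Finset.Icc T (M \ F) := by
    ext Z
    simp only [Finset.mem_filter, Finset.mem_powerset, Finset.mem_Icc]
    constructor
    · rintro ⟨h1, h2, h3⟩
      refine ⟨h2, fun x hx => Finset.mem_sdiff.mpr ⟨h1 hx, fun hxF => ?_⟩⟩
      exact (Finset.disjoint_left.mp h3) hx hxF
    · rintro ⟨h1, h2⟩
      refine ⟨fun x hx => (Finset.mem_sdiff.mp (h2 hx)).1, h1, ?_⟩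
      rw [Finset.disjoint_left]
      intro x hx hxF
      exact (Finset.mem_sdiff.mp (h2 hx)).2 hxF
  have hsub : T ⊆ M \ F := by
    intro x hx
    exact Finset.mem_sdiff.mpr ⟨hT hx, fun hxF => (Finset.disjoint_left.mp hd) hx hxF⟩
  rw [e, Finset.card_Icc_finset hsub, Finset.card_sdiff_of_subset hF]
  have h1 := Finset.card_le_card hsub
  rw [Finset.card_sdiff_of_subset hF] at h1
  have h2 := Finset.card_le_card hF
  rw [← pow_add, ← pow_add]
  congr 1
  omega

/-- A prescribed value at one element. -/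
theorem count_one {β : Type*} (M : Finset β) (a : β) (ha : a ∈ M) (p : Prop)
    [DecidablePred (fun Z : Finset β => a ∈ Z ↔ p)] :
    2 * (M.powerset.filter (fun Z => a ∈ Z ↔ p)).card = 2 ^ M.card := by
  by_cases hp : p
  · have h := count_TF M {a} ∅ (Finset.singleton_subset_iff.mpr ha) (Finset.empty_subset _)
      (Finset.disjoint_empty_right _)
    simp only [Finset.singleton_subset_iff, Finset.disjoint_empty_right, and_true,
      Finset.card_singleton, Finset.card_empty, pow_zero, pow_one, mul_one] at h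
    rw [← h, mul_comm]
    congr 2
    ext Z
    simp only [Finset.mem_filter, hp, iff_true]
  · have h := count_TF M ∅ {a} (Finset.empty_subset _) (Finset.singleton_subset_iff.mpr ha)
      (Finset.disjoint_empty_left _)
    simp only [Finset.empty_subset, true_and, Finset.disjoint_singleton_right,
      Finset.card_singleton, Finset.card_empty, pow_zero, pow_one, one_mul] at h
    rw [← h, mul_comm]
    congr 2
    ext Z
    simp only [Finset.mem_filter, hp, iff_false]

/-- Prescribed values at two different elements. -/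
theorem count_two {β : Type*} (M : Finset β) (a b : β) (ha : a ∈ M) (hb : b ∈ M) (hab : a ≠ b)
    (p q : Prop) [DecidablePred (fun Z : Finset β => (a ∈ Z ↔ p) ∧ (b ∈ Z ↔ q))] :
    4 * (M.powerset.filter (fun Z => (a ∈ Z ↔ p) ∧ (b ∈ Z ↔ q))).card = 2 ^ M.card := by
  have hsA : ({a} : Finset β) ⊆ M := Finset.singleton_subset_iff.mpr ha
  have hsB : ({b} : Finset β) ⊆ M := Finset.singleton_subset_iff.mpr hb
  have hdAB : Disjoint ({a} : Finset β) {b} := by
    rw [Finset.disjoint_singleton]
    exact hab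
  have hdBA : Disjoint ({b} : Finset β) {a} := hdAB.symm
  by_cases hp : p <;> by_cases hq : q
  · have hsub : ({a, b} : Finset β) ⊆ M := by
      intro x hx
      rcases Finset.mem_insert.mp hx with rfl | hx
      · exact ha
      · rw [Finset.mem_singleton.mp hx]
        exact hb
    have h := count_TF M {a, b} ∅ hsub (Finset.empty_subset _) (Finset.disjoint_empty_right _)
    rw [Finset.card_pair hab] at h
    simp only [Finset.disjoint_empty_right, and_true, Finset.card_empty, pow_zero, mul_one] at h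
    rw [← h, mul_comm]
    congr 2
    ext Z
    simp only [Finset.mem_filter, hp, hq, iff_true, Finset.insert_subset_iff,
      Finset.singleton_subset_iff]
  · have h := count_TF M {a} {b} hsA hsB hdAB
    simp only [Finset.card_singleton, pow_one] at h
    rw [← h, mul_comm]
    congr 2
    ext Z
    simp only [Finset.mem_filter, hp, hq, iff_true, iff_false, Finset.singleton_subset_iff,
      Finset.disjoint_singleton_right]
  · have h := count_TF M {b} {a} hsB hsA hdBA
    simp only [Finset.card_singleton, pow_one] at h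
    rw [← h, mul_comm]
    congr 2
    ext Z
    simp only [Finset.mem_filter, hp, hq, iff_true, iff_false, Finset.singleton_subset_iff,
      Finset.disjoint_singleton_right]
    tauto
  · have hsub : ({a, b} : Finset β) ⊆ M := by
      intro x hx
      rcases Finset.mem_insert.mp hx with rfl | hx
      · exact ha
      · rw [Finset.mem_singleton.mp hx]
        exact hb
    have h := count_TF M ∅ {a, b} (Finset.empty_subset _) hsub (Finset.disjoint_empty_left _)
    rw [Finset.card_pair hab] at h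
    simp only [Finset.empty_subset, true_and, Finset.card_empty, pow_zero, one_mul] at h
    rw [← h, mul_comm]
    congr 2
    ext Z
    simp only [Finset.mem_filter, hp, hq, iff_false, Finset.disjoint_insert_right,
      Finset.disjoint_singleton_right]

/-- Splitting cells: from multiplicity `1` to multiplicity `2 ^ i`. -/
theorem cell_bound (f g : ι → ℝ) (i : ℕ) : ∀ (C : Finset ι) (R S : Finset ℝ),
    (∀ c ∈ C, f c ∈ R) → (∀ c ∈ C, g c ∈ S) →
    (∀ p : ℝ × ℝ, (C.filter (fun y => (f y, g y) = p)).card ≤ 2 ^ i) →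
    2 ^ i * C.card ≤ 4 ^ i * (R.card + S.card) + (crossPairs f g C).card := by
  induction i with
  | zero =>
    intro C R S hR hS hc
    have hinj : ∀ c ∈ C, ∀ c' ∈ C, f c = f c' → g c = g c' → c = c' := by
      intro c hcC c' hc' h1 h2
      have h := hc (f c, g c)
      simp only [pow_zero] at h
      have hm1 : c ∈ C.filter (fun y => (f y, g y) = (f c, g c)) :=
        Finset.mem_filter.mpr ⟨hcC, rfl⟩
      have hm2 : c' ∈ C.filter (fun y => (f y, g y) = (f c, g c)) :=
        Finset.mem_filter.mpr ⟨hc', by rw [h1, h2]⟩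
      exact Finset.card_le_one.mp h c hm1 c' hm2
    simpa using chain_bound f g C R S hR hS hinj
  | succ i ih =>
    intro C R S hR hS hc
    set K := 2 ^ i with hK
    have hKpos : 0 < K := by positivity
    let cell : ι → ℝ × ℝ := fun y => (f y, g y)
    have hsplit : ∀ p : ℝ × ℝ, ∃ A : Finset ι, A ⊆ C.filter (fun y => cell y = p) ∧ A.card ≤ K ∧
        ((C.filter (fun y => cell y = p)) \ A).card ≤ K := by
      intro p
      have hp : (C.filter (fun y => cell y = p)).card ≤ 2 * K := by
        have := hc p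
        rw [pow_succ] at this
        simp only [cell]
        rw [mul_comm]
        exact this
      by_cases hle : (C.filter (fun y => cell y = p)).card ≤ K
      · exact ⟨C.filter (fun y => cell y = p), subset_rfl, hle, by simp⟩
      · obtain ⟨A, hA1, hA2⟩ := Finset.exists_subset_card_eq (le_of_not_ge hle)
        refine ⟨A, hA1, hA2.le, ?_⟩
        rw [Finset.card_sdiff_of_subset hA1, hA2]
        omega
    choose A hA1 hA2 hA3 using hsplit
    set M := C.image cell with hM
    set Ω := M.powerset with hΩ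
    set W := 2 ^ M.card with hW
    have hWpos : 0 < W := by positivity
    let D : Finset (ℝ × ℝ) → Finset ι := fun Z => C.filter (fun x => cell x ∈ Z ↔ x ∈ A (cell x))
    have hDsub : ∀ Z, D Z ⊆ C := fun Z => Finset.filter_subset _ _
    have hstep : ∀ Z ∈ Ω, K * (D Z).card ≤ 4 ^ i * (R.card + S.card) +
        (crossPairs f g (D Z)).card := by
      intro Z _
      apply ih (D Z) R S (fun c hc => hR c (hDsub Z hc)) (fun c hc => hS c (hDsub Z hc))
      intro p
      by_cases hpZ : p ∈ Z
      · refine le_trans (Finset.card_le_card ?_) (hA2 p)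
        intro x hx
        obtain ⟨hx1, hx2⟩ := Finset.mem_filter.mp hx
        obtain ⟨_, hx3⟩ := Finset.mem_filter.mp hx1
        have hx4 : cell x = p := hx2
        have hx5 : x ∈ A (cell x) := hx3.mp (by rw [hx4]; exact hpZ)
        rw [hx4] at hx5
        exact hx5
      · refine le_trans (Finset.card_le_card ?_) (hA3 p)
        intro x hx
        obtain ⟨hx1, hx2⟩ := Finset.mem_filter.mp hx
        obtain ⟨hx0, hx3⟩ := Finset.mem_filter.mp hx1
        have hx4 : cell x = p := hx2
        refine Finset.mem_sdiff.mpr ⟨Finset.mem_filter.mpr ⟨hx0, hx4⟩, fun hxA => hpZ ?_⟩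
        have hx5 := hx3.mpr (by rw [hx4]; exact hxA)
        rw [hx4] at hx5
        exact hx5
    have hsum : K * ∑ Z ∈ Ω, (D Z).card ≤
        W * (4 ^ i * (R.card + S.card)) + ∑ Z ∈ Ω, (crossPairs f g (D Z)).card := by
      have h1 : W = Ω.card := by
        rw [hΩ, Finset.card_powerset]
      rw [Finset.mul_sum, h1, ← smul_eq_mul, ← Finset.sum_const, ← Finset.sum_add_distrib]
      exact Finset.sum_le_sum hstep
    have hA : 2 * ∑ Z ∈ Ω, (D Z).card = W * C.card := by
      have e : ∑ Z ∈ Ω, (D Z).card =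
          ∑ c ∈ C, (Ω.filter (fun Z => cell c ∈ Z ↔ c ∈ A (cell c))).card :=
        sum_card_filter_comm Ω C (fun Z c => cell c ∈ Z ↔ c ∈ A (cell c)) _ _
      rw [e, Finset.mul_sum]
      have hc' : ∀ c ∈ C, 2 * (Ω.filter (fun Z => cell c ∈ Z ↔ c ∈ A (cell c))).card = W := by
        intro c hc
        exact count_one M (cell c) (Finset.mem_image_of_mem _ hc) (c ∈ A (cell c))
      rw [Finset.sum_congr rfl hc']
      simp [mul_comm]
    have hC : 4 * ∑ Z ∈ Ω, (crossPairs f g (D Z)).card = W * (crossPairs f g C).card := by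
      have e1 : ∀ Z, crossPairs f g (D Z) = (crossPairs f g C).filter (fun z =>
          (cell z.1 ∈ Z ↔ z.1 ∈ A (cell z.1)) ∧ (cell z.2 ∈ Z ↔ z.2 ∈ A (cell z.2))) := by
        intro Z
        ext z
        simp only [crossPairs, D, Finset.mem_filter, Finset.mem_product]
        constructor
        · rintro ⟨⟨⟨a1, a2⟩, ⟨b1, b2⟩⟩, c1, c2⟩
          exact ⟨⟨⟨a1, b1⟩, c1, c2⟩, a2, b2⟩
        · rintro ⟨⟨⟨a1, b1⟩, c1, c2⟩, a2, b2⟩
          exact ⟨⟨⟨a1, a2⟩, ⟨b1, b2⟩⟩, c1, c2⟩
      have e : ∑ Z ∈ Ω, (crossPairs f g (D Z)).card = ∑ z ∈ crossPairs f g C,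
          (Ω.filter (fun Z => (cell z.1 ∈ Z ↔ z.1 ∈ A (cell z.1)) ∧
            (cell z.2 ∈ Z ↔ z.2 ∈ A (cell z.2)))).card := by
        have h1 : ∀ Z ∈ Ω, (crossPairs f g (D Z)).card = ((crossPairs f g C).filter (fun z =>
            (cell z.1 ∈ Z ↔ z.1 ∈ A (cell z.1)) ∧ (cell z.2 ∈ Z ↔ z.2 ∈ A (cell z.2)))).card := by
          intro Z _
          rw [e1]
        rw [Finset.sum_congr rfl h1]
        exact sum_card_filter_comm Ω (crossPairs f g C)
          (fun Z z => (cell z.1 ∈ Z ↔ z.1 ∈ A (cell z.1)) ∧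
            (cell z.2 ∈ Z ↔ z.2 ∈ A (cell z.2))) _ _
      rw [e, Finset.mul_sum]
      have hc' : ∀ z ∈ crossPairs f g C,
          4 * (Ω.filter (fun Z => (cell z.1 ∈ Z ↔ z.1 ∈ A (cell z.1)) ∧
            (cell z.2 ∈ Z ↔ z.2 ∈ A (cell z.2)))).card = W := by
        intro z hz
        obtain ⟨hz1, hz2, _⟩ := Finset.mem_filter.mp hz
        have hz1' := Finset.mem_product.mp hz1
        have hne : cell z.1 ≠ cell z.2 := by
          intro h
          have : f z.1 = f z.2 := congrArg Prod.fst h
          linarith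
        exact count_two M (cell z.1) (cell z.2) (Finset.mem_image_of_mem _ hz1'.1)
          (Finset.mem_image_of_mem _ hz1'.2) hne _ _
      rw [Finset.sum_congr rfl hc']
      simp [mul_comm]
    have hfinal : W * (2 ^ (i + 1) * C.card) ≤
        W * (4 ^ (i + 1) * (R.card + S.card) + (crossPairs f g C).card) := by
      calc W * (2 ^ (i + 1) * C.card) = 2 * K * (W * C.card) := by
            rw [hK, pow_succ]
            ring
        _ = 2 * K * (2 * ∑ Z ∈ Ω, (D Z).card) := by rw [hA]
        _ = 4 * (K * ∑ Z ∈ Ω, (D Z).card) := by ring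
        _ ≤ 4 * (W * (4 ^ i * (R.card + S.card)) + ∑ Z ∈ Ω, (crossPairs f g (D Z)).card) :=
            Nat.mul_le_mul_left _ hsum
        _ = 4 * (W * (4 ^ i * (R.card + S.card))) + 4 * ∑ Z ∈ Ω, (crossPairs f g (D Z)).card := by
            ring
        _ = 4 * (W * (4 ^ i * (R.card + S.card))) + W * (crossPairs f g C).card := by rw [hC]
        _ = _ := by
            rw [pow_succ]
            ring
    exact Nat.le_of_mul_le_mul_left hfinal hWpos

/-- One doubling step of the sampling argument, with multiplicity. -/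
theorem layer_bound_cells (f g : ι → ℝ) (K : ℕ)
    (hbase : ∀ (C : Finset ι) (R S : Finset ℝ), (∀ c ∈ C, f c ∈ R) → (∀ c ∈ C, g c ∈ S) →
      (∀ p : ℝ × ℝ, (C.filter (fun y => (f y, g y) = p)).card ≤ K) →
      K * C.card ≤ K ^ 2 * (R.card + S.card) + (crossPairs f g C).card) (j : ℕ) :
    ∀ (C : Finset ι) (R S : Finset ℝ),
    (∀ c ∈ C, f c ∈ R) → (∀ c ∈ C, g c ∈ S) →
    (∀ p : ℝ × ℝ, (C.filter (fun y => (f y, g y) = p)).card ≤ K) →
    4 ^ j * (K * C.card) ≤ 8 ^ j * (K ^ 2 * (R.card + S.card)) + (crossPairs f g C).card := by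
  induction j with
  | zero =>
    intro C R S hR hS hinj
    simpa using hbase C R S hR hS hinj
  | succ j ih =>
    intro C R S hR hS hinj
    set Ω := R.powerset ×ˢ S.powerset with hΩ
    set W := 2 ^ R.card * 2 ^ S.card with hW
    have hWpos : 0 < W := by positivity
    let D : Finset ℝ × Finset ℝ → Finset ι := fun ω => C.filter (fun c => f c ∈ ω.1 ∧ g c ∈ ω.2)
    have hstep : ∀ ω ∈ Ω, 4 ^ j * (K * (D ω).card) ≤
        8 ^ j * (K ^ 2 * (ω.1.card + ω.2.card)) + (crossPairs f g (D ω)).card := by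
      intro ω _
      apply ih (D ω) ω.1 ω.2
      · intro c hc
        exact (Finset.mem_filter.mp hc).2.1
      · intro c hc
        exact (Finset.mem_filter.mp hc).2.2
      · intro p
        refine le_trans (Finset.card_le_card ?_) (hinj p)
        intro x hx
        obtain ⟨hx1, hx2⟩ := Finset.mem_filter.mp hx
        exact Finset.mem_filter.mpr ⟨(Finset.mem_filter.mp hx1).1, hx2⟩
    have hsum : 4 ^ j * (K * ∑ ω ∈ Ω, (D ω).card) ≤
        8 ^ j * (K ^ 2 * ∑ ω ∈ Ω, (ω.1.card + ω.2.card)) +
          ∑ ω ∈ Ω, (crossPairs f g (D ω)).card := by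
      rw [Finset.mul_sum, Finset.mul_sum, Finset.mul_sum, Finset.mul_sum,
        ← Finset.sum_add_distrib]
      exact Finset.sum_le_sum hstep
    -- first moment of edges
    have hA : 4 * ∑ ω ∈ Ω, (D ω).card = W * C.card := by
      have e : ∑ ω ∈ Ω, (D ω).card =
          ∑ c ∈ C, (Ω.filter (fun ω => f c ∈ ω.1 ∧ g c ∈ ω.2)).card :=
        sum_card_filter_comm Ω C (fun ω c => f c ∈ ω.1 ∧ g c ∈ ω.2) _ _
      rw [e, Finset.mul_sum]
      have hc : ∀ c ∈ C, 4 * (Ω.filter (fun ω => f c ∈ ω.1 ∧ g c ∈ ω.2)).card = W := by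
        intro c hc
        have h := count_omega R S {f c} {g c} (Finset.singleton_subset_iff.mpr (hR c hc))
          (Finset.singleton_subset_iff.mpr (hS c hc))
        simp only [Finset.singleton_subset_iff, Finset.card_singleton] at h
        rw [hW, ← h, hΩ]
        ring
      rw [Finset.sum_congr rfl hc]
      simp [mul_comm]
    -- first moment of vertices
    have hB1 : 2 * ∑ ω ∈ Ω, ω.1.card = W * R.card := by
      have e : ∑ ω ∈ Ω, ω.1.card = ∑ u ∈ R, (Ω.filter (fun ω => u ∈ ω.1)).card := by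
        have h1 : ∀ ω ∈ Ω, ω.1.card = (R.filter (fun u => u ∈ ω.1)).card := by
          intro ω hω
          exact card_eq_filter_mem R ω.1
            (Finset.mem_powerset.mp (Finset.mem_product.mp hω).1)
        rw [Finset.sum_congr rfl h1]
        exact sum_card_filter_comm Ω R (fun ω u => u ∈ ω.1) _ _
      rw [e, Finset.mul_sum]
      have hc : ∀ u ∈ R, 2 * (Ω.filter (fun ω => u ∈ ω.1)).card = W := by
        intro u hu
        have h := count_omega R S {u} ∅ (Finset.singleton_subset_iff.mpr hu)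
          (Finset.empty_subset _)
        simp only [Finset.singleton_subset_iff, Finset.card_singleton, Finset.empty_subset,
          and_true, Finset.card_empty, pow_zero, mul_one] at h
        rw [hW, ← h, hΩ]
        ring
      rw [Finset.sum_congr rfl hc]
      simp [mul_comm]
    have hB2 : 2 * ∑ ω ∈ Ω, ω.2.card = W * S.card := by
      have e : ∑ ω ∈ Ω, ω.2.card = ∑ u ∈ S, (Ω.filter (fun ω => u ∈ ω.2)).card := by
        have h1 : ∀ ω ∈ Ω, ω.2.card = (S.filter (fun u => u ∈ ω.2)).card := by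
          intro ω hω
          exact card_eq_filter_mem S ω.2
            (Finset.mem_powerset.mp (Finset.mem_product.mp hω).2)
        rw [Finset.sum_congr rfl h1]
        exact sum_card_filter_comm Ω S (fun ω u => u ∈ ω.2) _ _
      rw [e, Finset.mul_sum]
      have hc : ∀ u ∈ S, 2 * (Ω.filter (fun ω => u ∈ ω.2)).card = W := by
        intro u hu
        have h := count_omega R S ∅ {u} (Finset.empty_subset _)
          (Finset.singleton_subset_iff.mpr hu)
        simp only [Finset.singleton_subset_iff, Finset.card_singleton, Finset.empty_subset,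
          true_and, Finset.card_empty, pow_zero, one_mul] at h
        rw [hW, ← h, hΩ]
        ring
      rw [Finset.sum_congr rfl hc]
      simp [mul_comm]
    -- second moment of crossings
    have hC : 16 * ∑ ω ∈ Ω, (crossPairs f g (D ω)).card = W * (crossPairs f g C).card := by
      have e1 : ∀ ω, crossPairs f g (D ω) = (crossPairs f g C).filter (fun z =>
          (f z.1 ∈ ω.1 ∧ f z.2 ∈ ω.1) ∧ (g z.1 ∈ ω.2 ∧ g z.2 ∈ ω.2)) := by
        intro ω
        ext z
        simp only [crossPairs, D, Finset.mem_filter, Finset.mem_product]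
        tauto
      have e : ∑ ω ∈ Ω, (crossPairs f g (D ω)).card = ∑ z ∈ crossPairs f g C,
          (Ω.filter (fun ω => (f z.1 ∈ ω.1 ∧ f z.2 ∈ ω.1) ∧ (g z.1 ∈ ω.2 ∧ g z.2 ∈ ω.2))).card := by
        have h1 : ∀ ω ∈ Ω, (crossPairs f g (D ω)).card = ((crossPairs f g C).filter (fun z =>
            (f z.1 ∈ ω.1 ∧ f z.2 ∈ ω.1) ∧ (g z.1 ∈ ω.2 ∧ g z.2 ∈ ω.2))).card := by
          intro ω _
          rw [e1]
        rw [Finset.sum_congr rfl h1]
        exact sum_card_filter_comm Ω (crossPairs f g C)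
          (fun ω z => (f z.1 ∈ ω.1 ∧ f z.2 ∈ ω.1) ∧ (g z.1 ∈ ω.2 ∧ g z.2 ∈ ω.2)) _ _
      rw [e, Finset.mul_sum]
      have hc : ∀ z ∈ crossPairs f g C,
          16 * (Ω.filter (fun ω => (f z.1 ∈ ω.1 ∧ f z.2 ∈ ω.1) ∧ (g z.1 ∈ ω.2 ∧ g z.2 ∈ ω.2))).card
            = W := by
        intro z hz
        obtain ⟨hz1, hz2, hz3⟩ := Finset.mem_filter.mp hz
        have hz1' := Finset.mem_product.mp hz1
        have hsub1 : ({f z.1, f z.2} : Finset ℝ) ⊆ R := by
          intro u hu
          simp only [Finset.mem_insert, Finset.mem_singleton] at hu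
          rcases hu with rfl | rfl
          · exact hR _ hz1'.1
          · exact hR _ hz1'.2
        have hsub2 : ({g z.1, g z.2} : Finset ℝ) ⊆ S := by
          intro u hu
          simp only [Finset.mem_insert, Finset.mem_singleton] at hu
          rcases hu with rfl | rfl
          · exact hS _ hz1'.1
          · exact hS _ hz1'.2
        have h := count_omega R S {f z.1, f z.2} {g z.1, g z.2} hsub1 hsub2
        rw [Finset.card_pair (ne_of_lt hz2), Finset.card_pair (ne_of_gt hz3)] at h
        have e2 : ∀ ω : Finset ℝ × Finset ℝ,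
            (({f z.1, f z.2} : Finset ℝ) ⊆ ω.1 ∧ ({g z.1, g z.2} : Finset ℝ) ⊆ ω.2) ↔
            ((f z.1 ∈ ω.1 ∧ f z.2 ∈ ω.1) ∧ (g z.1 ∈ ω.2 ∧ g z.2 ∈ ω.2)) := by
          intro ω
          simp only [Finset.insert_subset_iff, Finset.singleton_subset_iff]
        simp only [e2] at h
        rw [hW, ← h, hΩ]
        ring
      rw [Finset.sum_congr rfl hc]
      simp [mul_comm]
    -- conclusion
    have hvert : 2 * ∑ ω ∈ Ω, (ω.1.card + ω.2.card) = W * (R.card + S.card) := by
      rw [Finset.sum_add_distrib, mul_add, hB1, hB2]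
      ring
    have hfinal : W * (4 ^ (j + 1) * (K * C.card)) ≤
        W * (8 ^ (j + 1) * (K ^ 2 * (R.card + S.card)) + (crossPairs f g C).card) := by
      calc W * (4 ^ (j + 1) * (K * C.card)) = 4 ^ j * 4 * K * (W * C.card) := by ring
        _ = 4 ^ j * 4 * K * (4 * ∑ ω ∈ Ω, (D ω).card) := by rw [hA]
        _ = 16 * (4 ^ j * (K * ∑ ω ∈ Ω, (D ω).card)) := by ring
        _ ≤ 16 * (8 ^ j * (K ^ 2 * ∑ ω ∈ Ω, (ω.1.card + ω.2.card)) +
              ∑ ω ∈ Ω, (crossPairs f g (D ω)).card) := Nat.mul_le_mul_left _ hsum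
        _ = 8 ^ j * 8 * K ^ 2 * (2 * ∑ ω ∈ Ω, (ω.1.card + ω.2.card)) +
              16 * ∑ ω ∈ Ω, (crossPairs f g (D ω)).card := by ring
        _ = 8 ^ j * 8 * K ^ 2 * (W * (R.card + S.card)) + W * (crossPairs f g C).card := by
            rw [hvert, hC]
        _ = _ := by ring
    exact Nat.le_of_mul_le_mul_left hfinal hWpos

/-- **The two-layer crossing lemma with multiplicity `2 ^ i`.** -/
theorem crossing_lower_cells (f g : ι → ℝ) (C : Finset ι) (R S : Finset ℝ) (i : ℕ)
    (hR : ∀ c ∈ C, f c ∈ R) (hS : ∀ c ∈ C, g c ∈ S)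
    (hc : ∀ p : ℝ × ℝ, (C.filter (fun y => (f y, g y) = p)).card ≤ 2 ^ i)
    (hv : 0 < R.card + S.card) (hbig : 2 * (2 ^ i * (R.card + S.card)) ≤ C.card) :
    C.card ^ 3 ≤ 32 * 2 ^ i * (R.card + S.card) ^ 2 * (crossPairs f g C).card := by
  set v := R.card + S.card with hvdef
  set N := C.card with hN
  set K := 2 ^ i with hK
  have hKpos : 0 < K := by positivity
  set q := N / (2 * (K * v)) with hq
  have h2v : 0 < 2 * (K * v) := by positivity
  have hq1 : 1 ≤ q := (Nat.one_le_div_iff h2v).mpr hbig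
  set j := Nat.log 2 q with hj
  set P := 2 ^ j with hP
  have hP1 : P ≤ q := Nat.pow_log_le_self 2 (by omega)
  have hP2 : q < 2 * P := by
    have h := Nat.lt_pow_succ_log_self (b := 2) (by norm_num) q
    have e : 2 ^ (Nat.log 2 q).succ = 2 * P := by
      rw [hP, hj, pow_succ]
      ring
    rw [e] at h
    exact h
  have hlow : P * (2 * (K * v)) ≤ N :=
    le_trans (Nat.mul_le_mul_right _ hP1) (Nat.div_mul_le_self N (2 * (K * v)))
  have hhigh : N < 4 * P * (K * v) := by
    have h1 : N < (q + 1) * (2 * (K * v)) := by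
      have := Nat.lt_div_mul_add (a := N) h2v
      calc N < N / (2 * (K * v)) * (2 * (K * v)) + 2 * (K * v) := this
        _ = (q + 1) * (2 * (K * v)) := by rw [hq]; ring
    have h2 : (q + 1) * (2 * (K * v)) ≤ (2 * P) * (2 * (K * v)) :=
      Nat.mul_le_mul_right _ (by omega)
    calc N < _ := h1
      _ ≤ (2 * P) * (2 * (K * v)) := h2
      _ = 4 * P * (K * v) := by ring
  have hbase : ∀ (C : Finset ι) (R S : Finset ℝ), (∀ c ∈ C, f c ∈ R) → (∀ c ∈ C, g c ∈ S) →
      (∀ p : ℝ × ℝ, (C.filter (fun y => (f y, g y) = p)).card ≤ K) →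
      K * C.card ≤ K ^ 2 * (R.card + S.card) + (crossPairs f g C).card := by
    intro C R S h1 h2 h3
    have h := cell_bound f g i C R S h1 h2 h3
    have e : (4 : ℕ) ^ i = K ^ 2 := by
      rw [hK, ← pow_mul, mul_comm, pow_mul]
      norm_num
    rw [e] at h
    exact h
  have hlayer := layer_bound_cells f g K hbase j C R S hR hS hc
  have e4 : (4 : ℕ) ^ j = P ^ 2 := by
    rw [hP, ← pow_mul, mul_comm, pow_mul]
    norm_num
  have e8 : (8 : ℕ) ^ j = P ^ 3 := by
    rw [hP, ← pow_mul, mul_comm, pow_mul]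
    norm_num
  rw [e4, e8, ← hvdef, ← hN] at hlayer
  set cr := (crossPairs f g C).card with hcr
  have h5 : 2 * (P ^ 3 * (K ^ 2 * v)) ≤ P ^ 2 * (K * N) := by
    calc 2 * (P ^ 3 * (K ^ 2 * v)) = P ^ 2 * (K * (P * (2 * (K * v)))) := by ring
      _ ≤ P ^ 2 * (K * N) := Nat.mul_le_mul_left _ (Nat.mul_le_mul_left _ hlow)
  have h6 : P ^ 2 * (K * N) ≤ 2 * cr := by omega
  have h7 : N ^ 2 ≤ (4 * P * (K * v)) ^ 2 := Nat.pow_le_pow_left (le_of_lt hhigh) 2
  calc N ^ 3 = N ^ 2 * N := by ring
    _ ≤ (4 * P * (K * v)) ^ 2 * N := Nat.mul_le_mul_right _ h7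
    _ = 16 * K * v ^ 2 * (P ^ 2 * (K * N)) := by ring
    _ ≤ 16 * K * v ^ 2 * (2 * cr) := Nat.mul_le_mul_left _ h6
    _ = 32 * K * v ^ 2 * cr := by ring

/-- The crossing lemma with an arbitrary multiplicity bound `s ≥ 1`. -/
theorem crossing_lower_mult (f g : ι → ℝ) (C : Finset ι) (R S : Finset ℝ) (s : ℕ) (hs : 1 ≤ s)
    (hR : ∀ c ∈ C, f c ∈ R) (hS : ∀ c ∈ C, g c ∈ S)
    (hc : ∀ p : ℝ × ℝ, (C.filter (fun y => (f y, g y) = p)).card ≤ s)
    (hv : 0 < R.card + S.card) (hbig : 4 * (s * (R.card + S.card)) ≤ C.card) :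
    C.card ^ 3 ≤ 64 * s * (R.card + S.card) ^ 2 * (crossPairs f g C).card := by
  set i := Nat.clog 2 s with hi
  have h1 : s ≤ 2 ^ i := Nat.le_pow_clog (by norm_num) s
  have h2 : 2 ^ i ≤ 2 * s := by
    rcases Nat.lt_or_ge 1 s with h | h
    · have h3 : 2 ^ (Nat.clog 2 s - 1) < s := Nat.pow_pred_clog_lt_self (by norm_num) h
      have hpos : 0 < Nat.clog 2 s := Nat.clog_pos (by norm_num) (by omega)
      have e : (2 : ℕ) ^ Nat.clog 2 s = 2 ^ (Nat.clog 2 s - 1) * 2 := by
        rw [← pow_succ]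
        congr 1
        omega
      rw [hi, e]
      have h4 := h3.le
      omega
    · have : s = 1 := by omega
      subst this
      simp [hi]
  have h3 := crossing_lower_cells f g C R S i hR hS (fun p => le_trans (hc p) h1) hv (by
    calc 2 * (2 ^ i * (R.card + S.card)) ≤ 2 * ((2 * s) * (R.card + S.card)) :=
          Nat.mul_le_mul_left _ (Nat.mul_le_mul_right _ h2)
      _ = 4 * (s * (R.card + S.card)) := by ring
      _ ≤ _ := hbig)
  refine le_trans h3 (Nat.mul_le_mul_right _ (Nat.mul_le_mul_right _ ?_))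
  calc 32 * 2 ^ i ≤ 32 * (2 * s) := Nat.mul_le_mul_left _ h2
    _ = 64 * s := by ring

end Vale.Agent.Lib.P054
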