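import Mathlib

namespace Vale.Agent.Lib.P054

/-- The arithmetic of the exponents. -/
theorem numeric (d : ℕ) (hd : 3 ≤ d) (N K s k1 T M : ℝ) (hN : 1 ≤ N) (hK : 0 < K)
    (hk1 : 0 ≤ k1) (hT : 0 ≤ T) (hM0 : 0 < M)
    (h1 : N / 2 ≤ k1 * s) (h2 : k1 ≤ T ^ d) (hM : N / K / 2 ≤ M) :
    N ^ (2 / (d : ℝ)) + 1 ≤ s ∨
      (1 / 4 : ℝ) * min (N ^ (2 / (d : ℝ))) ((N / K) ^ (7 / 6 : ℝ)) ≤
        min (T * M) (M ^ (7 / 6 : ℝ)) := by
  by_cases hs : N ^ (2 / (d : ℝ)) + 1 ≤ s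
  · exact Or.inl hs
  right
  push Not at hs
  have hN0 : 0 < N := by linarith
  have hd0 : (0 : ℝ) < (d : ℝ) := by
    have : 0 < d := by omega
    exact_mod_cast this
  have hd3 : (3 : ℝ) ≤ (d : ℝ) := by exact_mod_cast hd
  set E := N ^ (2 / (d : ℝ)) with hE
  have hE1 : 1 ≤ E := Real.one_le_rpow hN (by positivity)
  set μ := N / K with hμ
  have hμ0 : 0 < μ := div_pos hN0 hK
  -- the exponent of the number of distances
  set ex : ℝ := (1 - 2 / (d : ℝ)) / (d : ℝ) with hex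
  set A := N ^ ex with hA
  have hA0 : 0 < A := Real.rpow_pos_of_pos hN0 _
  have hAd : A ^ d = N / E := by
    have e : ex * (d : ℝ) = 1 - 2 / (d : ℝ) := by
      rw [hex]
      field_simp
    rw [hA, ← Real.rpow_natCast, ← Real.rpow_mul hN0.le, e, Real.rpow_sub hN0, Real.rpow_one]
  have hA7 : E ≤ A ^ 7 := by
    rw [hA, ← Real.rpow_natCast, ← Real.rpow_mul hN0.le, hE]
    apply Real.rpow_le_rpow_of_exponent_le hN
    rw [hex]
    push_cast
    rw [div_mul_eq_mul_div, div_le_div_iff₀ hd0 hd0]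
    field_simp
    nlinarith
  -- lower bound for T
  have hk1s : N / 2 ≤ k1 * (2 * E) := by
    have : k1 * s ≤ k1 * (2 * E) := by
      apply mul_le_mul_of_nonneg_left _ hk1
      linarith
    linarith
  have hk1l : A ^ d / 4 ≤ k1 := by
    rw [hAd, div_div, div_le_iff₀ (by positivity)]
    nlinarith
  have hTA : A / 2 ≤ T := by
    by_contra hcon
    push Not at hcon
    have h3 : T ^ d < (A / 2) ^ d := pow_lt_pow_left₀ hcon hT (by omega)
    have h4 : (A / 2) ^ d = A ^ d / 2 ^ d := div_pow _ _ _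
    have h5 : (2 : ℝ) ^ 3 ≤ 2 ^ d := pow_le_pow_right₀ (by norm_num) hd
    have h6 : A ^ d / 2 ^ d ≤ A ^ d / 4 := by
      apply div_le_div_of_nonneg_left (by positivity) (by norm_num)
      linarith
    linarith
  -- the two terms
  have hTM : A * μ / 4 ≤ T * M := by
    have h3 : μ / 2 ≤ M := hM
    calc A * μ / 4 = (A / 2) * (μ / 2) := by ring
      _ ≤ T * M := mul_le_mul hTA h3 (by positivity) hT
  have hterm1 : (1 / 4 : ℝ) * min E (μ ^ (7 / 6 : ℝ)) ≤ T * M := by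
    by_cases hc : E ≤ A * μ
    · have := min_le_left E (μ ^ (7 / 6 : ℝ))
      linarith
    · push Not at hc
      have hμA : μ ≤ A ^ 6 := by
        have h3 : A * μ < A ^ 7 := lt_of_lt_of_le hc hA7
        have h4 : A ^ 7 = A * A ^ 6 := by ring
        rw [h4] at h3
        exact (lt_of_mul_lt_mul_left h3 hA0.le).le
      have h16 : μ ^ (1 / 6 : ℝ) ≤ A := by
        have h5 : μ ^ (1 / 6 : ℝ) ≤ (A ^ 6) ^ (1 / 6 : ℝ) :=
          Real.rpow_le_rpow hμ0.le hμA (by norm_num)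
        have h6 : (A ^ 6) ^ (1 / 6 : ℝ) = A := by
          rw [← Real.rpow_natCast, ← Real.rpow_mul hA0.le]
          norm_num
        rwa [h6] at h5
      have h76 : μ ^ (7 / 6 : ℝ) = μ * μ ^ (1 / 6 : ℝ) := by
        have : (7 / 6 : ℝ) = 1 + 1 / 6 := by norm_num
        rw [this, Real.rpow_add hμ0, Real.rpow_one]
      have h7 : μ ^ (7 / 6 : ℝ) ≤ A * μ := by
        rw [h76, mul_comm]
        exact mul_le_mul_of_nonneg_right h16 hμ0.le
      have := min_le_right E (μ ^ (7 / 6 : ℝ))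
      linarith
  have hterm2 : (1 / 4 : ℝ) * min E (μ ^ (7 / 6 : ℝ)) ≤ M ^ (7 / 6 : ℝ) := by
    have h3 : (μ / 2) ^ (7 / 6 : ℝ) ≤ M ^ (7 / 6 : ℝ) :=
      Real.rpow_le_rpow (by positivity) hM (by norm_num)
    have h4 : (μ / 2) ^ (7 / 6 : ℝ) = μ ^ (7 / 6 : ℝ) / 2 ^ (7 / 6 : ℝ) :=
      Real.div_rpow hμ0.le (by norm_num) _
    have h5 : (2 : ℝ) ^ (7 / 6 : ℝ) ≤ 4 := by
      have : (2 : ℝ) ^ (7 / 6 : ℝ) ≤ 2 ^ (2 : ℝ) :=
        Real.rpow_le_rpow_of_exponent_le (by norm_num) (by norm_num)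
      norm_num at this ⊢
      linarith
    have h6 : μ ^ (7 / 6 : ℝ) / 4 ≤ μ ^ (7 / 6 : ℝ) / 2 ^ (7 / 6 : ℝ) := by
      apply div_le_div_of_nonneg_left (by positivity) (by positivity) h5
    have := min_le_right E (μ ^ (7 / 6 : ℝ))
    have h7 : 0 ≤ μ ^ (7 / 6 : ℝ) := by positivity
    linarith
  exact le_min hterm1 hterm2

end Vale.Agent.Lib.P054
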