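import Vale.Agent.Lib.P054.Planar
import Vale.Agent.Lib.P054.Numeric

open Finset

open scoped Classical

namespace Vale.Agent.Lib.P054

variable {d : ℕ}

theorem main_bound (hd : 3 ≤ d) (P : Finset (EE d)) (v : EE d) (hv : ‖v‖ = 1) (hP : 2 ≤ P.card) :
    ∃ x ∈ P, (1 / 240 : ℝ) * min ((P.card : ℝ) ^ (2 / (d : ℝ)))
        (((P.card : ℝ) / ((P.image (foot v)).card : ℝ)) ^ (7 / 6 : ℝ)) ≤
      (((P.erase x).image (fun y => ‖y - x‖)).card : ℝ) := by
  set n := P.card with hn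
  set A := P.image (foot v) with hA
  set k := A.card with hk
  have hPne : P.Nonempty := Finset.card_pos.mp (by omega)
  have hAne : A.Nonempty := hPne.image _
  have hk0 : 0 < k := Finset.card_pos.mpr hAne
  have hkR : (0 : ℝ) < (k : ℝ) := by exact_mod_cast hk0
  have hnR : (2 : ℝ) ≤ (n : ℝ) := by exact_mod_cast hP
  set cl : EE d → Finset (EE d) := fun g => P.filter (fun y => foot v y = g) with hcl
  have hsum : ∑ g ∈ A, (cl g).card = n := (Finset.card_eq_sum_card_image (foot v) P).symm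
  -- the richest line
  obtain ⟨gs, hgs, hmax⟩ := Finset.exists_max_image A (fun g => (cl g).card) hAne
  set s := (cl gs).card with hs
  have hclf : ∀ g, ∀ x ∈ cl g, foot v x = g := fun g x hx => (Finset.mem_filter.mp hx).2
  have hclP : ∀ g, cl g ⊆ P := fun g => Finset.filter_subset _ _
  have hgsne : (cl gs).Nonempty := by
    obtain ⟨y, hy, rfl⟩ := Finset.mem_image.mp hgs
    exact ⟨y, Finset.mem_filter.mpr ⟨hy, rfl⟩⟩
  obtain ⟨x1, hx1, hD1⟩ := exists_extreme hv P (cl gs) (hclP gs)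
    (fun x hx y hy => (hclf gs x hx).trans (hclf gs y hy).symm) hgsne
  -- the column size
  set m := ⌈(n : ℝ) / (2 * (k : ℝ))⌉₊ with hm
  have hmpos : 0 < m := Nat.ceil_pos.mpr (by positivity)
  have hmle : (n : ℝ) / (2 * (k : ℝ)) ≤ (m : ℝ) := Nat.le_ceil _
  set G := A.filter (fun g => m ≤ (cl g).card) with hG
  have hsmall : ∀ g ∈ A.filter (fun g => ¬ m ≤ (cl g).card),
      (((cl g).card : ℕ) : ℝ) ≤ (n : ℝ) / (2 * (k : ℝ)) := by
    intro g hg
    have h1 : (cl g).card < m := not_le.mp (Finset.mem_filter.mp hg).2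
    exact (Nat.lt_ceil.mp h1).le
  have hsplit : (n : ℝ) = ∑ g ∈ G, (((cl g).card : ℕ) : ℝ) +
      ∑ g ∈ A.filter (fun g => ¬ m ≤ (cl g).card), (((cl g).card : ℕ) : ℝ) := by
    rw [hG, Finset.sum_filter_add_sum_filter_not, ← hsum]
    push_cast
    rfl
  have hsm2 : ∑ g ∈ A.filter (fun g => ¬ m ≤ (cl g).card), (((cl g).card : ℕ) : ℝ) ≤ (n : ℝ) / 2 := by
    calc _ ≤ ∑ _g ∈ A.filter (fun g => ¬ m ≤ (cl g).card), (n : ℝ) / (2 * (k : ℝ)) :=
          Finset.sum_le_sum hsmall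
      _ = ((A.filter (fun g => ¬ m ≤ (cl g).card)).card : ℝ) * ((n : ℝ) / (2 * (k : ℝ))) := by
          rw [Finset.sum_const, nsmul_eq_mul]
      _ ≤ (k : ℝ) * ((n : ℝ) / (2 * (k : ℝ))) := by
          apply mul_le_mul_of_nonneg_right _ (by positivity)
          exact_mod_cast Finset.card_filter_le _ _
      _ = (n : ℝ) / 2 := by field_simp
  have hbig : (n : ℝ) / 2 ≤ ∑ g ∈ G, (((cl g).card : ℕ) : ℝ) := by linarith
  have hGs : (n : ℝ) / 2 ≤ (G.card : ℝ) * (s : ℝ) := by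
    refine hbig.trans ?_
    calc ∑ g ∈ G, (((cl g).card : ℕ) : ℝ) ≤ ∑ _g ∈ G, (s : ℝ) := by
          apply Finset.sum_le_sum
          intro g hg
          exact_mod_cast hmax g (Finset.mem_filter.mp hg).1
      _ = (G.card : ℝ) * (s : ℝ) := by rw [Finset.sum_const, nsmul_eq_mul]
  have hGne : G.Nonempty := by
    rw [← Finset.card_pos]
    by_contra hcon
    have h0 : G.card = 0 := by omega
    rw [h0] at hGs
    simp only [Nat.cast_zero, zero_mul] at hGs
    linarith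
  have hGort : ∀ g ∈ G, inner ℝ v g = 0 := by
    intro g hg
    obtain ⟨y, _, rfl⟩ := Finset.mem_image.mp (Finset.mem_filter.mp hg).1
    exact inner_foot hv y
  -- the line seeing the most distances
  obtain ⟨a, haG, hamax⟩ := Finset.exists_max_image G
    (fun a => (G.image (fun g => ‖a - g‖)).card) hGne
  set T := (G.image (fun g => ‖a - g‖)).card with hT
  have hGT : G.card ≤ T ^ d := card_le_pow hv G hGne hGort T hamax
  -- a transversal of the distance classes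
  have hsurj : Set.SurjOn (fun g => ‖a - g‖) (G : Set (EE d))
      ((G.image (fun g => ‖a - g‖) : Finset ℝ) : Set ℝ) := by
    intro c hc
    obtain ⟨g, hg, rfl⟩ := Finset.mem_image.mp (Finset.mem_coe.mp hc)
    exact ⟨g, Finset.mem_coe.mpr hg, rfl⟩
  obtain ⟨R, hRG', hRinj, hRimg⟩ := Finset.exists_subset_injOn_image_eq_of_surjOn
    (G : Set (EE d)) (G.image (fun g => ‖a - g‖) : Finset ℝ) hsurj
  have hRG : R ⊆ G := by exact_mod_cast hRG'
  have hRcard : R.card = T := by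
    rw [hT, ← hRimg, Finset.card_image_of_injOn hRinj]
  have haR : a ∈ R := by
    have h0 : (0 : ℝ) ∈ R.image (fun g => ‖a - g‖) := by
      rw [hRimg]
      exact Finset.mem_image.mpr ⟨a, haG, by simp⟩
    obtain ⟨g, hg, hg0⟩ := Finset.mem_image.mp h0
    have : a = g := sub_eq_zero.mp (norm_eq_zero.mp hg0)
    rwa [this]
  -- the chosen points on each line
  have hchoose : ∀ g ∈ G, ∃ t ⊆ cl g, t.card = m := fun g hg =>
    Finset.exists_subset_card_eq (Finset.mem_filter.mp hg).2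
  choose! C hC1 hC2 using hchoose
  obtain ⟨x2, hx2, hD2⟩ := planar_step hv P hP R a haR hRinj m hmpos C
    (fun g hg => (hC1 g (hRG hg)).trans (hclP g))
    (fun g hg y hy => hclf g y (hC1 g (hRG hg) hy))
    (fun g hg => hC2 g (hRG hg))
  rw [hRcard] at hD2
  -- the arithmetic
  have hNum := numeric d hd (n : ℝ) (k : ℝ) (s : ℝ) (G.card : ℝ) (T : ℝ) (m : ℝ)
    (by linarith) hkR (Nat.cast_nonneg _) (Nat.cast_nonneg _) (by exact_mod_cast hmpos) hGs
    (by exact_mod_cast hGT) (by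
      have e : (n : ℝ) / (k : ℝ) / 2 = (n : ℝ) / (2 * (k : ℝ)) := by
        rw [div_div, mul_comm]
      rw [e]
      exact hmle)
  rcases hNum with h | h
  · refine ⟨x1, hx1, ?_⟩
    have h1 : (s : ℝ) ≤ (((P.erase x1).image (fun y => ‖y - x1‖)).card : ℝ) + 1 := by
      exact_mod_cast hD1
    have h2 : (0 : ℝ) ≤ (n : ℝ) ^ (2 / (d : ℝ)) := Real.rpow_nonneg (Nat.cast_nonneg _) _
    have h3 := min_le_left ((n : ℝ) ^ (2 / (d : ℝ))) (((n : ℝ) / (k : ℝ)) ^ (7 / 6 : ℝ))
    have h4 : (0 : ℝ) ≤ ((P.erase x1).image (fun y => ‖y - x1‖)).card := Nat.cast_nonneg _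
    have h5 : (1 / 240 : ℝ) * min ((n : ℝ) ^ (2 / (d : ℝ))) (((n : ℝ) / (k : ℝ)) ^ (7 / 6 : ℝ)) ≤
        (n : ℝ) ^ (2 / (d : ℝ)) := by
      by_cases hneg : min ((n : ℝ) ^ (2 / (d : ℝ))) (((n : ℝ) / (k : ℝ)) ^ (7 / 6 : ℝ)) ≤ 0
      · linarith
      · push Not at hneg
        linarith
    linarith
  · refine ⟨x2, hx2, ?_⟩
    linarith

end Vale.Agent.Lib.P054
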