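import Vale.Agent.Lib.P054.Full
import Vale.Agent.Lib.P041.Pinned

/-!
A proof of the Moser exponent for pinned distances in the plane: a rich bisector, then full columns.
-/

open Finset

open scoped Classical

namespace Vale.Agent.Lib.P054

/-- Coordinate along `v`. -/
noncomputable def coY (v p : E2) : ℝ := (v 0 * p 0 + v 1 * p 1) / ‖v‖

/-- Coordinate orthogonal to `v`. -/
noncomputable def coZ (v p : E2) : ℝ := (-(v 1) * p 0 + v 0 * p 1) / ‖v‖

theorem dist_co (v : E2) (hv : v ≠ 0) (p q : E2) :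
    ‖p - q‖ ^ 2 = (coY v p - coY v q) ^ 2 + (coZ v p - coZ v q) ^ 2 := by
  have hν : ‖v‖ ≠ 0 := norm_ne_zero_iff.mpr hv
  have hν2 : ‖v‖ ^ 2 = (v 0) ^ 2 + (v 1) ^ 2 := norm_sq_E2 v
  rw [norm_sq_E2]
  simp only [coY, coZ, PiLp.sub_apply]
  field_simp
  rw [hν2]
  ring

theorem co_inj (v : E2) (hv : v ≠ 0) {p q : E2} (h1 : coY v p = coY v q)
    (h2 : coZ v p = coZ v q) : p = q := by
  have h := dist_co v hv p q
  rw [h1, h2] at h
  have h3 : ‖p - q‖ = 0 := by
    have : ‖p - q‖ ^ 2 = 0 := by rw [h]; ring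
    exact pow_eq_zero_iff (by norm_num) |>.mp this
  exact sub_eq_zero.mp (norm_eq_zero.mp h3)

/-- The parabola attached to a point `q`: distances from the points of a line with constant
coordinate `ν` along `v`. -/
noncomputable def curveOf (v : E2) (ν : ℝ) (q : E2) : ℝ × ℝ := (coZ v q, (ν - coY v q) ^ 2)

theorem par_curveOf (v : E2) (hv : v ≠ 0) (ν : ℝ) (a q : E2) (ha : coY v a = ν) :
    par (curveOf v ν q) (coZ v a) = ‖a - q‖ ^ 2 := by
  rw [dist_co v hv a q, ha]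
  unfold par curveOf
  simp only
  ring

theorem curve_fiber_le_two (v : E2) (hv : v ≠ 0) (ν : ℝ) (Q : Finset E2) (c : ℝ × ℝ) :
    (Q.filter (fun q => curveOf v ν q = c)).card ≤ 2 := by
  by_contra hcon
  push Not at hcon
  obtain ⟨p1, h1, p2, h2, p3, h3, h12, h13, h23⟩ := Finset.two_lt_card.mp hcon
  have e1 := (Finset.mem_filter.mp h1).2
  have e2 := (Finset.mem_filter.mp h2).2
  have e3 := (Finset.mem_filter.mp h3).2
  have hz12 : coZ v p1 = coZ v p2 := by
    have := congrArg Prod.fst (e1.trans e2.symm)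
    exact this
  have hz13 : coZ v p1 = coZ v p3 := by
    have := congrArg Prod.fst (e1.trans e3.symm)
    exact this
  have hz23 : coZ v p2 = coZ v p3 := hz12.symm.trans hz13
  have hy12 : (ν - coY v p1) ^ 2 = (ν - coY v p2) ^ 2 := by
    have := congrArg Prod.snd (e1.trans e2.symm)
    exact this
  have hy13 : (ν - coY v p1) ^ 2 = (ν - coY v p3) ^ 2 := by
    have := congrArg Prod.snd (e1.trans e3.symm)
    exact this
  have n12 : ν - coY v p1 ≠ ν - coY v p2 := fun h => h12 (co_inj v hv (by linarith) hz12)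
  have n13 : ν - coY v p1 ≠ ν - coY v p3 := fun h => h13 (co_inj v hv (by linarith) hz13)
  have n23 : ν - coY v p2 ≠ ν - coY v p3 := fun h => h23 (co_inj v hv (by linarith) hz23)
  have s2 := (sq_eq_sq_iff_eq_or_eq_neg.mp hy12).resolve_left n12
  have s3 := (sq_eq_sq_iff_eq_or_eq_neg.mp hy13).resolve_left n13
  exact n23 (by linarith)

/-- The points of `Q` equidistant from `b` and `b'`. -/
noncomputable def bisect (Q : Finset E2) (z : E2 × E2) : Finset E2 :=
  Q.filter (fun a => ‖a - z.1‖ ^ 2 = ‖a - z.2‖ ^ 2)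

/-- All points of a bisector have the same coordinate along the normal. -/
theorem bisect_coY (b b' a : E2) (h : ‖a - b‖ ^ 2 = ‖a - b'‖ ^ 2) :
    coY (b' - b) a = (((b' 0) ^ 2 + (b' 1) ^ 2 - (b 0) ^ 2 - (b 1) ^ 2) / 2) / ‖b' - b‖ := by
  unfold coY
  congr 1
  rw [norm_sq_E2, norm_sq_E2] at h
  simp only [PiLp.sub_apply] at h ⊢
  linarith

/-- Isosceles triples: some bisector is rich. -/
theorem rich_bisector (Q : Finset E2) (H : ℕ) (hH : ∀ a ∈ Q, (pinSet Q a).card ≤ H)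
    (hQ : 2 ≤ Q.card) :
    ∃ z ∈ Q.offDiag, Q.card ≤ H * (1 + (bisect Q z).card) := by
  set u := Q.card with hu
  have hne : Q.offDiag.Nonempty := by
    obtain ⟨a, ha, b, hb, hab⟩ := Finset.one_lt_card.mp (by omega : 1 < Q.card)
    exact ⟨(a, b), Finset.mem_offDiag.mpr ⟨ha, hb, hab⟩⟩
  obtain ⟨z0, hz0, hmax⟩ := Finset.exists_max_image Q.offDiag (fun z => (bisect Q z).card) hne
  refine ⟨z0, hz0, ?_⟩
  set K := (bisect Q z0).card with hK
  -- pairs at equal distance from `a`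
  have h1 : ∀ a ∈ Q, u ^ 2 ≤ H * ((Q ×ˢ Q).filter
      (fun z => ‖a - z.1‖ ^ 2 = ‖a - z.2‖ ^ 2)).card := by
    intro a ha
    have h2 := Vale.Agent.Lib.P041.card_sq_le Q (fun q => ‖a - q‖ ^ 2)
    refine le_trans h2 (Nat.mul_le_mul_right _ (hH a ha))
  have h3 : u * u ^ 2 ≤ H * ∑ a ∈ Q, ((Q ×ˢ Q).filter
      (fun z => ‖a - z.1‖ ^ 2 = ‖a - z.2‖ ^ 2)).card := by
    calc u * u ^ 2 = ∑ _a ∈ Q, u ^ 2 := by simp [hu]
      _ ≤ ∑ a ∈ Q, H * ((Q ×ˢ Q).filter
          (fun z => ‖a - z.1‖ ^ 2 = ‖a - z.2‖ ^ 2)).card := Finset.sum_le_sum h1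
      _ = _ := by rw [Finset.mul_sum]
  have h4 : ∑ a ∈ Q, ((Q ×ˢ Q).filter (fun z => ‖a - z.1‖ ^ 2 = ‖a - z.2‖ ^ 2)).card =
      ∑ z ∈ Q ×ˢ Q, (bisect Q z).card := by
    unfold bisect
    exact sum_card_filter_comm Q (Q ×ˢ Q) (fun a z => ‖a - z.1‖ ^ 2 = ‖a - z.2‖ ^ 2) _ _
  -- split off the diagonal
  have h5 : ∑ z ∈ Q ×ˢ Q, (bisect Q z).card ≤ u ^ 2 * (1 + K) := by
    have hsplit : Q ×ˢ Q = Q.offDiag ∪ Q.diag := by
      rw [Finset.union_comm]
      exact (Finset.diag_union_offDiag Q).symm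
    rw [hsplit, Finset.sum_union (Finset.disjoint_diag_offDiag Q).symm]
    have hdiag : ∑ z ∈ Q.diag, (bisect Q z).card ≤ u ^ 2 := by
      calc ∑ z ∈ Q.diag, (bisect Q z).card ≤ ∑ _z ∈ Q.diag, u := by
            apply Finset.sum_le_sum
            intro z _
            exact Finset.card_filter_le _ _
        _ = Q.diag.card * u := by simp
        _ = u ^ 2 := by rw [Finset.diag_card]; ring
    have hoff : ∑ z ∈ Q.offDiag, (bisect Q z).card ≤ u ^ 2 * K := by
      calc ∑ z ∈ Q.offDiag, (bisect Q z).card ≤ ∑ _z ∈ Q.offDiag, K :=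
            Finset.sum_le_sum hmax
        _ = Q.offDiag.card * K := by simp
        _ ≤ u ^ 2 * K := by
            apply Nat.mul_le_mul_right
            rw [Finset.offDiag_card, sq]
            exact Nat.sub_le _ _
    calc _ ≤ u ^ 2 * K + u ^ 2 := Nat.add_le_add hoff hdiag
      _ = _ := by ring
  have h6 : u * u ^ 2 ≤ (H * (1 + K)) * u ^ 2 := by
    calc u * u ^ 2 ≤ H * ∑ a ∈ Q, ((Q ×ˢ Q).filter
          (fun z => ‖a - z.1‖ ^ 2 = ‖a - z.2‖ ^ 2)).card := h3
      _ = H * ∑ z ∈ Q ×ˢ Q, (bisect Q z).card := by rw [h4]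
      _ ≤ H * (u ^ 2 * (1 + K)) := Nat.mul_le_mul_left _ h5
      _ = _ := by ring
  have hupos : 0 < u ^ 2 := by
    have : 0 < u := by omega
    positivity
  exact Nat.le_of_mul_le_mul_right h6 hupos

/-- **Moser's exponent.**  If every point of the planar set `Q` pins at most `H` squared distances,
then `|Q| ^ 2 ≤ 343 H ^ 3`. -/
theorem moser (Q : Finset E2) (H : ℕ) (hH : ∀ a ∈ Q, (pinSet Q a).card ≤ H) :
    Q.card ^ 2 ≤ 343 * H ^ 3 := by
  set u := Q.card with hu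
  rcases Nat.eq_zero_or_pos u with hu0 | hupos
  · rw [hu0]; simp
  obtain ⟨a0, ha0⟩ : Q.Nonempty := Finset.card_pos.mp hupos
  have hH1 : 1 ≤ H := by
    have h1 := hH a0 ha0
    have h2 : 0 < (pinSet Q a0).card :=
      Finset.card_pos.mpr ⟨_, mem_pinSet (p := a0) ha0⟩
    omega
  have hH3 : H ^ 2 ≤ H ^ 3 := Nat.pow_le_pow_right hH1 (by norm_num)
  rcases Nat.lt_or_ge (8 * H) u with hbig | hsmall
  swap
  · calc u ^ 2 ≤ (8 * H) ^ 2 := Nat.pow_le_pow_left hsmall 2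
      _ = 64 * H ^ 2 := by ring
      _ ≤ 343 * H ^ 3 := by nlinarith
  obtain ⟨z, hz, hzK⟩ := rich_bisector Q H hH (by omega)
  obtain ⟨hz1, hz2, hz3⟩ := Finset.mem_offDiag.mp hz
  set L := bisect Q z with hL
  set b := z.1 with hb
  set b' := z.2 with hb'
  set v := b' - b with hv
  have hv0 : v ≠ 0 := sub_ne_zero.mpr (Ne.symm hz3)
  set ν := (((b' 0) ^ 2 + (b' 1) ^ 2 - (b 0) ^ 2 - (b 1) ^ 2) / 2) / ‖v‖ with hν
  have hLY : ∀ a ∈ L, coY v a = ν := by
    intro a ha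
    exact bisect_coY b b' a (Finset.mem_filter.mp ha).2
  have hLQ : ∀ a ∈ L, a ∈ Q := fun a ha => (Finset.mem_filter.mp ha).1
  set X := L.image (coZ v) with hX
  have hXcard : X.card = L.card := by
    apply Finset.card_image_of_injOn
    intro a ha a' ha' h
    exact co_inj v hv0 ((hLY a ha).trans (hLY a' ha').symm) h
  set C := Q.image (curveOf v ν) with hC
  have hu2 : u ≤ 2 * C.card :=
    Finset.card_le_mul_card_image (f := curveOf v ν) Q 2
      (fun c _ => curve_fiber_le_two v hv0 ν Q c)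
  have hT : ∀ x ∈ X, (C.image (fun c => par c x)).card ≤ H := by
    intro x hx
    obtain ⟨a, ha, rfl⟩ := Finset.mem_image.mp hx
    refine le_trans (Finset.card_le_card ?_) (hH a (hLQ a ha))
    intro y hy
    obtain ⟨c, hc, rfl⟩ := Finset.mem_image.mp hy
    obtain ⟨q, hq, rfl⟩ := Finset.mem_image.mp hc
    rw [par_curveOf v hv0 ν a q (hLY a ha)]
    exact mem_pinSet hq
  have hN : 4 * H ≤ C.card := by omega
  have hfc := full_column X C H hT (by omega) hN
  rw [hXcard] at hfc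
  -- arithmetic
  set k := L.card with hk
  set N := C.card with hNdef
  have hk1 : 1 ≤ k := by
    by_contra hlt
    have h0 : k = 0 := by omega
    rw [h0] at hzK
    omega
  obtain ⟨k', hk'⟩ : ∃ k', k = k' + 1 := ⟨k - 1, by omega⟩
  rw [hk'] at hfc hzK
  simp only [Nat.add_sub_cancel] at hfc
  -- `u ≤ H (2 + k')`, and `8 H < u`
  have h1 : 3 * u ≤ 4 * (H * k') := by
    have h2 : u ≤ 2 * H + H * k' := by
      calc u ≤ H * (1 + (k' + 1)) := hzK
        _ = 2 * H + H * k' := by ring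
    omega
  have h2 : 3 * u ^ 2 ≤ 1024 * H ^ 3 := by
    calc 3 * u ^ 2 = (3 * u) * u := by ring
      _ ≤ (4 * (H * k')) * (2 * N) := Nat.mul_le_mul h1 hu2
      _ = 8 * H * (k' * N) := by ring
      _ ≤ 8 * H * (128 * H ^ 2) := Nat.mul_le_mul_left _ hfc
      _ = 1024 * H ^ 3 := by ring
  omega

end Vale.Agent.Lib.P054
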