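import Vale.Agent.Lib.P054.Moser
import Vale.Agent.Lib.P054.Lines

/-!
Sets on few parallel lines in `ℝ³`: pinned bound.
-/

open Finset

open scoped Classical

namespace Vale.Agent.Lib.P054

/-- The pinned lemma in `ℝ³` for vertical lines. -/
theorem pinned_E3_full (P : Finset E3) (B : Finset E2) (c : E2) (m : ℕ) (hm : 2 ≤ m)
    (hB : ∀ b ∈ B, m ≤ (fib P b).card) (hc : m ≤ (fib P c).card) (h : ℕ)
    (hh : ∀ p ∈ P, (pinSet P p).card ≤ h) :
    (pinSet B c).card * m ^ 2 ≤ 256 * h ^ 2 := by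
  have h1 := pinned_full e3 norm_e3 (B.image lift) (fun q => fib P (proj q)) P (lift c) m hm
    (by
      intro q hq
      obtain ⟨b, hb, rfl⟩ := Finset.mem_image.mp hq
      have : proj (lift b) = b := by apply ext_E2 <;> simp
      simp only [this]
      exact hB b hb)
    (by
      have : proj (lift c) = c := by apply ext_E2 <;> simp
      simp only [this]
      exact hc)
    (by
      intro q hq x hx
      obtain ⟨b, hb, rfl⟩ := Finset.mem_image.mp hq
      have : proj (lift b) = b := by apply ext_E2 <;> simp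
      simp only [this] at hx
      exact mem_of_mem_fib hx)
    (by
      intro x hx
      have : proj (lift c) = c := by apply ext_E2 <;> simp
      simp only [this] at hx
      exact mem_of_mem_fib hx)
    h
    (by
      intro x hx
      have : proj (lift c) = c := by apply ext_E2 <;> simp
      simp only [this] at hx
      exact hh _ (mem_of_mem_fib hx))
  have e : (B.image lift).image (fun q => horiz e3 (lift c, q)) = pinSet B c := by
    unfold pinSet
    rw [Finset.image_image]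
    apply Finset.image_congr
    intro b _
    simp only [Function.comp]
    exact horiz_lift c b
  rwa [e] at h1

/-- Number of `m`-rich vertical lines. -/
theorem rich_count_pin (P : Finset E3) (m : ℕ) (hm : 2 ≤ m) (h : ℕ)
    (hh : ∀ p ∈ P, (pinSet P p).card ≤ h) :
    (richBase P m).card * m ^ 3 ≤ 2 ^ 17 * h ^ 3 := by
  set B := richBase P m with hB
  have hrich : ∀ b ∈ B, m ≤ (fib P b).card := fun b hb => (Finset.mem_filter.mp hb).2
  have hmpos : 0 < m ^ 2 := by positivity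
  set H := 256 * h ^ 2 / m ^ 2 with hH
  have hHle : H * m ^ 2 ≤ 256 * h ^ 2 := Nat.div_mul_le_self _ _
  have hpin : ∀ a ∈ B, (pinSet B a).card ≤ H := by
    intro a ha
    exact (Nat.le_div_iff_mul_le hmpos).mpr (pinned_E3_full P B a m hm hrich (hrich a ha) h hh)
  have hmo := moser B H hpin
  have h2 : (B.card * m ^ 3) ^ 2 ≤ (2 ^ 17 * h ^ 3) ^ 2 := by
    calc (B.card * m ^ 3) ^ 2 = B.card ^ 2 * (m ^ 2) ^ 3 := by ring
      _ ≤ (343 * H ^ 3) * (m ^ 2) ^ 3 := Nat.mul_le_mul_right _ hmo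
      _ = 343 * (H * m ^ 2) ^ 3 := by ring
      _ ≤ 343 * (256 * h ^ 2) ^ 3 := Nat.mul_le_mul_left _ (Nat.pow_le_pow_left hHle 3)
      _ = 343 * 2 ^ 24 * h ^ 6 := by ring
      _ ≤ 2 ^ 34 * h ^ 6 := Nat.mul_le_mul_right _ (by norm_num)
      _ = _ := by ring
  exact (Nat.pow_le_pow_iff_left (by norm_num)).mp h2

theorem sum_inv_three_le (M N : ℕ) (hM : 1 ≤ M) :
    ∑ m ∈ Finset.Ioc M N, (1 : ℝ) / (m : ℝ) ^ 3 ≤ 1 / (M : ℝ) ^ 2 := by
  have hMpos : (0 : ℝ) < M := by exact_mod_cast hM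
  rcases Nat.lt_or_ge N M with h | h
  · rw [Finset.Ioc_eq_empty (by omega)]
    simp
  · have key : ∀ N : ℕ, M ≤ N →
        ∑ m ∈ Finset.Ioc M N, (1 : ℝ) / (m : ℝ) ^ 3 ≤ 1 / (M : ℝ) ^ 2 - 1 / (N : ℝ) ^ 2 := by
      intro N hN
      induction N, hN using Nat.le_induction with
      | base => simp
      | succ N hN ih =>
        rw [Finset.sum_Ioc_succ_top hN]
        have hx : (1 : ℝ) ≤ N := by exact_mod_cast le_trans hM hN
        have hstep : (1 : ℝ) / ((N + 1 : ℕ) : ℝ) ^ 3 ≤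
            1 / (N : ℝ) ^ 2 - 1 / ((N + 1 : ℕ) : ℝ) ^ 2 := by
          push_cast
          set x : ℝ := (N : ℝ) with hxdef
          have hx0 : 0 < x := by linarith
          have e : 1 / x ^ 2 - 1 / (x + 1) ^ 2 = ((x + 1) ^ 2 - x ^ 2) / (x ^ 2 * (x + 1) ^ 2) := by
            field_simp
          rw [e, div_le_div_iff₀ (by positivity) (by positivity)]
          have h2 : 0 ≤ x ^ 2 := by positivity
          nlinarith [mul_nonneg h2 hx0.le, pow_pos hx0 4, pow_pos hx0 3, pow_pos hx0 2]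
        linarith
    have := key N h
    have h0 : (0 : ℝ) ≤ 1 / (N : ℝ) ^ 2 := by positivity
    linarith

/-- Splitting the lines at richness `M`. -/
theorem sum_bound_pin (P : Finset E3) (M : ℕ) (hM : 1 ≤ M) (h : ℕ)
    (hh : ∀ p ∈ P, (pinSet P p).card ≤ h) :
    (P.card : ℝ) ≤ ((P.image proj).card : ℝ) * M + 2 ^ 17 * (h : ℝ) ^ 3 / (M : ℝ) ^ 2 := by
  set U := P.image proj with hU
  set N := P.card with hN
  have hfibN : ∀ b, (fib P b).card ≤ N := by
    intro b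
    rw [card_fib]
    exact Finset.card_filter_le _ _
  have hpt : ∀ b, (fib P b).card ≤ M +
      ((Finset.Ioc M N).filter (fun m => m ≤ (fib P b).card)).card := by
    intro b
    have : Finset.Ioc M (fib P b).card ⊆ (Finset.Ioc M N).filter (fun m => m ≤ (fib P b).card) := by
      intro m hm
      have hm' := Finset.mem_Ioc.mp hm
      exact Finset.mem_filter.mpr ⟨Finset.mem_Ioc.mpr ⟨hm'.1, le_trans hm'.2 (hfibN b)⟩, hm'.2⟩
    have h2 := Finset.card_le_card this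
    rw [Nat.card_Ioc] at h2
    omega
  have hsum : N ≤ U.card * M + ∑ m ∈ Finset.Ioc M N, (richBase P m).card := by
    calc N = ∑ b ∈ U, (fib P b).card := card_eq_sum_fib P
      _ ≤ ∑ b ∈ U, (M + ((Finset.Ioc M N).filter (fun m => m ≤ (fib P b).card)).card) :=
          Finset.sum_le_sum (fun b _ => hpt b)
      _ = U.card * M + ∑ b ∈ U, ((Finset.Ioc M N).filter (fun m => m ≤ (fib P b).card)).card := by
          rw [Finset.sum_add_distrib]
          simp
      _ = U.card * M + ∑ m ∈ Finset.Ioc M N, (richBase P m).card := by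
          congr 1
          simp only [Finset.card_filter]
          rw [Finset.sum_comm]
          apply Finset.sum_congr rfl
          intro m _
          unfold richBase
          rw [Finset.card_filter]
  have hMr : (0 : ℝ) < M := by exact_mod_cast hM
  have hrich : ∀ m ∈ Finset.Ioc M N, ((richBase P m).card : ℝ) ≤
      2 ^ 17 * (h : ℝ) ^ 3 * ((1 : ℝ) / (m : ℝ) ^ 3) := by
    intro m hm
    have hm' := (Finset.mem_Ioc.mp hm).1
    have h2 : 2 ≤ m := by omega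
    have hc := rich_count_pin P m h2 h hh
    have hc' : ((richBase P m).card : ℝ) * (m : ℝ) ^ 3 ≤ 2 ^ 17 * (h : ℝ) ^ 3 := by
      exact_mod_cast hc
    have hmpos : (0 : ℝ) < (m : ℝ) ^ 3 := by
      have : (0 : ℝ) < m := by exact_mod_cast (by omega : 0 < m)
      positivity
    rw [mul_one_div, le_div_iff₀ hmpos]
    exact hc'
  have hfinal : ((∑ m ∈ Finset.Ioc M N, (richBase P m).card : ℕ) : ℝ) ≤
      2 ^ 17 * (h : ℝ) ^ 3 / (M : ℝ) ^ 2 := by
    push_cast
    calc ∑ m ∈ Finset.Ioc M N, ((richBase P m).card : ℝ)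
        ≤ ∑ m ∈ Finset.Ioc M N, 2 ^ 17 * (h : ℝ) ^ 3 * ((1 : ℝ) / (m : ℝ) ^ 3) :=
          Finset.sum_le_sum hrich
      _ = 2 ^ 17 * (h : ℝ) ^ 3 * ∑ m ∈ Finset.Ioc M N, ((1 : ℝ) / (m : ℝ) ^ 3) := by
          rw [Finset.mul_sum]
      _ ≤ 2 ^ 17 * (h : ℝ) ^ 3 * (1 / (M : ℝ) ^ 2) :=
          mul_le_mul_of_nonneg_left (sum_inv_three_le M N hM) (by positivity)
      _ = _ := by ring
  have hcast : (N : ℝ) ≤ ((U.card * M : ℕ) : ℝ) +
      ((∑ m ∈ Finset.Ioc M N, (richBase P m).card : ℕ) : ℝ) := by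
    exact_mod_cast hsum
  push_cast at hcast hfinal
  linarith

theorem cube_add_le (a b : ℝ) (ha : 0 ≤ a) (hb : 0 ≤ b) : (a + b) ^ 3 ≤ 4 * (a ^ 3 + b ^ 3) := by
  nlinarith [mul_nonneg (add_nonneg ha hb) (sq_nonneg (a - b)), mul_nonneg ha hb]

theorem pow_three_bound (c t M u : ℝ) (hM : 0 < M) (h : t ^ 3 ≤ M ^ 3 * u) (hc : 0 ≤ c) (ht : 0 ≤ t) :
    (c * t ^ 3 / M ^ 2) ^ 3 ≤ c ^ 3 * (u ^ 2 * t ^ 3) := by
  rw [div_pow, div_le_iff₀ (by positivity)]
  have h2 : (t ^ 3) ^ 2 ≤ (M ^ 3 * u) ^ 2 := pow_le_pow_left₀ (by positivity) h 2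
  calc (c * t ^ 3) ^ 3 = c ^ 3 * t ^ 3 * (t ^ 3) ^ 2 := by ring
    _ ≤ c ^ 3 * t ^ 3 * (M ^ 3 * u) ^ 2 := mul_le_mul_of_nonneg_left h2 (by positivity)
    _ = _ := by ring

theorem lines_arith_pin (n u t M : ℕ) (hM : 1 ≤ M)
    (hb : (n : ℝ) ≤ (u : ℝ) * (M : ℝ) + 2 ^ 17 * (t : ℝ) ^ 3 / (M : ℝ) ^ 2)
    (hMspec : t ^ 3 ≤ M ^ 3 * u) (hmin : 1 < M → (M - 1) ^ 3 * u < t ^ 3) (hn : 2 * u ≤ n) :
    (n : ℝ) ^ 3 ≤ 2 ^ 54 * ((u : ℝ) ^ 2 * (t : ℝ) ^ 3) := by
  have hMr : (0 : ℝ) < M := by exact_mod_cast hM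
  have hMspecR : (t : ℝ) ^ 3 ≤ (M : ℝ) ^ 3 * (u : ℝ) := by exact_mod_cast hMspec
  have hprod0 : 0 ≤ (u : ℝ) ^ 2 * (t : ℝ) ^ 3 := by positivity
  have hnr : (0 : ℝ) ≤ n := by positivity
  generalize hX : (u : ℝ) ^ 2 * (t : ℝ) ^ 3 = X at hprod0 ⊢
  have hBb4 : ((2 : ℝ) ^ 17 * (t : ℝ) ^ 3 / (M : ℝ) ^ 2) ^ 3 ≤ ((2 : ℝ) ^ 17) ^ 3 * X := by
    rw [← hX]
    exact pow_three_bound (2 ^ 17) (t : ℝ) (M : ℝ) (u : ℝ) hMr hMspecR (by norm_num) (by positivity)
  have hB0 : 0 ≤ (2 : ℝ) ^ 17 * (t : ℝ) ^ 3 / (M : ℝ) ^ 2 := by positivity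
  generalize hB : (2 : ℝ) ^ 17 * (t : ℝ) ^ 3 / (M : ℝ) ^ 2 = Bb at hb hBb4 hB0
  have e51 : ((2 : ℝ) ^ 17) ^ 3 = 2251799813685248 := by norm_num
  have e54 : (2 : ℝ) ^ 54 = 18014398509481984 := by norm_num
  rw [e51] at hBb4
  rw [e54]
  rcases Nat.lt_or_ge 1 M with hM2 | hM1
  · have hmin' := hmin hM2
    have h2M : M ≤ 2 * (M - 1) := by omega
    have hM4 : M ^ 3 * u ≤ 8 * t ^ 3 := by
      calc M ^ 3 * u ≤ (2 * (M - 1)) ^ 3 * u :=
            Nat.mul_le_mul_right _ (Nat.pow_le_pow_left h2M 3)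
        _ = 8 * ((M - 1) ^ 3 * u) := by ring
        _ ≤ 8 * t ^ 3 := Nat.mul_le_mul_left _ (le_of_lt hmin')
    have hM4r : (M : ℝ) ^ 3 * (u : ℝ) ≤ 8 * (t : ℝ) ^ 3 := by exact_mod_cast hM4
    have hA4 : ((u : ℝ) * M) ^ 3 ≤ 8 * X := by
      rw [← hX]
      calc ((u : ℝ) * M) ^ 3 = (u : ℝ) ^ 2 * ((M : ℝ) ^ 3 * (u : ℝ)) := by ring
        _ ≤ (u : ℝ) ^ 2 * (8 * (t : ℝ) ^ 3) :=
            mul_le_mul_of_nonneg_left hM4r (by positivity)
        _ = _ := by ring
    have h4 : (n : ℝ) ^ 3 ≤ ((u : ℝ) * M + Bb) ^ 3 := pow_le_pow_left₀ hnr hb 3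
    have h5 := cube_add_le ((u : ℝ) * M) Bb (by positivity) hB0
    linarith
  · have hM1' : M = 1 := by omega
    have hn2 : 2 * (u : ℝ) ≤ n := by exact_mod_cast hn
    have hle : (n : ℝ) ≤ 2 * Bb := by
      rw [hM1'] at hb
      push_cast at hb
      linarith
    have h4 : (n : ℝ) ^ 3 ≤ (2 * Bb) ^ 3 := pow_le_pow_left₀ hnr hle 3
    have e : (2 * Bb) ^ 3 = 8 * Bb ^ 3 := by ring
    rw [e] at h4
    linarith

/-- **Few parallel lines, pinned.**  If all points of `P` pin at most `h` squared distances, `P`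
meets `u` vertical lines and `n ≥ 2 u`, then `n ^ 3 ≤ 2 ^ 54 * u ^ 2 * h ^ 3`. -/
theorem lines_bound_pin (P : Finset E3) (hn : 2 * (P.image proj).card ≤ P.card) (h : ℕ)
    (hh : ∀ p ∈ P, (pinSet P p).card ≤ h) :
    P.card ^ 3 ≤ 2 ^ 54 * ((P.image proj).card ^ 2 * h ^ 3) := by
  rcases Nat.eq_zero_or_pos (P.image proj).card with hu0 | hupos
  · have hUe : P.image proj = ∅ := Finset.card_eq_zero.mp hu0
    have hP : P = ∅ := Finset.image_eq_empty.mp hUe
    simp [hP]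
  have hb := fun M hM => sum_bound_pin P M hM h hh
  obtain ⟨p0, hp0⟩ : P.Nonempty := by
    by_contra hne
    rw [Finset.not_nonempty_iff_eq_empty] at hne
    rw [hne] at hupos
    simp at hupos
  have htpos : 0 < h := by
    have h1 := hh p0 hp0
    have h2 : 0 < (pinSet P p0).card := Finset.card_pos.mpr ⟨_, mem_pinSet (p := p0) hp0⟩
    omega
  generalize hu : (P.image proj).card = u at hb hn hupos ⊢
  generalize hnn : P.card = n at hb hn ⊢
  have hex : ∃ M : ℕ, h ^ 3 ≤ M ^ 3 * u := ⟨h, Nat.le_mul_of_pos_right _ hupos⟩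
  have hMspec : h ^ 3 ≤ (Nat.find hex) ^ 3 * u := Nat.find_spec hex
  have hMpos : 1 ≤ Nat.find hex := by
    by_contra hlt
    have h0 : Nat.find hex = 0 := by omega
    rw [h0] at hMspec
    simp at hMspec
    omega
  have hreal := lines_arith_pin n u h (Nat.find hex) hMpos (hb _ hMpos) hMspec (by
    intro hM2
    have hmin : ¬ h ^ 3 ≤ (Nat.find hex - 1) ^ 3 * u := Nat.find_min hex (by omega)
    omega) hn
  exact_mod_cast hreal

/-- The pinned squared distances are controlled by the pinned distances. -/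
theorem card_pinSet_le (P : Finset E3) (p : E3) :
    (pinSet P p).card ≤ ((P.erase p).image (fun q => ‖q - p‖)).card + 1 := by
  have hsub : pinSet P p ⊆ insert 0 (((P.erase p).image (fun q => ‖q - p‖)).image (fun r => r ^ 2)) := by
    intro y hy
    obtain ⟨q, hq, rfl⟩ := Finset.mem_image.mp hy
    by_cases hqp : q = p
    · simp [hqp]
    · apply Finset.mem_insert_of_mem
      refine Finset.mem_image.mpr ⟨‖q - p‖, Finset.mem_image.mpr
        ⟨q, Finset.mem_erase.mpr ⟨hqp, hq⟩, rfl⟩, ?_⟩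
      rw [norm_sub_rev]
  calc (pinSet P p).card ≤ _ := Finset.card_le_card hsub
    _ ≤ (((P.erase p).image (fun q => ‖q - p‖)).image (fun r => r ^ 2)).card + 1 :=
        Finset.card_insert_le _ _
    _ ≤ _ := Nat.add_le_add_right Finset.card_image_le 1

/-- **Few parallel lines, pinned**: some point of `P` pins many distances. -/
theorem lines_pinned_exists (P : Finset E3) (hne : P.Nonempty)
    (hn : 2 * (P.image proj).card ≤ P.card) :
    ∃ p ∈ P, P.card ^ 3 ≤ 2 ^ 54 * ((P.image proj).card ^ 2 *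
      (((P.erase p).image (fun q => ‖q - p‖)).card + 1) ^ 3) := by
  obtain ⟨p, hp, hmax⟩ := Finset.exists_max_image P
    (fun p => ((P.erase p).image (fun q => ‖q - p‖)).card + 1) hne
  refine ⟨p, hp, ?_⟩
  exact lines_bound_pin P hn _ (fun q hq => le_trans (card_pinSet_le P q) (hmax q hq))

end Vale.Agent.Lib.P054
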