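import Vale.Agent.Lib.P054.CoreAt
import Vale.Agent.Lib.P054.Geom

open Finset

open scoped Classical

namespace Vale.Agent.Lib.P054

open Vale.Agent.Lib.P041

variable {d : ℕ}

/-- Pinned at a line `a`, a family of lines at pairwise different distances from `a`, each carrying
`m` points, behaves like a planar set on parallel lines. -/
theorem planar_step {v : EE d} (hv : ‖v‖ = 1) (P : Finset (EE d)) (hP : 2 ≤ P.card)
    (R : Finset (EE d)) (a : EE d) (ha : a ∈ R)
    (hinj : Set.InjOn (fun g => ‖a - g‖) (R : Set (EE d))) (m : ℕ) (hm : 0 < m)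
    (C : EE d → Finset (EE d)) (hCP : ∀ g ∈ R, C g ⊆ P)
    (hCf : ∀ g ∈ R, ∀ y ∈ C g, foot v y = g) (hCc : ∀ g ∈ R, (C g).card = m) :
    ∃ x ∈ P, (1 / 60 : ℝ) * min ((R.card : ℝ) * (m : ℝ)) ((m : ℝ) ^ (7 / 6 : ℝ)) ≤
      (((P.erase x).image (fun y => ‖y - x‖)).card : ℝ) := by
  set U := R.biUnion C with hU
  set f : EE d → ℝ × ℝ := fun y => (‖a - foot v y‖, inner ℝ v y) with hf
  have hUmem : ∀ y ∈ U, foot v y ∈ R ∧ y ∈ C (foot v y) := by
    intro y hy
    obtain ⟨g, hg, hyg⟩ := Finset.mem_biUnion.mp hy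
    have e := hCf g hg y hyg
    rw [e]
    exact ⟨hg, hyg⟩
  have hfinj : Set.InjOn f (U : Set (EE d)) := by
    intro y hy y' hy' h
    have h1 := (Prod.ext_iff.mp h).1
    have h2 := (Prod.ext_iff.mp h).2
    have h3 : foot v y = foot v y' :=
      hinj (Finset.mem_coe.mpr (hUmem y (Finset.mem_coe.mp hy)).1)
        (Finset.mem_coe.mpr (hUmem y' (Finset.mem_coe.mp hy')).1) h1
    exact eq_of_foot_eq h3 h2
  have hUcard : U.card = R.card * m := by
    rw [hU, Finset.card_biUnion]
    · rw [Finset.sum_congr rfl hCc, Finset.sum_const, smul_eq_mul]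
    · intro g hg g' hg' hne
      show Disjoint (C g) (C g')
      rw [Finset.disjoint_left]
      intro y hy hy'
      exact hne ((hCf g (Finset.mem_coe.mp hg) y hy).symm.trans
        (hCf g' (Finset.mem_coe.mp hg') y hy'))
  set Q := U.image f with hQ
  have hQcard : Q.card = R.card * m := by
    rw [hQ, Finset.card_image_of_injOn hfinj, hUcard]
  have hQfst : Q.image Prod.fst = R.image (fun g => ‖a - g‖) := by
    ext c
    simp only [Finset.mem_image, hQ, exists_exists_and_eq_and]
    constructor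
    · rintro ⟨y, hy, rfl⟩
      exact ⟨foot v y, (hUmem y hy).1, rfl⟩
    · rintro ⟨g, hg, rfl⟩
      have hne : (C g).Nonempty := by
        rw [← Finset.card_pos, hCc g hg]
        exact hm
      obtain ⟨y, hy⟩ := hne
      refine ⟨y, Finset.mem_biUnion.mpr ⟨g, hg, hy⟩, ?_⟩
      simp only [hf]
      rw [hCf g hg y hy]
  have hQk : (Q.image Prod.fst).card = R.card := by
    rw [hQfst, Finset.card_image_of_injOn hinj]
  have hcol : ∀ g ∈ R, (col Q ‖a - g‖).card = m := by
    intro g hg
    rw [card_col]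
    have e : Q.filter (fun p => p.1 = ‖a - g‖) = (C g).image f := by
      ext p
      simp only [Finset.mem_filter, Finset.mem_image, hQ]
      constructor
      · rintro ⟨⟨y, hy, rfl⟩, h⟩
        refine ⟨y, ?_, rfl⟩
        have h3 : foot v y = g := hinj (Finset.mem_coe.mpr (hUmem y hy).1) (Finset.mem_coe.mpr hg) h
        have := (hUmem y hy).2
        rwa [h3] at this
      · rintro ⟨y, hy, rfl⟩
        refine ⟨⟨y, Finset.mem_biUnion.mpr ⟨g, hg, hy⟩, rfl⟩, ?_⟩
        simp only [hf]
        rw [hCf g hg y hy]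
    rw [e, Finset.card_image_of_injOn, hCc g hg]
    intro y hy y' hy' h
    exact hfinj (Finset.mem_coe.mpr (Finset.mem_biUnion.mpr ⟨g, hg, Finset.mem_coe.mp hy⟩))
      (Finset.mem_coe.mpr (Finset.mem_biUnion.mpr ⟨g, hg, Finset.mem_coe.mp hy'⟩)) h
  have hRpos : 0 < R.card := Finset.card_pos.mpr ⟨a, ha⟩
  have hRreal : (0 : ℝ) < (R.card : ℝ) := by exact_mod_cast hRpos
  by_cases hbig : 2 ≤ R.card * m
  · -- the planar theorem applies
    have hzero : (0 : ℝ) ∈ Q.image Prod.fst := by
      rw [hQfst]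
      exact Finset.mem_image.mpr ⟨a, ha, by simp⟩
    have hcol0 : (col Q 0).card = m := by
      have := hcol a ha
      simpa using this
    have hmax : ∀ g ∈ Q.image Prod.fst, (col Q g).card ≤ (col Q 0).card := by
      intro c hc
      rw [hQfst] at hc
      obtain ⟨g, hg, rfl⟩ := Finset.mem_image.mp hc
      show (col Q ‖a - g‖).card ≤ _
      rw [hcol g hg, hcol0]
    obtain ⟨b, hb, hbound⟩ := core_at Q (by rw [hQcard]; exact hbig) 0 hzero hmax
    have hx' : ((0 : ℝ), b) ∈ Q := mem_col.mp hb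
    obtain ⟨x, hxU, hfx⟩ := Finset.mem_image.mp hx'
    have hfx1 : ‖a - foot v x‖ = 0 := (Prod.ext_iff.mp hfx).1
    have hfx2 : inner ℝ v x = b := (Prod.ext_iff.mp hfx).2
    have hfoot : foot v x = a := (sub_eq_zero.mp (norm_eq_zero.mp hfx1)).symm
    have hUP : U ⊆ P := by
      intro y hy
      obtain ⟨g, hg, hyg⟩ := Finset.mem_biUnion.mp hy
      exact hCP g hg hyg
    refine ⟨x, hUP hxU, ?_⟩
    have hsub : (Q.erase (0, b)).image (sqd (0, b)) ⊆
        ((P.erase x).image (fun y => ‖y - x‖)).image (fun r => r ^ 2) := by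
      intro r hr
      obtain ⟨p, hp, rfl⟩ := Finset.mem_image.mp hr
      obtain ⟨hne, hpQ⟩ := Finset.mem_erase.mp hp
      obtain ⟨y, hy, rfl⟩ := Finset.mem_image.mp hpQ
      have hyx : y ≠ x := by
        rintro rfl
        exact hne hfx
      refine Finset.mem_image.mpr ⟨‖y - x‖, Finset.mem_image.mpr
        ⟨y, Finset.mem_erase.mpr ⟨hyx, hUP hy⟩, rfl⟩, ?_⟩
      rw [pyth hv y x, hfoot, hfx2]
      simp only [hf, sqd]
      rw [norm_sub_rev (foot v y) a]
      ring
    have hle : (((Q.erase (0, b)).image (sqd (0, b))).card : ℝ) ≤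
        (((P.erase x).image (fun y => ‖y - x‖)).card : ℝ) := by
      have h1 := Finset.card_le_card hsub
      have h2 : ((((P.erase x).image (fun y => ‖y - x‖)).image (fun r => r ^ 2))).card ≤
          ((P.erase x).image (fun y => ‖y - x‖)).card := Finset.card_image_le
      exact_mod_cast h1.trans h2
    refine le_trans (le_of_eq ?_) (hbound.trans hle)
    rw [hQcard, hQk]
    push_cast
    congr 2
    field_simp
  · -- one point only: any point of `P` sees at least one distance
    have hm1 : R.card * m ≤ 1 := by omega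
    have hne : (C a).Nonempty := by
      rw [← Finset.card_pos, hCc a ha]
      exact hm
    obtain ⟨x, hx⟩ := hne
    have hxP : x ∈ P := hCP a ha hx
    refine ⟨x, hxP, ?_⟩
    have herase : (P.erase x).Nonempty := by
      rw [← Finset.card_pos, Finset.card_erase_of_mem hxP]
      omega
    have hcard1 : 1 ≤ ((P.erase x).image (fun y => ‖y - x‖)).card :=
      Finset.card_pos.mpr (herase.image _)
    have h1 : (1 : ℝ) ≤ (((P.erase x).image (fun y => ‖y - x‖)).card : ℝ) := by
      exact_mod_cast hcard1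
    have h2 : min ((R.card : ℝ) * (m : ℝ)) ((m : ℝ) ^ (7 / 6 : ℝ)) ≤ 1 := by
      refine le_trans (min_le_left _ _) ?_
      exact_mod_cast hm1
    linarith

end Vale.Agent.Lib.P054
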