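import Vale.Agent.Lib.P054.Moser

/-!
A collinear subset of a planar set pins many distances.
-/

open Finset

open scoped Classical

namespace Vale.Agent.Lib.P054

/-- If `A ⊂ P` consists of `m ≥ 2` points on a line, and each of them pins at most `h` squared
distances to `P`, then `|P| * m ≤ 512 h ^ 2`. -/
theorem rich_line_pin (P A : Finset E2) (v : E2) (hv : v ≠ 0) (ν : ℝ)
    (hA : ∀ a ∈ A, a ∈ P ∧ coY v a = ν) (hm : 2 ≤ A.card) (h : ℕ)
    (hh : ∀ a ∈ A, (pinSet P a).card ≤ h) :
    P.card * A.card ≤ 512 * h ^ 2 := by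
  set X := A.image (coZ v) with hX
  have hXcard : X.card = A.card := by
    apply Finset.card_image_of_injOn
    intro a ha a' ha' h'
    exact co_inj v hv (((hA a ha).2).trans ((hA a' ha').2).symm) h'
  have hXne : X.Nonempty := Finset.card_pos.mp (by omega)
  -- a line with `m` points pins `m` squared distances at its lowest point
  have hmh : A.card ≤ h := by
    obtain ⟨a0, ha0, hz0⟩ := Finset.mem_image.mp (Finset.min'_mem X hXne)
    have hinj : Set.InjOn (fun a => ‖a0 - a‖ ^ 2) (A : Set E2) := by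
      intro a ha a' ha' hEq
      have e1 := dist_co v hv a0 a
      have e2 := dist_co v hv a0 a'
      simp only at hEq
      rw [e1, e2, (hA a0 ha0).2, (hA a (Finset.mem_coe.mp ha)).2,
        (hA a' (Finset.mem_coe.mp ha')).2] at hEq
      have hle1 : coZ v a0 ≤ coZ v a := by
        rw [hz0]
        exact Finset.min'_le _ _ (Finset.mem_image_of_mem _ (Finset.mem_coe.mp ha))
      have hle2 : coZ v a0 ≤ coZ v a' := by
        rw [hz0]
        exact Finset.min'_le _ _ (Finset.mem_image_of_mem _ (Finset.mem_coe.mp ha'))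
      have h3 : (coZ v a - coZ v a0) ^ 2 = (coZ v a' - coZ v a0) ^ 2 := by nlinarith
      have h4 : coZ v a - coZ v a0 = coZ v a' - coZ v a0 :=
        (pow_left_inj₀ (by linarith) (by linarith) (by norm_num)).mp h3
      exact co_inj v hv (((hA a (Finset.mem_coe.mp ha)).2).trans
        ((hA a' (Finset.mem_coe.mp ha')).2).symm) (by linarith)
    calc A.card = (A.image (fun a => ‖a0 - a‖ ^ 2)).card :=
          (Finset.card_image_of_injOn hinj).symm
      _ ≤ (pinSet P a0).card := by
          apply Finset.card_le_card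
          intro y hy
          obtain ⟨a, ha, rfl⟩ := Finset.mem_image.mp hy
          exact mem_pinSet (hA a ha).1
      _ ≤ h := hh a0 ha0
  set C := P.image (curveOf v ν) with hC
  have hu2 : P.card ≤ 2 * C.card :=
    Finset.card_le_mul_card_image (f := curveOf v ν) P 2
      (fun c _ => curve_fiber_le_two v hv ν P c)
  have hT : ∀ x ∈ X, (C.image (fun c => par c x)).card ≤ h := by
    intro x hx
    obtain ⟨a, ha, rfl⟩ := Finset.mem_image.mp hx
    refine le_trans (Finset.card_le_card ?_) (hh a ha)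
    intro y hy
    obtain ⟨c, hc, rfl⟩ := Finset.mem_image.mp hy
    obtain ⟨q, hq, rfl⟩ := Finset.mem_image.mp hc
    rw [par_curveOf v hv ν a q (hA a ha).2]
    exact mem_pinSet hq
  have hhpos : 0 < h := by omega
  rcases Nat.lt_or_ge C.card (4 * h) with hsmall | hbig
  · calc P.card * A.card ≤ (2 * C.card) * h := Nat.mul_le_mul hu2 hmh
      _ ≤ (2 * (4 * h)) * h := Nat.mul_le_mul_right _ (by omega)
      _ = 8 * h ^ 2 := by ring
      _ ≤ 512 * h ^ 2 := by nlinarith
  · have hfc := full_column X C h hT hhpos hbig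
    rw [hXcard] at hfc
    have h2m : A.card ≤ 2 * (A.card - 1) := by omega
    calc P.card * A.card ≤ (2 * C.card) * (2 * (A.card - 1)) := Nat.mul_le_mul hu2 h2m
      _ = 4 * ((A.card - 1) * C.card) := by ring
      _ ≤ 4 * (128 * h ^ 2) := Nat.mul_le_mul_left _ hfc
      _ = 512 * h ^ 2 := by ring

/-- The pinned squared distances are controlled by the pinned distances. -/
theorem card_pinSet_le_E2 (P : Finset E2) (p : E2) :
    (pinSet P p).card ≤ ((P.erase p).image (fun q => ‖q - p‖)).card + 1 := by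
  have hsub : pinSet P p ⊆ insert 0 (((P.erase p).image (fun q => ‖q - p‖)).image (fun r => r ^ 2)) := by
    intro y hy
    obtain ⟨q, hq, rfl⟩ := Finset.mem_image.mp hy
    by_cases hqp : q = p
    · simp [hqp]
    · apply Finset.mem_insert_of_mem
      refine Finset.mem_image.mpr ⟨‖q - p‖, Finset.mem_image.mpr
        ⟨q, Finset.mem_erase.mpr ⟨hqp, hq⟩, rfl⟩, ?_⟩
      rw [norm_sub_rev]
  calc (pinSet P p).card ≤ _ := Finset.card_le_card hsub
    _ ≤ (((P.erase p).image (fun q => ‖q - p‖)).image (fun r => r ^ 2)).card + 1 :=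
        Finset.card_insert_le _ _
    _ ≤ _ := Nat.add_le_add_right Finset.card_image_le 1

/-- **Collinear subset.**  If `A ⊂ P ⊂ ℝ²` has `m ≥ 2` points on the line `⟪v, x⟫ = κ`, with
`v ≠ 0`, then some `a ∈ A` has `|P| m ≤ 512 (|D_a(P)| + 1) ^ 2`. -/
theorem rich_line_exists (P A : Finset E2) (v : E2) (hv : v ≠ 0) (κ : ℝ)
    (hAP : A ⊆ P) (hline : ∀ a ∈ A, v 0 * a 0 + v 1 * a 1 = κ) (hm : 2 ≤ A.card) :
    ∃ a ∈ A, P.card * A.card ≤
      512 * (((P.erase a).image (fun q => ‖q - a‖)).card + 1) ^ 2 := by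
  have hne : A.Nonempty := Finset.card_pos.mp (by omega)
  obtain ⟨a, ha, hmax⟩ := Finset.exists_max_image A
    (fun a => ((P.erase a).image (fun q => ‖q - a‖)).card + 1) hne
  refine ⟨a, ha, ?_⟩
  apply rich_line_pin P A v hv (κ / ‖v‖) _ hm _
    (fun b hb => le_trans (card_pinSet_le_E2 P b) (hmax b hb))
  intro b hb
  refine ⟨hAP hb, ?_⟩
  unfold coY
  rw [hline b hb]

end Vale.Agent.Lib.P054
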