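import Vale.Agent.Lib.P054.Fibers

/-!
Rich parallel lines in a set with few distances: no assumption on the heights.
-/

open Finset

open scoped Classical

namespace Vale.Agent.Lib.P054

variable {E : Type*} [NormedAddCommGroup E] [InnerProductSpace ℝ E]

omit [InnerProductSpace ℝ E] in
theorem sq_fiber_le_two (y δ s : ℝ) (D : Finset ℝ) :
    (D.filter (fun d => (d + s) ^ 2 + δ = y)).card ≤ 2 := by
  have hsub : D.filter (fun d => (d + s) ^ 2 + δ = y) ⊆
      {Real.sqrt (y - δ) - s, -Real.sqrt (y - δ) - s} := by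
    intro d hd
    have h := (Finset.mem_filter.mp hd).2
    have h1 : (d + s) ^ 2 = y - δ := by linarith
    have h2 : y - δ = Real.sqrt (y - δ) ^ 2 := by
      rw [Real.sq_sqrt]
      rw [← h1]
      positivity
    rw [h2] at h1
    simp only [Finset.mem_insert, Finset.mem_singleton]
    rcases sq_eq_sq_iff_eq_or_eq_neg.mp h1 with h3 | h3
    · left; linarith
    · right; linarith
  exact le_trans (Finset.card_le_card hsub) Finset.card_le_two

/-- Heights of two lines differ in few ways. -/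
theorem card_diff_le (e : E) (he : ‖e‖ = 1) (P : Finset E) (q q0 : E) (A A0 : Finset ℝ)
    (hA : ∀ x ∈ A, q + x • e ∈ P) (hA0 : ∀ x ∈ A0, q0 + x • e ∈ P) :
    ((A ×ˢ A0).image (fun z => z.1 - z.2)).card ≤ 2 * (sqSet P).card := by
  set D := (A ×ˢ A0).image (fun z => z.1 - z.2) with hD
  set s : ℝ := inner ℝ (q - q0) e with hs
  set δ := horiz e (q, q0) with hδ
  apply Finset.card_le_mul_card_image_of_maps_to (f := fun d => (d + s) ^ 2 + δ)
  · intro d hd
    obtain ⟨z, hz, rfl⟩ := Finset.mem_image.mp hd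
    have hz' := Finset.mem_product.mp hz
    have key := dist_identity e he q q0 z.1 z.2
    have h2 : par (z.2 - inner ℝ (q - q0) e, horiz e (q, q0)) z.1 = (z.1 - z.2 + s) ^ 2 + δ := by
      unfold par
      simp only [hs, hδ]
      ring
    rw [h2] at key
    rw [← key]
    exact mem_sqSet (hA _ hz'.1) (hA0 _ hz'.2)
  · intro y _
    exact sq_fiber_le_two y δ s D

/-- Projected distances do not see a shift along `e`. -/
theorem horiz_shift (e : E) (he : ‖e‖ = 1) (q q' : E) (d d' : ℝ) :
    horiz e (q + d • e, q' + d' • e) = horiz e (q, q') := by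
  have h1 : (q + d • e) - (q' + d' • e) = (q - q') + (d - d') • e := by
    rw [sub_smul]; abel
  unfold horiz
  simp only
  rw [h1, norm_add_sq_real, inner_add_left, real_inner_smul_right, real_inner_smul_left, norm_smul,
    he, real_inner_self_eq_norm_sq, he]
  simp only [Real.norm_eq_abs, mul_one, sq_abs, one_pow]
  ring

/-- **Rich lines.** Let `Q` index parallel lines (direction `e`), each carrying at least `m`
points of `P`, at arbitrary heights. If `2 |T| < m^2`, `T` the set of squared distances of `P`,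
then `m^6 |H| ≤ 8192 |T|^6`, `H` the set of squared distances of the projection of `Q`. -/
theorem rich_lines (e : E) (he : ‖e‖ = 1) (Q : Finset E) (A : E → Finset ℝ) (P : Finset E) (m : ℕ)
    (hne : Q.Nonempty) (hm : ∀ q ∈ Q, m ≤ (A q).card) (hP : ∀ q ∈ Q, ∀ x ∈ A q, q + x • e ∈ P)
    (hbig : 2 * (sqSet P).card < m ^ 2) :
    m ^ 6 * (horizSet e Q).card ≤ 8192 * (sqSet P).card ^ 6 := by
  set τ := (sqSet P).card with hτ
  obtain ⟨q0, hq0⟩ := hne
  have hmpos : 0 < m := by
    rcases Nat.eq_zero_or_pos m with h | h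
    · rw [h] at hbig; simp at hbig
    · exact h
  -- trimmed height sets
  have htrim : ∀ q ∈ Q, ∃ B : Finset ℝ, B ⊆ A q ∧ B.card = m := fun q hq =>
    Finset.exists_subset_card_eq (hm q hq)
  choose! B hB using htrim
  have hBP : ∀ q ∈ Q, ∀ x ∈ B q, q + x • e ∈ P := fun q hq x hx => hP q hq x ((hB q hq).1 hx)
  obtain ⟨x0, hx0⟩ : (B q0).Nonempty := by
    rw [← Finset.card_pos, (hB q0 hq0).2]; exact hmpos
  have hτpos : 0 < τ :=
    Finset.card_pos.mpr ⟨_, mem_sqSet (hBP q0 hq0 x0 hx0) (hBP q0 hq0 x0 hx0)⟩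
  set A0 := B q0 with hA0
  have hA0card : A0.card = m := (hB q0 hq0).2
  -- the popular differences
  set n := (m ^ 2 - 1) / (2 * τ) with hn
  have h2τ : 0 < 2 * τ := by omega
  have hnmul : 2 * τ * n ≤ m ^ 2 - 1 := Nat.mul_div_le _ _
  have hm1 : m ^ 2 ≤ 2 * τ * (n + 1) := by
    have := Nat.lt_mul_div_succ (m ^ 2 - 1) h2τ
    rw [← hn] at this
    have hp : 0 < m ^ 2 := by positivity
    omega
  have hn1 : 1 ≤ n := by
    rw [hn]
    apply (Nat.one_le_div_iff h2τ).mpr
    omega
  have hpop : ∀ q ∈ Q, ∃ d : ℝ, n + 1 ≤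
      ((B q ×ˢ A0).filter (fun z => z.1 - z.2 = d)).card := by
    intro q hq
    set D := (B q ×ˢ A0).image (fun z => z.1 - z.2) with hD
    have hDcard : D.card ≤ 2 * τ := card_diff_le e he P q q0 (B q) A0 (hBP q hq) (hBP q0 hq0)
    have hcard : (B q ×ˢ A0).card = m ^ 2 := by
      rw [Finset.card_product, (hB q hq).2, hA0card]; ring
    have hlt : D.card * n < (B q ×ˢ A0).card := by
      rw [hcard]
      have hp : 0 < m ^ 2 := by positivity
      calc D.card * n ≤ (2 * τ) * n := Nat.mul_le_mul_right _ hDcard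
        _ ≤ m ^ 2 - 1 := hnmul
        _ < m ^ 2 := by omega
    obtain ⟨d, _, hd⟩ := Finset.exists_lt_card_fiber_of_mul_lt_card_of_maps_to
      (f := fun z : ℝ × ℝ => z.1 - z.2) (s := B q ×ˢ A0) (t := D)
      (fun z hz => Finset.mem_image_of_mem _ hz) hlt
    exact ⟨d, hd⟩
  choose! d hd using hpop
  set Q' := Q.image (fun q => q + d q • e) with hQ'
  have hfib : ∀ q' ∈ Q', n + 1 ≤ (A0.filter (fun x => q' + x • e ∈ P)).card := by
    intro q' hq'
    obtain ⟨q, hq, rfl⟩ := Finset.mem_image.mp hq'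
    refine le_trans (hd q hq) ?_
    apply Finset.card_le_card_of_injOn (fun z => z.2)
    · intro z hz
      have hz' := Finset.mem_filter.mp (Finset.mem_coe.mp hz)
      have hz1 := Finset.mem_product.mp hz'.1
      refine Finset.mem_coe.mpr (Finset.mem_filter.mpr ⟨hz1.2, ?_⟩)
      have h3 : q + d q • e + z.2 • e = q + z.1 • e := by
        rw [add_assoc, ← add_smul]
        congr 2
        have := hz'.2
        linarith
      rw [h3]
      exact hBP q hq _ hz1.1
    · intro z hz z' hz' h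
      have h1 := (Finset.mem_filter.mp (Finset.mem_coe.mp hz)).2
      have h2 := (Finset.mem_filter.mp (Finset.mem_coe.mp hz')).2
      simp only at h
      exact Prod.ext (by linarith) h
  have hmain := fiber_bound e he Q' A0 P (n + 1) (by omega) hfib
  rw [hA0card] at hmain
  have hHsub : (horizSet e Q).card ≤ (horizSet e Q').card := by
    apply Finset.card_le_card
    intro y hy
    obtain ⟨z, hz, rfl⟩ := Finset.mem_image.mp hy
    have hz' := Finset.mem_product.mp hz
    refine Finset.mem_image.mpr ⟨(z.1 + d z.1 • e, z.2 + d z.2 • e), ?_, ?_⟩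
    · exact Finset.mem_product.mpr
        ⟨Finset.mem_image_of_mem _ hz'.1, Finset.mem_image_of_mem _ hz'.2⟩
    · exact horiz_shift e he _ _ _ _
  set h := (horizSet e Q).card with hh
  have hfinal : m ^ 2 * (m ^ 6 * h) ≤ m ^ 2 * (8192 * τ ^ 6) := by
    calc m ^ 2 * (m ^ 6 * h) = (m ^ 2) ^ 4 * h := by ring
      _ ≤ (2 * τ * (n + 1)) ^ 4 * h := Nat.mul_le_mul_right _ (Nat.pow_le_pow_left hm1 4)
      _ = 16 * τ ^ 4 * (h * (n + 1) ^ 4) := by ring
      _ ≤ 16 * τ ^ 4 * ((horizSet e Q').card * (n + 1) ^ 4) :=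
          Nat.mul_le_mul_left _ (Nat.mul_le_mul_right _ hHsub)
      _ ≤ 16 * τ ^ 4 * (512 * (m ^ 2 * τ ^ 2)) := Nat.mul_le_mul_left _ hmain
      _ = m ^ 2 * (8192 * τ ^ 6) := by ring
  exact Nat.le_of_mul_le_mul_left hfinal (by positivity)

/-- The same in terms of the number of distinct distances. -/
theorem rich_lines_main (e : E) (he : ‖e‖ = 1) (Q : Finset E) (A : E → Finset ℝ) (P : Finset E)
    (m : ℕ) (hne : Q.Nonempty) (hm : ∀ q ∈ Q, m ≤ (A q).card)
    (hP : ∀ q ∈ Q, ∀ x ∈ A q, q + x • e ∈ P) (hbig : 2 * ((distSet P).card + 1) < m ^ 2) :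
    m ^ 6 * (horizSet e Q).card ≤ 8192 * ((distSet P).card + 1) ^ 6 := by
  have hle := card_sqSet_le P
  have h := rich_lines e he Q A P m hne hm hP (lt_of_le_of_lt (by omega) hbig)
  exact le_trans h (Nat.mul_le_mul_left _ (Nat.pow_le_pow_left hle 6))

end Vale.Agent.Lib.P054
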